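import Vale.Agent.P139.H901.Mode
import Vale.Agent.P139.H523.TailUP

/-! P139, block [X], X8: final assembly, exterior description from the profile package. -/

open Set Filter Topology Complex MeasureTheory Metric
open scoped ContDiff ComplexConjugate
open Vale.Agent.P139.BU
open Vale.Agent.P139.H201 (WienerRep nd)
open Vale.Agent.P139.H305 (DB exists_cut)
open Vale.Agent.P139.H311 (RSol)
open Vale.Agent.P139.H523 (up_tail_wiener up_pot_bound contDiff_W1q contDiff_W2q contDiff_W2cq)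
open Vale.Agent.P139.H607 (massN Sl EigPair ExtE2)
open Vale.Agent.P139.H644 (PotBd contDiff_q)
open Vale.Agent.P139.H745 (PhJ PhJs mJ mJs conj_mJ)

namespace Vale.Agent.P139.H901

theorem poly_exp {c : ℝ} (hc : 0 < c) (D : ℝ) (p : ℕ) :
    ∃ m1 : ℕ, ∀ m : ℕ, m1 ≤ m → D * (m : ℝ) ^ p * Real.exp (-(c * m)) ≤ 1 := by
  have h1 : Tendsto (fun m : ℕ => c * (m : ℝ)) atTop atTop :=
    tendsto_natCast_atTop_atTop.const_mul_atTop hc
  have h2 := (Real.tendsto_pow_mul_exp_neg_atTop_nhds_zero p).comp h1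
  have h3 := h2.const_mul (D / c ^ p)
  rw [mul_zero] at h3
  have h4 := h3.eventually (gt_mem_nhds (show (0 : ℝ) < 1 by norm_num))
  obtain ⟨m1, hm1⟩ := eventually_atTop.mp h4
  refine ⟨m1, fun m hm => ?_⟩
  have := hm1 m hm
  have e : D / c ^ p * ((fun x : ℝ => x ^ p * Real.exp (-x)) ∘ fun m : ℕ => c * (m : ℝ)) m =
      D * (m : ℝ) ^ p * Real.exp (-(c * m)) := by
    simp only [Function.comp]
    rw [mul_pow]
    field_simp
  rw [e] at this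
  exact this.le

theorem massN_mono {d K : ℕ} {F G : ℝ → ℂ} (hF : RadAdm K F) (hG : RadAdm K G) {a b : ℝ}
    (ha : 0 ≤ a) (hab : a ≤ b) : massN d F G a ≤ massN d F G b := by
  have bd : ∀ {F : ℝ → ℂ}, RadAdm K F → ∃ M : ℝ, ∀ r, 0 < r → ‖F r‖ ≤ M := by
    intro F hF
    obtain ⟨C0, h0⟩ := hF.bdd0
    obtain ⟨C1, h1⟩ := hF.bddinf 0 (Nat.zero_le _)
    refine ⟨max C0 C1, fun r hr => ?_⟩
    rcases lt_or_ge r 1 with h | h
    · exact (h0 r ⟨hr, h⟩).trans (le_max_left _ _)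
    · have := h1 r h
      rw [iteratedDeriv_zero] at this
      exact this.trans (le_max_right _ _)
  obtain ⟨M1, hM1⟩ := bd hF
  obtain ⟨M2, hM2⟩ := bd hG
  have cF : ContinuousOn F (Ioi 0) := hF.smooth.continuousOn
  have cG : ContinuousOn G (Ioi 0) := hG.smooth.continuousOn
  have hb : 0 ≤ b := ha.trans hab
  unfold massN
  refine intervalIntegral.integral_mono_interval le_rfl ha hab ?_ ?_
  · refine (ae_restrict_iff' measurableSet_Ioc).mpr (Eventually.of_forall fun r hr => ?_)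
    have := hr.1
    simp only [Pi.zero_apply]
    positivity
  · rw [intervalIntegrable_iff_integrableOn_Ioc_of_le hb]
    refine Integrable.of_bound (C := (M1 ^ 2 + M2 ^ 2) * b ^ (d - 1)) ?_ ?_
    · have c : ContinuousOn (fun r : ℝ => (‖F r‖ ^ 2 + ‖G r‖ ^ 2) * r ^ (d - 1)) (Ioi 0) := by
        fun_prop
      exact (c.mono fun r hr => hr.1).aestronglyMeasurable measurableSet_Ioc
    · refine (ae_restrict_iff' measurableSet_Ioc).mpr (Eventually.of_forall fun r hr => ?_)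
      have h0 := hr.1
      have hM1' := hM1 r h0
      have hM2' := hM2 r h0
      have hr0 : 0 ≤ r := h0.le
      rw [Real.norm_of_nonneg (by positivity)]
      have := pow_le_pow_left₀ hr0 hr.2 (d - 1)
      gcongr

/-- conclusion of `ExtJ` at one `m` -/
def ConJ (d K C : ℕ) (η : ℝ) (w R : ℕ → ℝ) (q : ℕ → ℝ → ℂ) (cc : ℝ) (m : ℕ) : Prop :=
  ∀ (l : ℕ) (lam lam0 : ℂ),
    0 ≤ lam.re → 0 ≤ lam0.re → ‖lam‖ ≤ (m : ℝ) ^ C → ‖lam0‖ ≤ (m : ℝ) ^ C →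
    ∀ (F G φ γ : ℝ → ℂ) (c : ℂ), RadAdm K F → RadAdm K G → RadAdm K φ → RadAdm K γ →
    RSol d m l (w m) (q m) lam0 0 φ γ φ γ → RSol d m l (w m) (q m) lam c F G φ γ →
    ∃ α β α0 β0 : ℂ, ∀ r : ℝ, R m + η ≤ r →
      NearJ φ (mJ d l (w m) (lam0 + aa m) (lam0 + aa m) α0 0 0) r
        (Real.exp (-(cc * m)) * Real.sqrt (massN d φ γ (R m + 2 * η))) ∧
      NearJ γ (mJs d l (w m) (lam0 + aa m) (lam0 + aa m) β0 0 0) r
        (Real.exp (-(cc * m)) * Real.sqrt (massN d φ γ (R m + 2 * η))) ∧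
      NearJ F (mJ d l (w m) (lam + aa m) (lam0 + aa m) α α0 c) r
        (Real.exp (-(cc * m)) * (Real.sqrt (massN d F G (R m + 2 * η)) +
          ‖c‖ * Real.sqrt (massN d φ γ (R m + 2 * η)))) ∧
      NearJ G (mJs d l (w m) (lam + aa m) (lam0 + aa m) β β0 c) r
        (Real.exp (-(cc * m)) * (Real.sqrt (massN d F G (R m + 2 * η)) +
          ‖c‖ * Real.sqrt (massN d φ γ (R m + 2 * η))))

theorem NearJ.mono {f g : ℝ → ℂ} {r e e' : ℝ} (h : NearJ f g r e) (he : e ≤ e') :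
    NearJ f g r e' := ⟨h.1.trans he, h.2.trans he⟩

theorem ConJ.mono {d K C : ℕ} {η : ℝ} {w R : ℕ → ℝ} {q : ℕ → ℝ → ℂ} {cc cc' : ℝ} {m : ℕ}
    (h : ConJ d K C η w R q cc m) (hc : cc' ≤ cc) : ConJ d K C η w R q cc' m := by
  intro l lam lam0 h1 h2 h3 h4 F G φ γ c rF rG rφ rγ s0 s1
  obtain ⟨α, β, α0, β0, H⟩ := h l lam lam0 h1 h2 h3 h4 F G φ γ c rF rG rφ rγ s0 s1
  have he : Real.exp (-(cc * m)) ≤ Real.exp (-(cc' * m)) := by
    apply Real.exp_le_exp.mpr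
    have : cc' * m ≤ cc * m := mul_le_mul_of_nonneg_right hc (Nat.cast_nonneg m)
    linarith
  refine ⟨α, β, α0, β0, fun r hr => ?_⟩
  obtain ⟨a, b, c1, c2⟩ := H r hr
  have n0 := Real.sqrt_nonneg (massN d φ γ (R m + 2 * η))
  have n1 : 0 ≤ Real.sqrt (massN d F G (R m + 2 * η)) +
      ‖c‖ * Real.sqrt (massN d φ γ (R m + 2 * η)) := by positivity
  exact ⟨a.mono (mul_le_mul_of_nonneg_right he n0), b.mono (mul_le_mul_of_nonneg_right he n0),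
    c1.mono (mul_le_mul_of_nonneg_right he n1), c2.mono (mul_le_mul_of_nonneg_right he n1)⟩

theorem fin_unif (P : ℕ → ℝ → ℕ → Prop)
    (mono : ∀ j c c' m, c' ≤ c → P j c m → P j c' m) (N : ℕ)
    (h : ∀ j ≤ N, ∃ c > 0, ∃ m1 : ℕ, ∀ m, m1 ≤ m → P j c m) :
    ∃ c > 0, ∃ m1 : ℕ, ∀ m, m1 ≤ m → ∀ j ≤ N, P j c m := by
  induction N with
  | zero =>
    obtain ⟨c, hc, m1, H⟩ := h 0 le_rfl
    exact ⟨c, hc, m1, fun m hm j hj => by
      obtain rfl : j = 0 := by omega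
      exact H m hm⟩
  | succ N ih =>
    obtain ⟨c, hc, m1, H⟩ := ih fun j hj => h j (by omega)
    obtain ⟨c', hc', m1', H'⟩ := h (N + 1) le_rfl
    refine ⟨min c c', lt_min hc hc', max m1 m1', fun m hm j hj => ?_⟩
    rcases Nat.lt_or_ge j (N + 1) with h1 | h1
    · exact mono _ _ _ _ (min_le_left _ _) (H m ((le_max_left _ _).trans hm) j (by omega))
    · obtain rfl : j = N + 1 := by omega
      exact mono _ _ _ _ (min_le_right _ _) (H' m ((le_max_right _ _).trans hm))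

variable {d : ℕ} {B : Set (ℝ × ℝ)} {m0 : ℕ} {w R : ℕ → ℝ} {q : ℕ → ℝ → ℂ}

theorem one_cut (h : UP d B m0 w R q) (hd : 3 ≤ d) {K : ℕ} (hK : KX d ≤ K) (C : ℕ) {η δ ρ0 : ℝ}
    (hδ : 0 < δ) (hρ0 : 0 < ρ0) :
    ∃ c > 0, ∃ m1 : ℕ, ∀ m, m1 ≤ m → R m + δ ≤ ρ0 → ρ0 + δ < R m + η →
      ρ0 + 3 * δ ≤ R m + 2 * η → ConJ d K C η w R q c m := by
  obtain ⟨χ, q1, q2, q3, q4, -⟩ := exists_cut (d := d) hρ0 (show ρ0 < ρ0 + δ by linarith)
  have h1 : 0 < ρ0 + δ := by positivity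
  obtain ⟨n, C', hC', H⟩ := mode_close hd (ρ1 := ρ0 + δ) (ρ2 := ρ0 + 2 * δ) (ρ3 := ρ0 + 3 * δ) h1
    (by linarith) (by linarith) q1 q4
  obtain ⟨c, hc, A, hA, m1, -, T⟩ := up_tail_wiener h (d + 2) hδ q1 (ρ0 := ρ0) (ρ1 := ρ0 + δ)
    (fun x hx => q3 x hx.le) q4
  obtain ⟨A', hA', PB⟩ := up_pot_bound h n
  obtain ⟨w1, hw1, hw⟩ := h.wbd
  obtain ⟨m2, hm2⟩ := poly_exp (half_pos hc) (C' * (6 * (A' : ℝ)) ^ n * A) ((C + 1 + A') * n)
  obtain ⟨m3, hm3⟩ := poly_exp hc (12 * 2 ^ (d + 2) * A) 2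
  refine ⟨c / 2, half_pos hc, max (max m0 m1) (max m2 m3), ?_⟩
  intro m hm hR1 hR2 hR3
  have hm0 : m0 ≤ m := ((le_max_left _ _).trans (le_max_left _ _)).trans hm
  have hmm1 : m1 ≤ m := ((le_max_right _ _).trans (le_max_left _ _)).trans hm
  have hmm2 : m2 ≤ m := ((le_max_left _ _).trans (le_max_right _ _)).trans hm
  have hmm3 : m3 ≤ m := ((le_max_right _ _).trans (le_max_right _ _)).trans hm
  have h1m : 1 ≤ m := h.m0_pos.trans hm0
  have hmR : (1 : ℝ) ≤ m := by exact_mod_cast h1m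
  have hmp : (0 : ℝ) < m := by linarith
  obtain ⟨t1, t2, -⟩ := T m hmm1 hR1
  have hA'R : (1 : ℝ) ≤ A' := by exact_mod_cast hA'
  have hAm : 1 ≤ (A' : ℝ) * (m : ℝ) ^ A' := one_le_mul_of_one_le_of_one_le hA'R (one_le_pow₀ hmR)
  have hpb := PB m hm0
  have hcq := contDiff_q h hm0 n
  have dV1 : DB n (ρ0 + 3 * δ) ((A' : ℝ) * (m : ℝ) ^ A') (fun x : E d => W1 m (q m ‖x‖)) :=
    ⟨contDiff_W1q hcq, fun i hi x _ => (hpb i hi x).1⟩
  have dV2 : DB n (ρ0 + 3 * δ) ((A' : ℝ) * (m : ℝ) ^ A') (fun x : E d => W2 m (q m ‖x‖)) :=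
    ⟨contDiff_W2q hcq, fun i hi x _ => (hpb i hi x).2.1⟩
  have dV3 : DB n (ρ0 + 3 * δ) ((A' : ℝ) * (m : ℝ) ^ A')
      (fun x : E d => conj (W2 m (q m ‖x‖))) :=
    ⟨contDiff_W2cq hcq, fun i hi x _ => (hpb i hi x).2.2⟩
  have hsmall : 2 ^ (d + 2) * (2 * m + 1) * (A * Real.exp (-(c * m))) ≤ aa m / 2 := by
    have haa : aa m = 1 / (2 * (m : ℝ)) := rfl
    rw [haa, div_div, le_div_iff₀ (by positivity)]
    have e3 := hm3 m hmm3
    have h3 : (2 * (m : ℝ) + 1) ≤ 3 * m := by linarith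
    have hE : 0 ≤ A * Real.exp (-(c * m)) := by positivity
    calc 2 ^ (d + 2) * (2 * m + 1) * (A * Real.exp (-(c * m))) * (2 * m * 2)
        ≤ 2 ^ (d + 2) * (3 * m) * (A * Real.exp (-(c * m))) * (2 * m * 2) := by gcongr
      _ = 12 * 2 ^ (d + 2) * A * m ^ 2 * Real.exp (-(c * m)) := by ring
      _ ≤ 1 := e3
  intro l lam lam0 hl hl0 hn hn0 F G φ γ cc rF rG rφ rγ s0 s1
  obtain ⟨α, β, α0, β0, HH⟩ := H K m l (w m) lam lam0 cc (fun x => q m ‖x‖) (q m) F G φ γ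
    ((A' : ℝ) * (m : ℝ) ^ A') (A * Real.exp (-(c * m))) hK h1m hl hl0 hAm (h.prof m hm0)
    (fun x => rfl) rF rG rφ rγ dV1 dV2 dV3 (fun r hr => by rw [s0.e1 r hr]; ring)
    (fun r hr => by rw [s0.e2 r hr]; ring) s1.e1 s1.e2 t1 t2 hsmall _ rfl
  have hww : |w m| ≤ 1 := by
    obtain ⟨a, b⟩ := hw m hm0
    rw [abs_of_nonneg (hw1.le.trans a)]
    exact b
  have he : C' * ((‖lam‖ + ‖lam0‖ + |w m| + m + 2) * ((A' : ℝ) * (m : ℝ) ^ A')) ^ n *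
      (A * Real.exp (-(c * m))) ≤ Real.exp (-(c / 2 * m)) := by
    have hp1 : (1 : ℝ) ≤ (m : ℝ) ^ (C + 1) := one_le_pow₀ hmR
    have hp2 : (m : ℝ) ≤ (m : ℝ) ^ (C + 1) := by
      calc (m : ℝ) = (m : ℝ) ^ 1 := (pow_one _).symm
        _ ≤ (m : ℝ) ^ (C + 1) := pow_le_pow_right₀ hmR (by omega)
    have hp3 : (m : ℝ) ^ C ≤ (m : ℝ) ^ (C + 1) := pow_le_pow_right₀ hmR (by omega)
    have hy : ‖lam‖ + ‖lam0‖ + |w m| + m + 2 ≤ 6 * (m : ℝ) ^ (C + 1) := by linarith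
    have hy0 : 0 ≤ ‖lam‖ + ‖lam0‖ + |w m| + m + 2 := by positivity
    have hex : Real.exp (-(c * m)) = Real.exp (-(c / 2 * m)) * Real.exp (-(c / 2 * m)) := by
      rw [← Real.exp_add]
      congr 1
      ring
    calc C' * ((‖lam‖ + ‖lam0‖ + |w m| + m + 2) * ((A' : ℝ) * (m : ℝ) ^ A')) ^ n *
        (A * Real.exp (-(c * m)))
        ≤ C' * ((6 * (m : ℝ) ^ (C + 1)) * ((A' : ℝ) * (m : ℝ) ^ A')) ^ n *
          (A * Real.exp (-(c * m))) := by gcongr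
      _ = (C' * (6 * (A' : ℝ)) ^ n * A * (m : ℝ) ^ ((C + 1 + A') * n) *
          Real.exp (-(c / 2 * m))) * Real.exp (-(c / 2 * m)) := by
        rw [hex, pow_mul, pow_add]
        ring
      _ ≤ 1 * Real.exp (-(c / 2 * m)) := by
        gcongr
        exact hm2 m hmm2
      _ = _ := one_mul _
  have hρ3 : 0 ≤ ρ0 + 3 * δ := by positivity
  have n0 : Real.sqrt (massN d φ γ (ρ0 + 3 * δ)) ≤ Real.sqrt (massN d φ γ (R m + 2 * η)) :=
    Real.sqrt_le_sqrt (massN_mono rφ rγ hρ3 hR3)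
  have n1 : Real.sqrt (massN d F G (ρ0 + 3 * δ)) ≤ Real.sqrt (massN d F G (R m + 2 * η)) :=
    Real.sqrt_le_sqrt (massN_mono rF rG hρ3 hR3)
  refine ⟨α, β, α0, β0, fun r hr => ?_⟩
  obtain ⟨b1, b2, b3, b4⟩ := HH r (by linarith)
  have k0 := mul_le_mul he n0 (Real.sqrt_nonneg _) (Real.exp_pos _).le
  have k1 : C' * ((‖lam‖ + ‖lam0‖ + |w m| + m + 2) * ((A' : ℝ) * (m : ℝ) ^ A')) ^ n *
      (A * Real.exp (-(c * m))) * (Real.sqrt (massN d F G (ρ0 + 3 * δ)) +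
        ‖cc‖ * Real.sqrt (massN d φ γ (ρ0 + 3 * δ))) ≤
      Real.exp (-(c / 2 * m)) * (Real.sqrt (massN d F G (R m + 2 * η)) +
        ‖cc‖ * Real.sqrt (massN d φ γ (R m + 2 * η))) :=
    mul_le_mul he (add_le_add n1 (mul_le_mul_of_nonneg_left n0 (norm_nonneg _)))
      (by positivity) (Real.exp_pos _).le
  exact ⟨b1.mono k0, b2.mono k0, b3.mono k1, b4.mono k1⟩

theorem ext_J (h : UP d B m0 w R q) (hd : 3 ≤ d) {K : ℕ} (hK : KX d ≤ K) : ExtJ d K w R q := by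
  intro C η hη
  obtain ⟨R1, hR1, R2, hR⟩ := h.Rbd
  set δ : ℝ := η / 8 with hδ
  have hδ0 : 0 < δ := by rw [hδ]; positivity
  obtain ⟨c, hc, m1, H⟩ := fin_unif (fun j c m => R m + δ ≤ R1 + (j + 2) * δ →
      R1 + (j + 2) * δ + δ < R m + η → R1 + (j + 2) * δ + 3 * δ ≤ R m + 2 * η →
      ConJ d K C η w R q c m) (fun j c c' m hcc hP a1 a2 a3 => (hP a1 a2 a3).mono hcc)
    ⌊(R2 - R1) / δ⌋₊ (fun j _ => one_cut h hd hK C hδ0 (by positivity))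
  refine ⟨c, hc, max m0 m1, fun m hm => ?_⟩
  obtain ⟨b1, b2⟩ := hR m ((le_max_left _ _).trans hm)
  set j : ℕ := ⌊(R m - R1) / δ⌋₊ with hj
  have hq0 : 0 ≤ (R m - R1) / δ := div_nonneg (by linarith) hδ0.le
  have j1 : (j : ℝ) ≤ (R m - R1) / δ := Nat.floor_le hq0
  have j2 : (R m - R1) / δ < j + 1 := Nat.lt_floor_add_one _
  rw [le_div_iff₀ hδ0] at j1
  rw [div_lt_iff₀ hδ0] at j2
  have hjN : j ≤ ⌊(R2 - R1) / δ⌋₊ := Nat.floor_le_floor (by gcongr)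
  exact H m ((le_max_right _ _).trans hm) j hjN (by nlinarith) (by nlinarith) (by nlinarith)

/-- the free slow solution of `S1Spec` in the notation of `JS2` -/
theorem Sl_eq (d l : ℕ) (w a : ℝ) (lam : ℂ) : Sl d l w a lam = PhJ d l w (lam + a) := by
  unfold Sl PhJ KU.aE KU.bE
  congr 1 <;> ring

/-- **(E2)** in the form of `S1Spec`. -/
theorem extE2 (h : UP d B m0 w R q) (hd : 3 ≤ d) {K : ℕ} (hK : KX d ≤ K) : ExtE2 d K w R q := by
  intro C η hη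
  obtain ⟨c, hc, m1, H⟩ := ext_J h hd hK C η hη
  refine ⟨c, hc, m1, fun m hm l lam hl hn F G hp => ?_⟩
  obtain ⟨α, β, α0, β0, HH⟩ := H m hm l lam lam hl hl hn hn F G F G 0 hp.hF hp.hG hp.hF hp.hG
    ⟨fun r hr => by rw [hp.e1 r hr]; ring, fun r hr => by rw [hp.e2 r hr]; ring⟩
    ⟨fun r hr => by rw [hp.e1 r hr]; ring, fun r hr => by rw [hp.e2 r hr]; ring⟩
  refine ⟨α0, β0, fun r hr => ?_⟩
  obtain ⟨⟨a1, a2⟩, ⟨a3, a4⟩, -, -⟩ := HH r hr
  have e1 : mJ d l (w m) (lam + aa m) (lam + aa m) α0 0 0 =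
      fun t => α0 * Sl d l (w m) (aa m) lam t := by
    funext t
    rw [mJ, Sl_eq]
    ring
  have e2 : mJs d l (w m) (lam + aa m) (lam + aa m) β0 0 0 =
      fun t => β0 * conj (Sl d l (w m) (aa m) (conj lam) t) := by
    funext t
    rw [mJs, PhJs, Sl_eq, map_add, Complex.conj_ofReal]
    ring
  rw [e1] at a1 a2
  rw [e2] at a3 a4
  rw [deriv_const_mul_field] at a2 a4
  have e3 : deriv (fun t => conj (Sl d l (w m) (aa m) (conj lam) t)) r =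
      conj (deriv (Sl d l (w m) (aa m) (conj lam)) r) := deriv.star
  rw [e3] at a4
  exact ⟨a1, a2, a3, a4⟩

end Vale.Agent.P139.H901
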