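import Mathlib

/-! P139, block [X], X5: uniqueness of the slow solution of the unperturbed exterior equation.

`th W = r W'`.  Smooth functions on `(r0, ∞)` all of whose iterated `th`-derivatives up to order
`k` are bounded form an algebra `SB r0 k`.  Two solutions of
`y'' + ((d-1)/r + i r/2) y' + (i κ - μ/r^2) y = 0` in `SB r0 (k+1)`, `d < 2 k + 2`, have vanishing
Wronskian, so they are proportional. -/

open Set Filter Topology Complex
open scoped ContDiff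

namespace Vale.Agent.P139.H901

/-- the operator `r d/dr` -/
noncomputable def th (W : ℝ → ℂ) : ℝ → ℂ := fun r => (r : ℂ) * deriv W r

/-- smooth on `(r0, ∞)` with bounded `th`-derivatives up to order `k` -/
def SB (r0 : ℝ) : ℕ → (ℝ → ℂ) → Prop
  | 0, W => ContDiffOn ℝ ∞ W (Ioi r0) ∧ ∃ C : ℝ, ∀ r, r0 < r → ‖W r‖ ≤ C
  | k + 1, W => (ContDiffOn ℝ ∞ W (Ioi r0) ∧ ∃ C : ℝ, ∀ r, r0 < r → ‖W r‖ ≤ C) ∧ SB r0 k (th W)

variable {r0 : ℝ}

theorem SB.base {k : ℕ} {W : ℝ → ℂ} (h : SB r0 k W) :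
    ContDiffOn ℝ ∞ W (Ioi r0) ∧ ∃ C : ℝ, ∀ r, r0 < r → ‖W r‖ ≤ C := by
  cases k with
  | zero => exact h
  | succ k => exact h.1

theorem smooth_deriv {W : ℝ → ℂ} (h : ContDiffOn ℝ ∞ W (Ioi r0)) :
    ContDiffOn ℝ ∞ (deriv W) (Ioi r0) :=
  ContDiffOn.deriv_of_isOpen h isOpen_Ioi (by simp)

theorem smooth_ofReal : ContDiff ℝ ∞ (fun r : ℝ => (r : ℂ)) := Complex.ofRealCLM.contDiff

theorem smooth_th {W : ℝ → ℂ} (h : ContDiffOn ℝ ∞ W (Ioi r0)) :
    ContDiffOn ℝ ∞ (th W) (Ioi r0) :=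
  smooth_ofReal.contDiffOn.mul (smooth_deriv h)

theorem hasDerivAt_ofReal_pow (n : ℕ) (r : ℝ) :
    HasDerivAt (fun r : ℝ => (r : ℂ) ^ n) ((n : ℂ) * (r : ℂ) ^ (n - 1)) r :=
  (hasDerivAt_pow n (r : ℂ)).comp_ofReal

theorem hasDerivAt_ofReal_sq (r : ℝ) :
    HasDerivAt (fun r : ℝ => (r : ℂ) ^ 2) (2 * (r : ℂ)) r := by
  have := hasDerivAt_ofReal_pow 2 r
  simpa using this

theorem diffAt {W : ℝ → ℂ} (h : ContDiffOn ℝ ∞ W (Ioi r0)) {r : ℝ} (hr : r0 < r) :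
    DifferentiableAt ℝ W r :=
  ((h.contDiffAt (isOpen_Ioi.mem_nhds hr)).differentiableAt (by simp))

theorem deriv_congr_on {U V : ℝ → ℂ} (h : ∀ r, r0 < r → U r = V r) {r : ℝ} (hr : r0 < r) :
    deriv U r = deriv V r :=
  Filter.EventuallyEq.deriv_eq (eventuallyEq_of_mem (isOpen_Ioi.mem_nhds hr) h)

theorem th_congr {U V : ℝ → ℂ} (h : ∀ r, r0 < r → U r = V r) :
    ∀ r, r0 < r → th U r = th V r := by
  intro r hr
  unfold th
  rw [deriv_congr_on h hr]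

theorem SB.congr : ∀ {k : ℕ} {U V : ℝ → ℂ}, (∀ r, r0 < r → U r = V r) → SB r0 k U → SB r0 k V := by
  have base : ∀ {U V : ℝ → ℂ}, (∀ r, r0 < r → U r = V r) →
      (ContDiffOn ℝ ∞ U (Ioi r0) ∧ ∃ C : ℝ, ∀ r, r0 < r → ‖U r‖ ≤ C) →
      (ContDiffOn ℝ ∞ V (Ioi r0) ∧ ∃ C : ℝ, ∀ r, r0 < r → ‖V r‖ ≤ C) := by
    intro U V h hU
    refine ⟨hU.1.congr fun r hr => (h r hr).symm, ?_⟩
    obtain ⟨C, hC⟩ := hU.2
    exact ⟨C, fun r hr => by rw [← h r hr]; exact hC r hr⟩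
  intro k
  induction k with
  | zero => intro U V h hU; exact base h hU
  | succ k ih =>
    intro U V h hU
    exact ⟨base h hU.1, ih (th_congr h) hU.2⟩

theorem th_add {U V : ℝ → ℂ} (hU : ContDiffOn ℝ ∞ U (Ioi r0)) (hV : ContDiffOn ℝ ∞ V (Ioi r0))
    {r : ℝ} (hr : r0 < r) : th (fun r => U r + V r) r = th U r + th V r := by
  unfold th
  rw [deriv_fun_add (diffAt hU hr) (diffAt hV hr)]
  ring

theorem th_mul {U V : ℝ → ℂ} (hU : ContDiffOn ℝ ∞ U (Ioi r0)) (hV : ContDiffOn ℝ ∞ V (Ioi r0))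
    {r : ℝ} (hr : r0 < r) : th (fun r => U r * V r) r = th U r * V r + U r * th V r := by
  unfold th
  rw [deriv_fun_mul (diffAt hU hr) (diffAt hV hr)]
  ring

theorem th_const_mul (c : ℂ) (U : ℝ → ℂ) (r : ℝ) : th (fun r => c * U r) r = c * th U r := by
  unfold th
  rw [deriv_const_mul_field]
  ring

theorem SB.add : ∀ {k : ℕ} {U V : ℝ → ℂ}, SB r0 k U → SB r0 k V →
    SB r0 k (fun r => U r + V r) := by
  have base : ∀ {U V : ℝ → ℂ},
      (ContDiffOn ℝ ∞ U (Ioi r0) ∧ ∃ C : ℝ, ∀ r, r0 < r → ‖U r‖ ≤ C) →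
      (ContDiffOn ℝ ∞ V (Ioi r0) ∧ ∃ C : ℝ, ∀ r, r0 < r → ‖V r‖ ≤ C) →
      (ContDiffOn ℝ ∞ (fun r => U r + V r) (Ioi r0) ∧
        ∃ C : ℝ, ∀ r, r0 < r → ‖U r + V r‖ ≤ C) := by
    rintro U V ⟨hU, C, hC⟩ ⟨hV, D, hD⟩
    exact ⟨hU.add hV, C + D, fun r hr => (norm_add_le _ _).trans (add_le_add (hC r hr) (hD r hr))⟩
  intro k
  induction k with
  | zero => intro U V hU hV; exact base hU hV
  | succ k ih =>
    intro U V hU hV
    refine ⟨base hU.1 hV.1, ?_⟩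
    exact SB.congr (fun r hr => (th_add hU.1.1 hV.1.1 hr).symm) (ih hU.2 hV.2)

theorem SB.const_mul (c : ℂ) : ∀ {k : ℕ} {U : ℝ → ℂ}, SB r0 k U → SB r0 k (fun r => c * U r) := by
  have base : ∀ {U : ℝ → ℂ},
      (ContDiffOn ℝ ∞ U (Ioi r0) ∧ ∃ C : ℝ, ∀ r, r0 < r → ‖U r‖ ≤ C) →
      (ContDiffOn ℝ ∞ (fun r => c * U r) (Ioi r0) ∧ ∃ C : ℝ, ∀ r, r0 < r → ‖c * U r‖ ≤ C) := by
    rintro U ⟨hU, C, hC⟩
    refine ⟨contDiffOn_const.mul hU, ‖c‖ * C, fun r hr => ?_⟩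
    rw [norm_mul]
    exact mul_le_mul_of_nonneg_left (hC r hr) (norm_nonneg _)
  intro k
  induction k with
  | zero => intro U hU; exact base hU
  | succ k ih =>
    intro U hU
    exact ⟨base hU.1, SB.congr (fun r _ => (th_const_mul c U r).symm) (ih hU.2)⟩

theorem SB.mono {k : ℕ} {U : ℝ → ℂ} (h : SB r0 (k + 1) U) : SB r0 k U := by
  induction k generalizing U with
  | zero => exact h.1
  | succ k ih => exact ⟨h.1, ih h.2⟩

theorem SB.mul : ∀ {k : ℕ} {U V : ℝ → ℂ}, SB r0 k U → SB r0 k V →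
    SB r0 k (fun r => U r * V r) := by
  have base : ∀ {U V : ℝ → ℂ},
      (ContDiffOn ℝ ∞ U (Ioi r0) ∧ ∃ C : ℝ, ∀ r, r0 < r → ‖U r‖ ≤ C) →
      (ContDiffOn ℝ ∞ V (Ioi r0) ∧ ∃ C : ℝ, ∀ r, r0 < r → ‖V r‖ ≤ C) →
      (ContDiffOn ℝ ∞ (fun r => U r * V r) (Ioi r0) ∧
        ∃ C : ℝ, ∀ r, r0 < r → ‖U r * V r‖ ≤ C) := by
    rintro U V ⟨hU, C, hC⟩ ⟨hV, D, hD⟩
    refine ⟨hU.mul hV, C * D, fun r hr => ?_⟩
    rw [norm_mul]
    exact mul_le_mul (hC r hr) (hD r hr) (norm_nonneg _) ((norm_nonneg _).trans (hC r hr))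
  intro k
  induction k with
  | zero => intro U V hU hV; exact base hU hV
  | succ k ih =>
    intro U V hU hV
    refine ⟨base hU.1 hV.1, ?_⟩
    refine SB.congr (fun r hr => (th_mul hU.1.1 hV.1.1 hr).symm) ?_
    exact (ih hU.2 hV.mono).add (ih hU.mono hV.2)

/-- if `r Z' = -(c + i r²/2) Z` and `Z` has `k+1` bounded `th`-derivatives, then `r² Z` has `k` -/
theorem step {c : ℂ} {Z : ℝ → ℂ} {k : ℕ} (hZ : SB r0 (k + 1) Z)
    (h : ∀ r, r0 < r → th Z r = -(c + I * (r : ℂ) ^ 2 / 2) * Z r) :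
    SB r0 k (fun r => (r : ℂ) ^ 2 * Z r) ∧
      ∀ r, r0 < r → th (fun r => (r : ℂ) ^ 2 * Z r) r =
        -((c - 2) + I * (r : ℂ) ^ 2 / 2) * ((r : ℂ) ^ 2 * Z r) := by
  have hsm : ContDiffOn ℝ ∞ (fun r : ℝ => (r : ℂ) ^ 2) (Ioi r0) :=
    (smooth_ofReal.pow 2).contDiffOn
  constructor
  · have h1 : SB r0 k (fun r => (2 * I) * (th Z r + c * Z r)) :=
      (hZ.2.add (hZ.mono.const_mul c)).const_mul (2 * I)
    refine h1.congr fun r hr => ?_
    rw [h r hr]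
    linear_combination (-(r : ℂ) ^ 2 * Z r) * I_sq
  · intro r hr
    rw [th_mul hsm hZ.1.1 hr, h r hr]
    have : th (fun r : ℝ => (r : ℂ) ^ 2) r = 2 * (r : ℂ) ^ 2 := by
      unfold th
      rw [(hasDerivAt_ofReal_sq r).deriv]
      ring
    rw [this]
    ring

theorem steps (k : ℕ) : ∀ {c : ℂ} {Z : ℝ → ℂ}, SB r0 k Z →
    (∀ r, r0 < r → th Z r = -(c + I * (r : ℂ) ^ 2 / 2) * Z r) →
    ∃ C : ℝ, ∀ r, r0 < r → ‖(r : ℂ) ^ (2 * k) * Z r‖ ≤ C := by
  induction k with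
  | zero =>
    intro c Z hZ _
    obtain ⟨C, hC⟩ := hZ.2
    exact ⟨C, fun r hr => by simpa using hC r hr⟩
  | succ k ih =>
    intro c Z hZ h
    obtain ⟨h1, h2⟩ := step hZ h
    obtain ⟨C, hC⟩ := ih h1 h2
    refine ⟨C, fun r hr => ?_⟩
    have := hC r hr
    rwa [← mul_assoc, ← pow_add] at this

/-- a solution of `r Z' = -(e + i r²/2) Z`, `e` a natural number, with more than `e/2` bounded
`th`-derivatives vanishes -/
theorem eq_zero_of_SB (h0 : 0 ≤ r0) {e k : ℕ} (hk : e < 2 * k) {Z : ℝ → ℂ} (hZ : SB r0 k Z)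
    (h : ∀ r, r0 < r → th Z r = -((e : ℂ) + I * (r : ℂ) ^ 2 / 2) * Z r) :
    ∀ r, r0 < r → Z r = 0 := by
  obtain ⟨C, hC⟩ := steps k hZ h
  -- the conserved quantity
  set N : ℝ → ℂ := fun r => (r : ℂ) ^ e * cexp (I * (r : ℂ) ^ 2 / 4) * Z r with hN
  have hder : ∀ r, r0 < r → HasDerivAt N 0 r := by
    intro r hr
    have hrpos : 0 < r := lt_of_le_of_lt h0 hr
    have hr0 : (r : ℂ) ≠ 0 := by exact_mod_cast hrpos.ne'
    have a1 := hasDerivAt_ofReal_pow e r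
    have a2 : HasDerivAt (fun r : ℝ => cexp (I * (r : ℂ) ^ 2 / 4))
        (cexp (I * (r : ℂ) ^ 2 / 4) * (I * (2 * (r : ℂ)) / 4)) r :=
      (((hasDerivAt_ofReal_sq r).const_mul I).div_const 4).cexp
    have a3 : HasDerivAt Z (deriv Z r) r := (diffAt hZ.base.1 hr).hasDerivAt
    have a4 := (a1.mul a2).mul a3
    have e1 : (r : ℂ) * deriv Z r = -((e : ℂ) + I * (r : ℂ) ^ 2 / 2) * Z r := h r hr
    have e2 : deriv Z r = -((e : ℂ) + I * (r : ℂ) ^ 2 / 2) * Z r / (r : ℂ) := by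
      rw [eq_div_iff hr0, mul_comm]; exact e1
    have e3 : (e : ℂ) * (r : ℂ) ^ (e - 1) = (e : ℂ) * (r : ℂ) ^ e / (r : ℂ) := by
      rcases Nat.eq_zero_or_pos e with he | he
      · subst he; simp
      · rw [eq_div_iff hr0, mul_assoc, ← pow_succ, Nat.sub_add_cancel he]
    have e4 : ((e : ℂ) * (r : ℂ) ^ (e - 1) * cexp (I * (r : ℂ) ^ 2 / 4) +
        (r : ℂ) ^ e * (cexp (I * (r : ℂ) ^ 2 / 4) * (I * (2 * (r : ℂ)) / 4))) * Z r +
        (r : ℂ) ^ e * cexp (I * (r : ℂ) ^ 2 / 4) * deriv Z r = 0 := by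
      rw [e2, e3]
      field_simp
      ring
    rw [← e4]
    exact a4
  have hconst : ∀ x, r0 < x → ∀ y, r0 < y → N x = N y := by
    intro x hx y hy
    exact isOpen_Ioi.is_const_of_deriv_eq_zero isPreconnected_Ioi
      (fun z hz => (hder z hz).differentiableAt.differentiableWithinAt)
      (fun z hz => (hder z hz).deriv) hx hy
  intro r hr
  by_contra hne
  have hrpos : 0 < r := lt_of_le_of_lt h0 hr
  have hnormN : ∀ x, r0 < x → ‖N x‖ = x ^ e * ‖Z x‖ := by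
    intro x hx
    have hxpos : 0 < x := lt_of_le_of_lt h0 hx
    simp only [hN, norm_mul, norm_pow, Complex.norm_real, Real.norm_eq_abs, abs_of_pos hxpos]
    rw [Complex.norm_exp]
    have : (I * (x : ℂ) ^ 2 / 4).re = 0 := by
      have : (I * (x : ℂ) ^ 2 / 4) = ((x ^ 2 / 4 : ℝ) : ℂ) * I := by push_cast; ring
      rw [this, Complex.re_ofReal_mul, Complex.I_re, mul_zero]
    rw [this, Real.exp_zero, mul_one]
  set c : ℝ := ‖N r‖ with hc
  have hcpos : 0 < c := by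
    rw [hc, hnormN r hr]
    exact mul_pos (pow_pos hrpos _) (norm_pos_iff.2 hne)
  -- at every x, x ^ (2k-e) * c ≤ C
  have hbound : ∀ x, r0 < x → x ^ (2 * k - e) * c ≤ C := by
    intro x hx
    have hxpos : 0 < x := lt_of_le_of_lt h0 hx
    have h1 := hC x hx
    rw [norm_mul, norm_pow, Complex.norm_real, Real.norm_eq_abs, abs_of_pos hxpos] at h1
    have h2 : c = x ^ e * ‖Z x‖ := by rw [hc, hconst r hr x hx, hnormN x hx]
    rw [h2, ← mul_assoc, ← pow_add, Nat.sub_add_cancel hk.le]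
    exact h1
  have htend : Tendsto (fun x : ℝ => x ^ (2 * k - e) * c) atTop atTop :=
    (tendsto_pow_atTop (by omega)).atTop_mul_const hcpos
  obtain ⟨x, hx1, hx2⟩ := ((htend.eventually_gt_atTop C).and (eventually_gt_atTop r0)).exists
  exact absurd (hbound x hx2) (not_le.2 hx1)

/-- **X5.** Two solutions of `y'' + ((d-1)/r + i r/2) y' + (i κ - μ/r²) y = 0` on `(r0, ∞)` with
enough bounded `th`-derivatives have vanishing Wronskian. -/
theorem wronskian_eq_zero (h0 : 0 ≤ r0) {d k : ℕ} (hd : 2 ≤ d) (hk : d < 2 * k + 2) {κ μ : ℂ}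
    {F G : ℝ → ℂ} (hF : SB r0 (k + 1) F) (hG : SB r0 (k + 1) G)
    (eF : ∀ r, r0 < r → deriv (deriv F) r + (((d : ℂ) - 1) / r + I * r / 2) * deriv F r +
      (I * κ - μ / (r : ℂ) ^ 2) * F r = 0)
    (eG : ∀ r, r0 < r → deriv (deriv G) r + (((d : ℂ) - 1) / r + I * r / 2) * deriv G r +
      (I * κ - μ / (r : ℂ) ^ 2) * G r = 0) :
    ∀ r, r0 < r → F r * deriv G r - deriv F r * G r = 0 := by
  have hthth : ∀ {F : ℝ → ℂ}, ContDiffOn ℝ ∞ F (Ioi r0) → (∀ r, r0 < r →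
      deriv (deriv F) r + (((d : ℂ) - 1) / r + I * r / 2) * deriv F r +
      (I * κ - μ / (r : ℂ) ^ 2) * F r = 0) → ∀ r, r0 < r →
      th (th F) r = -(((d : ℂ) - 2) + I * (r : ℂ) ^ 2 / 2) * th F r -
        (I * κ * (r : ℂ) ^ 2 - μ) * F r := by
    intro F hF eF r hr
    have hrpos : 0 < r := lt_of_le_of_lt h0 hr
    have hr0 : (r : ℂ) ≠ 0 := by exact_mod_cast hrpos.ne'
    have h1 : HasDerivAt (th F) (1 * deriv F r + (r : ℂ) * deriv (deriv F) r) r := by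
      have a1 : HasDerivAt (fun r : ℝ => (r : ℂ)) 1 r := (hasDerivAt_id (r : ℂ)).comp_ofReal
      exact a1.mul (diffAt (smooth_deriv hF) hr).hasDerivAt
    have h2 : th (th F) r = (r : ℂ) * (1 * deriv F r + (r : ℂ) * deriv (deriv F) r) := by
      rw [← h1.deriv]; rfl
    have h3 := eF r hr
    have h4 : deriv (deriv F) r = -((((d : ℂ) - 1) / r + I * r / 2) * deriv F r +
      (I * κ - μ / (r : ℂ) ^ 2) * F r) := by linear_combination h3
    rw [h2, h4]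
    unfold th
    field_simp
    ring
  set Z : ℝ → ℂ := fun r => F r * th G r + (-1) * (th F r * G r) with hZ
  have hZSB : SB r0 k Z := (hF.mono.mul hG.2).add ((hF.2.mul hG.mono).const_mul (-1))
  have hthZ : ∀ r, r0 < r → th Z r = -(((d - 2 : ℕ) : ℂ) + I * (r : ℂ) ^ 2 / 2) * Z r := by
    intro r hr
    have sF := hF.base.1
    have sG := hG.base.1
    have stF := smooth_th sF
    have stG := smooth_th sG
    rw [hZ, th_add (sF.mul stG) (contDiffOn_const.mul (stF.mul sG)) hr, th_const_mul,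
      th_mul sF stG hr, th_mul stF sG hr, hthth sF eF r hr, hthth sG eG r hr]
    push_cast [Nat.cast_sub hd]
    ring
  have hz := eq_zero_of_SB h0 (e := d - 2) (k := k) (by omega) hZSB hthZ
  intro r hr
  have hrpos : 0 < r := lt_of_le_of_lt h0 hr
  have hr0 : (r : ℂ) ≠ 0 := by exact_mod_cast hrpos.ne'
  have h1 := hz r hr
  have h2 : (r : ℂ) * (F r * deriv G r - deriv F r * G r) = 0 := by
    rw [← h1]
    simp only [hZ, th]
    ring
  exact (mul_eq_zero.1 h2).resolve_left hr0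

/-- uniqueness for `y'' = -p y' - q y` on `(r0, ∞)` -/
theorem ode2_unique {p q : ℝ → ℂ} (hp : ContinuousOn p (Ioi r0)) (hq : ContinuousOn q (Ioi r0))
    {H : ℝ → ℂ} (hH : ContDiffOn ℝ ∞ H (Ioi r0))
    (e : ∀ r, r0 < r → deriv (deriv H) r = -(p r * deriv H r) - q r * H r)
    {r1 : ℝ} (hr1 : r0 < r1) (h0 : H r1 = 0) (h1 : deriv H r1 = 0) :
    ∀ r, r0 < r → H r = 0 := by
  intro r hr
  -- a compact interval containing both points in its interior
  obtain ⟨a, ha0, ha⟩ : ∃ a, r0 < a ∧ a < min r r1 := exists_between (lt_min hr hr1)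
  obtain ⟨b, hb⟩ : ∃ b, max r r1 < b := exists_gt _
  have har : a < r := ha.trans_le (min_le_left _ _)
  have har1 : a < r1 := ha.trans_le (min_le_right _ _)
  have hrb : r < b := (le_max_left _ _).trans_lt hb
  have hr1b : r1 < b := (le_max_right _ _).trans_lt hb
  have hsub : Icc a b ⊆ Ioi r0 := fun x hx => lt_of_lt_of_le ha0 hx.1
  obtain ⟨P, hP⟩ := (isCompact_Icc (a := a) (b := b)).exists_bound_of_continuousOn (hp.mono hsub)
  obtain ⟨Q, hQ⟩ := (isCompact_Icc (a := a) (b := b)).exists_bound_of_continuousOn (hq.mono hsub)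
  set v : ℝ → ℂ × ℂ → ℂ × ℂ := fun t x => (x.2, -(p t * x.2) - q t * x.1) with hv
  set K : ℝ := 1 + |P| + |Q| with hK
  have hK0 : 0 ≤ K := by positivity
  have hlip : ∀ t ∈ Ioo a b, LipschitzOnWith ⟨K, hK0⟩ (v t) univ := by
    intro t ht
    apply LipschitzOnWith.of_dist_le_mul
    intro x _ y _
    have htc : t ∈ Icc a b := ⟨ht.1.le, ht.2.le⟩
    have hPt : ‖p t‖ ≤ |P| := (hP t htc).trans (le_abs_self _)
    have hQt : ‖q t‖ ≤ |Q| := (hQ t htc).trans (le_abs_self _)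
    have hx1 : ‖x.1 - y.1‖ ≤ dist x y := by
      rw [Prod.dist_eq, dist_eq_norm]; exact le_max_left _ _
    have hx2 : ‖x.2 - y.2‖ ≤ dist x y := by
      rw [Prod.dist_eq, dist_eq_norm, dist_eq_norm]; exact le_max_right _ _
    have hd : 0 ≤ dist x y := dist_nonneg
    rw [Prod.dist_eq]
    simp only [hv, NNReal.coe_mk, hK]
    apply max_le
    · rw [dist_eq_norm]
      calc ‖x.2 - y.2‖ ≤ 1 * dist x y := by rw [one_mul]; exact hx2
        _ ≤ (1 + |P| + |Q|) * dist x y := by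
          apply mul_le_mul_of_nonneg_right _ hd
          linarith [abs_nonneg P, abs_nonneg Q]
    · rw [dist_eq_norm]
      have : -(p t * x.2) - q t * x.1 - (-(p t * y.2) - q t * y.1) =
          -(p t * (x.2 - y.2)) - q t * (x.1 - y.1) := by ring
      rw [this]
      calc ‖-(p t * (x.2 - y.2)) - q t * (x.1 - y.1)‖
          ≤ ‖-(p t * (x.2 - y.2))‖ + ‖q t * (x.1 - y.1)‖ := norm_sub_le _ _
        _ = ‖p t‖ * ‖x.2 - y.2‖ + ‖q t‖ * ‖x.1 - y.1‖ := by rw [norm_neg, norm_mul, norm_mul]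
        _ ≤ |P| * dist x y + |Q| * dist x y :=
          add_le_add (mul_le_mul hPt hx2 (norm_nonneg _) (abs_nonneg _))
            (mul_le_mul hQt hx1 (norm_nonneg _) (abs_nonneg _))
        _ ≤ (1 + |P| + |Q|) * dist x y := by nlinarith
  have hf : ∀ t ∈ Ioo a b, HasDerivAt (fun t => (H t, deriv H t)) (v t (H t, deriv H t)) t ∧
      (H t, deriv H t) ∈ (univ : Set (ℂ × ℂ)) := by
    intro t ht
    have ht0 : r0 < t := ha0.trans ht.1
    refine ⟨?_, mem_univ _⟩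
    have a1 := (diffAt hH ht0).hasDerivAt
    have a2 := (diffAt (smooth_deriv hH) ht0).hasDerivAt
    rw [e t ht0] at a2
    exact a1.prodMk a2
  have hg : ∀ t ∈ Ioo a b, HasDerivAt (fun _ : ℝ => ((0 : ℂ), (0 : ℂ)))
      (v t ((0 : ℂ), (0 : ℂ))) t ∧ ((0 : ℂ), (0 : ℂ)) ∈ (univ : Set (ℂ × ℂ)) := by
    intro t _
    refine ⟨?_, mem_univ _⟩
    have : v t ((0 : ℂ), (0 : ℂ)) = 0 := by simp [hv]
    rw [this]
    exact hasDerivAt_const _ _
  have heq : (fun t => (H t, deriv H t)) r1 = (fun _ : ℝ => ((0 : ℂ), (0 : ℂ))) r1 := by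
    simp [h0, h1]
  have := ODE_solution_unique_of_mem_Ioo (s := fun _ => univ) hlip ⟨har1, hr1b⟩ hf hg heq
  have h2 := this ⟨har, hrb⟩
  exact congrArg Prod.fst h2

/-- **X5.** A solution of the unperturbed exterior equation with enough bounded `th`-derivatives is
a multiple of any nonzero such solution. -/
theorem slow_unique (h0 : 0 ≤ r0) {d k : ℕ} (hd : 2 ≤ d) (hk : d < 2 * k + 2) {κ μ : ℂ}
    {F G : ℝ → ℂ} (hF : SB r0 (k + 1) F) (hG : SB r0 (k + 1) G)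
    (eF : ∀ r, r0 < r → deriv (deriv F) r + (((d : ℂ) - 1) / r + I * r / 2) * deriv F r +
      (I * κ - μ / (r : ℂ) ^ 2) * F r = 0)
    (eG : ∀ r, r0 < r → deriv (deriv G) r + (((d : ℂ) - 1) / r + I * r / 2) * deriv G r +
      (I * κ - μ / (r : ℂ) ^ 2) * G r = 0) {r1 : ℝ} (hr1 : r0 < r1) (hG1 : G r1 ≠ 0) :
    ∃ α : ℂ, ∀ r, r0 < r → F r = α * G r := by
  have hW := wronskian_eq_zero h0 hd hk hF hG eF eG r1 hr1
  refine ⟨F r1 / G r1, ?_⟩
  set α := F r1 / G r1 with hα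
  have sF := hF.base.1
  have sG := hG.base.1
  set H : ℝ → ℂ := fun r => F r + (-α) * G r with hH
  have sH : ContDiffOn ℝ ∞ H (Ioi r0) := sF.add (contDiffOn_const.mul sG)
  have dH : ∀ r, r0 < r → deriv H r = deriv F r + (-α) * deriv G r := by
    intro r hr
    exact ((diffAt sF hr).hasDerivAt.add ((diffAt sG hr).hasDerivAt.const_mul (-α))).deriv
  have ddH : ∀ r, r0 < r → deriv (deriv H) r = deriv (deriv F) r + (-α) * deriv (deriv G) r := by
    intro r hr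
    rw [deriv_congr_on dH hr]
    exact ((diffAt (smooth_deriv sF) hr).hasDerivAt.add
      ((diffAt (smooth_deriv sG) hr).hasDerivAt.const_mul (-α))).deriv
  have hpos : ∀ r ∈ Ioi r0, (r : ℂ) ≠ 0 := by
    intro r hr
    have : 0 < r := lt_of_le_of_lt h0 hr
    exact_mod_cast this.ne'
  have hz := ode2_unique (r0 := r0) (H := H)
    (p := fun r => ((d : ℂ) - 1) / r + I * r / 2) (q := fun r => I * κ - μ / (r : ℂ) ^ 2)
    ((continuousOn_const.div Complex.continuous_ofReal.continuousOn hpos).add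
      (by fun_prop)) (continuousOn_const.sub (continuousOn_const.div
        (by fun_prop) fun r hr => pow_ne_zero 2 (hpos r hr))) sH ?_ hr1 ?_ ?_
  · intro r hr
    have := hz r hr
    simp only [hH] at this
    linear_combination this
  · intro r hr
    rw [ddH r hr, dH r hr]
    simp only [hH]
    linear_combination eF r hr + (-α) * eG r hr
  · simp only [hH, hα]
    field_simp
    ring
  · rw [dH r1 hr1, hα]
    field_simp
    linear_combination -hW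

end Vale.Agent.P139.H901
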