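import Vale.Agent.P139.H901.Decay
import Vale.Agent.P139.BU.Core

/-! P139, block [X], X1 for the radial system of `BU/Core`. -/

open Set Filter Topology Complex
open scoped ContDiff
open Vale.Agent.P139.BU

namespace Vale.Agent.P139.H901

/-- the unit vector used to restrict radial functions -/
noncomputable def e0 (d : ℕ) [NeZero d] : E d := EuclideanSpace.single 0 (1 : ℝ)

theorem norm_e0 (d : ℕ) [NeZero d] : ‖e0 d‖ = 1 := by simp [e0]

/-- data on the radial profile: smooth on `(0,∞)` and a symbol of order `-2a` -/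
theorem profile_radial {d m : ℕ} [NeZero d] {w : ℝ} {Q : E d → ℂ} {q : ℝ → ℂ}
    (hP : IsProfile d m w Q) (hq : ∀ x, Q x = q ‖x‖) :
    ContDiffOn ℝ ∞ q (Ioi 0) ∧ ∀ J, WS 1 (2 * aa m) J q := by
  obtain ⟨h, hh, hQ⟩ := hP.radial
  set L : ℝ →L[ℝ] E d := (ContinuousLinearMap.id ℝ ℝ).smulRight (e0 d) with hL
  have hLr : ∀ r : ℝ, L r = r • e0 d := fun r => by simp [hL]
  have hnL : ∀ r : ℝ, 0 ≤ r → ‖L r‖ = r := by
    intro r hr
    rw [hLr, norm_smul, norm_e0, mul_one, Real.norm_eq_abs, abs_of_nonneg hr]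
  have hQs : ContDiff ℝ ∞ Q := by
    have : Q = fun x => h (‖x‖ ^ 2) := funext hQ
    rw [this]
    exact hh.comp (contDiff_norm_sq ℝ)
  have hqe : ∀ r : ℝ, 0 ≤ r → q r = Q (L r) := by
    intro r hr
    rw [hq, hnL r hr]
  have hsm : ContDiffOn ℝ ∞ q (Ioi 0) := by
    have h1 : ContDiff ℝ ∞ (fun r : ℝ => Q (L r)) := hQs.comp L.contDiff
    exact h1.contDiffOn.congr fun r hr => hqe r (le_of_lt hr)
  refine ⟨hsm, fun J => WS.of_deriv zero_le_one (hsm.mono (Ioi_subset_Ioi zero_le_one))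
    fun k _ => ?_⟩
  obtain ⟨C, hC⟩ := hP.symbol k
  refine ⟨C, fun r hr => ?_⟩
  have hr0 : 0 < r := zero_lt_one.trans hr
  have e1 : iteratedDeriv k q r = iteratedDeriv k (Q ∘ L) r := by
    apply Filter.EventuallyEq.iteratedDeriv_eq
    filter_upwards [isOpen_Ioi.mem_nhds hr0] with x hx
    exact hqe x (le_of_lt hx)
  have hC0 : 0 ≤ C := by
    have h1 := (norm_nonneg _).trans (hC 0)
    simpa using h1
  rw [e1, ← norm_iteratedFDeriv_eq_norm_iteratedDeriv,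
    ContinuousLinearMap.iteratedFDeriv_comp_right L hQs r (by exact_mod_cast le_top)]
  have hnorm : ‖L‖ ≤ 1 := by
    refine L.opNorm_le_bound zero_le_one fun r => ?_
    rw [hLr, norm_smul, norm_e0, mul_one, one_mul]
  calc ‖(iteratedFDeriv ℝ k Q (L r)).compContinuousLinearMap fun _ => L‖
      ≤ ‖iteratedFDeriv ℝ k Q (L r)‖ * ∏ _i : Fin k, ‖L‖ :=
        ContinuousMultilinearMap.norm_compContinuousLinearMap_le _ _
    _ ≤ ‖iteratedFDeriv ℝ k Q (L r)‖ * 1 := by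
        apply mul_le_mul_of_nonneg_left _ (norm_nonneg _)
        simp only [Finset.prod_const]
        exact pow_le_one₀ (norm_nonneg _) hnorm
    _ ≤ C * (1 + ‖L r‖) ^ (-(2 * aa m) - (k : ℝ)) := by rw [mul_one]; exact hC _
    _ ≤ C * r ^ (-(2 * aa m) - (k : ℝ)) := by
        rw [hnL r hr0.le]
        apply mul_le_mul_of_nonneg_left _ hC0
        apply Real.rpow_le_rpow_of_nonpos hr0 (by linarith)
        have : 0 ≤ aa m := by unfold aa; positivity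
        have : (0 : ℝ) ≤ k := Nat.cast_nonneg k
        linarith

theorem aa_pos {m : ℕ} (hm : 1 ≤ m) : 0 < aa m := by
  unfold aa
  have : (0 : ℝ) < m := by exact_mod_cast hm
  positivity

theorem four_aa {m : ℕ} (hm : 1 ≤ m) : (2 * aa m) * (2 * m) = 2 := by
  unfold aa
  have : (0 : ℝ) < m := by exact_mod_cast hm
  field_simp

/-- `q^i conj q^j`, `i + j = 2m`, is a symbol of order `-2` -/
theorem WS_pow {m : ℕ} (hm : 1 ≤ m) {q : ℝ → ℂ} (hq : ∀ J, WS 1 (2 * aa m) J q) {i j : ℕ}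
    (hij : i + j = 2 * m) (J : ℕ) :
    WS 1 2 J (fun r => q r ^ i * (starRingEnd ℂ) (q r) ^ j) := by
  have h1 := (SB.pow (hq J) i).mul (SB.pow (SB.conj (hq J)) j)
  refine SB.congr (fun r hr => ?_) h1
  have hr0 : 0 < r := zero_lt_one.trans hr
  have hc : (starRingEnd ℂ) (rp (2 * aa m) r) = rp (2 * aa m) r := by
    rw [rp, Complex.conj_ofReal]
  have hpow : rp (2 * aa m) r ^ i * rp (2 * aa m) r ^ j = rp 2 r := by
    rw [← pow_add, hij, rp, rp, ← Complex.ofReal_pow, ← Real.rpow_natCast, ← Real.rpow_mul hr0.le]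
    congr 2
    push_cast
    exact four_aa hm
  rw [mul_pow, map_mul, hc, mul_pow, ← hpow]
  ring

theorem WS_W1 {m : ℕ} (hm : 1 ≤ m) {q : ℝ → ℂ} (hq : ∀ J, WS 1 (2 * aa m) J q) (J : ℕ) :
    WS 1 2 J (fun r => W1 m (q r)) := by
  refine (WS_pow hm hq (i := m) (j := m) (by ring) J).congr fun r _ => ?_
  rw [W1, mul_pow]

theorem WS_W2 {m : ℕ} (hm : 1 ≤ m) {q : ℝ → ℂ} (hq : ∀ J, WS 1 (2 * aa m) J q) (J : ℕ) :
    WS 1 2 J (fun r => W2 m (q r)) :=
  (WS_pow hm hq (i := m + 1) (j := m - 1) (by omega) J).congr fun r _ => rfl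

theorem WS_W2c {m : ℕ} (hm : 1 ≤ m) {q : ℝ → ℂ} (hq : ∀ J, WS 1 (2 * aa m) J q) (J : ℕ) :
    WS 1 2 J (fun r => (starRingEnd ℂ) (W2 m (q r))) := by
  refine (WS_pow hm hq (i := m - 1) (j := m + 1) (by omega) J).congr fun r _ => ?_
  rw [W2, map_mul, map_pow, map_pow, Complex.conj_conj]
  ring

theorem smooth_W1 {m : ℕ} {q : ℝ → ℂ} {s : Set ℝ} (hq : ContDiffOn ℝ ∞ q s) :
    ContDiffOn ℝ ∞ (fun r => W1 m (q r)) s :=
  (hq.mul ((Complex.conjCLE.contDiff (n := ∞)).comp_contDiffOn hq)).pow m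

theorem smooth_W2 {m : ℕ} {q : ℝ → ℂ} {s : Set ℝ} (hq : ContDiffOn ℝ ∞ q s) :
    ContDiffOn ℝ ∞ (fun r => W2 m (q r)) s :=
  (hq.pow _).mul (((Complex.conjCLE.contDiff (n := ∞)).comp_contDiffOn hq).pow _)

theorem smooth_W2c {m : ℕ} {q : ℝ → ℂ} {s : Set ℝ} (hq : ContDiffOn ℝ ∞ q s) :
    ContDiffOn ℝ ∞ (fun r => (starRingEnd ℂ) (W2 m (q r))) s :=
  (Complex.conjCLE.contDiff (n := ∞)).comp_contDiffOn (smooth_W2 hq)

/-- admissible solutions of the radial system are smooth on `(0,∞)` -/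
theorem radial_smooth {d m l : ℕ} {w : ℝ} {q : ℝ → ℂ} (hq : ContDiffOn ℝ ∞ q (Ioi 0)) {lam : ℂ}
    {F G F0 G0 : ℝ → ℂ} (hF : ContDiffOn ℝ 2 F (Ioi 0)) (hG : ContDiffOn ℝ 2 G (Ioi 0))
    (hF0 : ContDiffOn ℝ ∞ F0 (Ioi 0)) (hG0 : ContDiffOn ℝ ∞ G0 (Ioi 0))
    (e1 : ∀ r > 0, RL1 d m l w q F G r = lam * F r + F0 r)
    (e2 : ∀ r > 0, RL2 d m l w q F G r = lam * G r + G0 r) :
    ContDiffOn ℝ ∞ F (Ioi 0) ∧ ContDiffOn ℝ ∞ G (Ioi 0) := by
  have hinv : ContDiffOn ℝ ∞ (fun r : ℝ => ((r : ℂ))⁻¹) (Ioi (0 : ℝ)) :=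
    smooth_ofReal.contDiffOn.inv fun r hr => by
      have : (0 : ℝ) < r := hr
      exact_mod_cast this.ne'
  have hid : ContDiffOn ℝ ∞ (fun r : ℝ => (r : ℂ)) (Ioi (0 : ℝ)) := smooth_ofReal.contDiffOn
  have cst : ∀ c : ℂ, ContDiffOn ℝ ∞ (fun _ : ℝ => c) (Ioi (0 : ℝ)) := fun c => contDiffOn_const
  refine smooth_system (r0 := 0)
    (a1 := fun r => (-((d : ℂ) - 1)) * (r : ℂ)⁻¹ + (-(I / 2)) * (r : ℂ))
    (a2 := fun r => ((l : ℂ) * ((l : ℂ) + d - 2)) * ((r : ℂ)⁻¹ * (r : ℂ)⁻¹) +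
      (-(I * (lam + aa m - I * w)) + ((m : ℂ) + 1) * W1 m (q r)))
    (a3 := fun r => (m : ℂ) * W2 m (q r)) (a4 := fun r => (-I) * F0 r)
    (b1 := fun r => (-((d : ℂ) - 1)) * (r : ℂ)⁻¹ + (I / 2) * (r : ℂ))
    (b2 := fun r => ((l : ℂ) * ((l : ℂ) + d - 2)) * ((r : ℂ)⁻¹ * (r : ℂ)⁻¹) +
      (I * (lam + aa m + I * w) + ((m : ℂ) + 1) * W1 m (q r)))
    (b3 := fun r => (m : ℂ) * (starRingEnd ℂ) (W2 m (q r))) (b4 := fun r => I * G0 r)
    hF hG ?_ ?_ ?_ ?_ ?_ ?_ ?_ ?_ ?_ ?_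
  · exact ((cst _).mul hinv).add ((cst _).mul hid)
  · exact ((cst _).mul (hinv.mul hinv)).add ((cst _).add ((cst _).mul (smooth_W1 hq)))
  · exact (cst _).mul (smooth_W2 hq)
  · exact (cst _).mul hF0
  · exact ((cst _).mul hinv).add ((cst _).mul hid)
  · exact ((cst _).mul (hinv.mul hinv)).add ((cst _).add ((cst _).mul (smooth_W1 hq)))
  · exact (cst _).mul (smooth_W2c hq)
  · exact (cst _).mul hG0
  · intro r hr
    have h := e1 r hr
    have hne : (r : ℂ) ≠ 0 := by exact_mod_cast (ne_of_gt hr)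
    simp only [RL1, lapl] at h
    field_simp at h ⊢
    linear_combination (-I) * h + (2 * (r : ℂ) ^ 2 * deriv (deriv F) r +
      2 * ((d : ℂ) - 1) * r * deriv F r - 2 * ((l : ℂ) * ((l : ℂ) + d - 2)) * F r -
      2 * (r : ℂ) ^ 2 * (((m : ℂ) + 1) * W1 m (q r) * F r + (m : ℂ) * W2 m (q r) * G r)) * I_sq
  · intro r hr
    have h := e2 r hr
    have hne : (r : ℂ) ≠ 0 := by exact_mod_cast (ne_of_gt hr)
    simp only [RL2, lapl] at h
    field_simp at h ⊢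
    linear_combination I * h + (2 * (r : ℂ) ^ 2 * deriv (deriv G) r +
      2 * ((d : ℂ) - 1) * r * deriv G r - 2 * ((l : ℂ) * ((l : ℂ) + d - 2)) * G r -
      2 * (r : ℂ) ^ 2 * (((m : ℂ) + 1) * W1 m (q r) * G r +
        (m : ℂ) * (starRingEnd ℂ) (W2 m (q r)) * F r)) * I_sq

theorem RadAdm.BDD {K : ℕ} {F : ℝ → ℂ} (hF : RadAdm K F) (hs : ContDiffOn ℝ ∞ F (Ioi 0)) :
    BDD 1 K F := by
  have key : ∀ K (F : ℝ → ℂ), ContDiffOn ℝ ∞ F (Ioi 0) →
      (∀ k ≤ K, ∃ C : ℝ, ∀ r : ℝ, 1 ≤ r → ‖iteratedDeriv k F r‖ ≤ C) → H901.BDD 1 K F := by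
    intro K
    induction K with
    | zero =>
      intro F hs h
      obtain ⟨C, hC⟩ := h 0 le_rfl
      exact ⟨hs.mono (Ioi_subset_Ioi zero_le_one), C, fun r hr => by simpa using hC r hr.le⟩
    | succ K ih =>
      intro F hs h
      obtain ⟨C, hC⟩ := h 0 (Nat.zero_le _)
      refine ⟨⟨hs.mono (Ioi_subset_Ioi zero_le_one), C, fun r hr => by simpa using hC r hr.le⟩,
        ih _ (smooth_deriv hs) fun k hk => ?_⟩
      obtain ⟨C, hC⟩ := h (k + 1) (by omega)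
      exact ⟨C, fun r hr => by rw [← iteratedDeriv_succ']; exact hC r hr⟩
  exact key K F hs hF.bddinf

/-- **X1.** Admissible solutions of the radial system (with symbol sources) are smooth and decay as
symbols of some negative order. -/
theorem radial_decay {d m l K J : ℕ} [NeZero d] (hm : 1 ≤ m) {w : ℝ} {Q : E d → ℂ} {q : ℝ → ℂ}
    (hP : IsProfile d m w Q) (hq : ∀ x, Q x = q ‖x‖) {lam : ℂ} (hlam : 0 ≤ lam.re)
    {F G F0 G0 : ℝ → ℂ} (hF : RadAdm K F) (hG : RadAdm K G) (hJ : 2 ≤ J) (hK : 2 * J ≤ K)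
    (hF0 : ContDiffOn ℝ ∞ F0 (Ioi 0)) (hG0 : ContDiffOn ℝ ∞ G0 (Ioi 0))
    (hF0' : ∀ J, WS 1 (2 * aa m) J F0) (hG0' : ∀ J, WS 1 (2 * aa m) J G0)
    (e1 : ∀ r > 0, RL1 d m l w q F G r = lam * F r + F0 r)
    (e2 : ∀ r > 0, RL2 d m l w q F G r = lam * G r + G0 r) :
    ContDiffOn ℝ ∞ F (Ioi 0) ∧ ContDiffOn ℝ ∞ G (Ioi 0) ∧
      WS 1 (aa m) (J - 1) F ∧ WS 1 (aa m) (J - 1) G := by
  obtain ⟨hqs, hqw⟩ := profile_radial hP hq
  have h2K : ((2 : ℕ) : ℕ∞ω) ≤ ((K : ℕ) : ℕ∞ω) := by exact_mod_cast (by omega : 2 ≤ K)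
  obtain ⟨sF, sG⟩ := radial_smooth (d := d) (m := m) (l := l) (w := w) hqs
    (hF.smooth.of_le h2K) (hG.smooth.of_le h2K) hF0 hG0 e1 e2
  have ha := aa_pos hm
  have ha2 : aa m ≤ 1 / 2 := by
    unfold aa
    have : (1 : ℝ) ≤ m := by exact_mod_cast hm
    rw [div_le_div_iff₀ (by positivity) (by norm_num)]
    linarith
  have bF := BDD.mono_le hK (RadAdm.BDD hF sF)
  have bG := BDD.mono_le hK (RadAdm.BDD hG sG)
  have key := decay_system (r0 := 1) zero_lt_one hJ (dd := (d : ℂ) - 1)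
    (μ := (l : ℂ) * ((l : ℂ) + d - 2)) (c := 2 * I) (c' := -(2 * I))
    (κ := lam + aa m - I * w) (κ' := lam + aa m + I * w) (δ := aa m) (σ := 2 * aa m)
    (F := F) (G := G) (p1 := fun r => (-(2 * I * ((m : ℂ) + 1))) * W1 m (q r))
    (p2 := fun r => (-(2 * I * (m : ℂ))) * W2 m (q r))
    (p3 := fun r => (2 * I * ((m : ℂ) + 1)) * W1 m (q r))
    (p4 := fun r => (2 * I * (m : ℂ)) * (starRingEnd ℂ) (W2 m (q r)))
    (S := fun r => (-2) * F0 r) (T := fun r => (-2) * G0 r) bF bG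
    (fun J => (WS_W1 hm hqw J).const_mul _) (fun J => (WS_W2 hm hqw J).const_mul _)
    (fun J => (WS_W1 hm hqw J).const_mul _) (fun J => (WS_W2c hm hqw J).const_mul _)
    (fun J => (hF0' J).const_mul _) (fun J => (hG0' J).const_mul _)
    ha.le (by simp; linarith) (by simp; linarith) (by linarith) (by linarith)
    (fun r hr => ?_) (fun r hr => ?_)
  · exact ⟨sF, sG, key.1, key.2⟩
  · have h := e1 r (zero_lt_one.trans hr)
    simp only [RL1, lapl] at h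
    simp only [th]
    linear_combination (-2) * h
  · have h := e2 r (zero_lt_one.trans hr)
    simp only [RL2, lapl] at h
    simp only [th]
    linear_combination (-2) * h

/-- the pointwise form of a weighted bound, up to `r = 1` -/
theorem WS.bound_one {δ : ℝ} {J : ℕ} {F : ℝ → ℂ} (hs : ContDiffOn ℝ ∞ F (Ioi 0))
    (h : WS 1 δ J F) {k : ℕ} (hk : k ≤ J) :
    ∃ C : ℝ, ∀ r : ℝ, 1 ≤ r → ‖iteratedDeriv k F r‖ ≤ C * r ^ (-δ - k) := by
  obtain ⟨C, hC⟩ := WS.iteratedDeriv_le zero_le_one h k hk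
  refine ⟨C, fun r hr => ?_⟩
  rcases hr.lt_or_eq with h1 | h1
  · exact hC r h1
  · subst h1
    have c1 : ContinuousAt (fun r => ‖iteratedDeriv k F r‖) 1 := by
      have h2 : ContDiffOn ℝ ∞ (iteratedDeriv k F) (Ioi 0) := by
        clear hC h hk
        induction k with
        | zero => simpa using hs
        | succ k ih => rw [iteratedDeriv_succ]; exact smooth_deriv ih
      exact (h2.continuousOn.continuousAt (isOpen_Ioi.mem_nhds (by norm_num))).norm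
    have c2 : ContinuousAt (fun r : ℝ => C * r ^ (-δ - k)) 1 :=
      continuousAt_const.mul (Real.continuousAt_rpow_const _ _ (Or.inl one_ne_zero))
    have t1 : Tendsto (fun r => ‖iteratedDeriv k F r‖) (𝓝[>] 1) (𝓝 ‖iteratedDeriv k F 1‖) :=
      c1.tendsto.mono_left nhdsWithin_le_nhds
    have t2 : Tendsto (fun r : ℝ => C * r ^ (-δ - k)) (𝓝[>] 1) (𝓝 (C * (1 : ℝ) ^ (-δ - k))) :=
      c2.tendsto.mono_left nhdsWithin_le_nhds
    exact le_of_tendsto_of_tendsto t1 t2 (by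
      filter_upwards [self_mem_nhdsWithin] with r hr using hC r hr)

/-- the symmetry modes are admissible sources -/
theorem RadMode.source {d m l : ℕ} [NeZero d] {w : ℝ} {Q : E d → ℂ} {q : ℝ → ℂ}
    (hP : IsProfile d m w Q) (hq : ∀ x, Q x = q ‖x‖) {lam : ℂ} {F0 G0 : ℝ → ℂ}
    (h : RadMode m l w q lam F0 G0) :
    ContDiffOn ℝ ∞ F0 (Ioi 0) ∧ ContDiffOn ℝ ∞ G0 (Ioi 0) ∧
      (∀ J, WS 1 (2 * aa m) J F0) ∧ (∀ J, WS 1 (2 * aa m) J G0) := by
  obtain ⟨hqs, hqw⟩ := profile_radial hP hq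
  have hqs' := smooth_deriv hqs
  have cj : ∀ {u : ℝ → ℂ} {s : Set ℝ}, ContDiffOn ℝ ∞ u s →
      ContDiffOn ℝ ∞ (fun r => (starRingEnd ℂ) (u r)) s :=
    fun hu => (Complex.conjCLE.contDiff (n := ∞)).comp_contDiffOn hu
  have cst : ∀ c : ℂ, ContDiffOn ℝ ∞ (fun _ : ℝ => c) (Ioi (0 : ℝ)) := fun c => contDiffOn_const
  have cjw : ∀ {u : ℝ → ℂ} {δ : ℝ} {J : ℕ}, WS 1 δ J u →
      WS 1 δ J (fun r => (starRingEnd ℂ) (u r)) := by
    intro u δ J hu
    refine SB.congr (fun r _ => ?_) (SB.conj hu)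
    rw [map_mul, rp, Complex.conj_ofReal]
  have wd : ∀ J, WS 1 (2 * aa m + 1) J (deriv q) := by
    intro J
    refine SB.congr (fun r hr => ?_) (WS.th_mem zero_le_one (hqw (J + 1)))
    have hr0 : 0 < r := zero_lt_one.trans hr
    rw [rp_add hr0, rp_one]
    unfold th
    ring
  have key : ∀ {u : ℝ → ℂ} {c : ℂ}, ContDiffOn ℝ ∞ u (Ioi 0) → (∀ J, WS 1 (2 * aa m) J u) →
      (∀ r > 0, F0 r = c * u r ∧ G0 r = c * (starRingEnd ℂ) (u r)) →
      ContDiffOn ℝ ∞ F0 (Ioi 0) ∧ ContDiffOn ℝ ∞ G0 (Ioi 0) ∧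
      (∀ J, WS 1 (2 * aa m) J F0) ∧ (∀ J, WS 1 (2 * aa m) J G0) := by
    intro u c hu hw h
    refine ⟨((cst c).mul hu).congr fun r hr => (h r hr).1,
      ((cst c).mul (cj hu)).congr fun r hr => (h r hr).2, fun J => ?_, fun J => ?_⟩
    · exact ((hw J).const_mul c).congr fun r hr => ((h r (zero_lt_one.trans hr)).1).symm
    · exact ((cjw (hw J)).const_mul c).congr fun r hr => ((h r (zero_lt_one.trans hr)).2).symm
  rcases h with ⟨_, _, c, h⟩ | ⟨_, _, c, h⟩ | ⟨_, _, c, h⟩ | h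
  · exact key ((cst I).mul hqs) (fun J => (hqw J).const_mul I) h
  · exact key hqs' (fun J => (wd J).mono_le zero_lt_one (by linarith)) h
  · refine key (u := fun r => ((aa m : ℂ) - I * (w : ℂ)) * q r + (r / 2) * deriv q r) ?_ ?_ h
    · exact ((cst _).mul hqs).add ((smooth_ofReal.contDiffOn.div_const _).mul hqs')
    · intro J
      have h1 := ((hqw J).const_mul ((aa m : ℂ) - I * (w : ℂ))).add
        ((WS.th_mem zero_le_one (hqw (J + 1))).const_mul (1 / 2))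
      refine h1.congr fun r _ => ?_
      unfold th
      ring
  · have hz : ∀ J, WS (1 : ℝ) (2 * aa m) J (fun _ => (0 : ℂ)) := fun J => by
      have := (hqw J).const_mul 0
      exact this.congr fun r _ => by ring
    exact key (u := fun _ => 0) (c := 0) (cst 0) hz fun r hr => by
      rw [(h r hr).1, (h r hr).2]; simp

end Vale.Agent.P139.H901
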