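import Vale.Agent.P139.H901.Decay2
import Vale.Agent.P139.KU.SlowR
import Vale.Agent.P139.H889.Fin4

/-! P139, block [X], X4: slow solutions of the free radial equation outside a ball, and angular
moments of solutions of the free equation. -/

open Set Filter Topology Complex
open scoped ContDiff
open Vale.Agent.P139.BU
open Vale.Agent.P139.KU (Phi dPhi SB_Phi SB_dPhi Phi_ode dPhi_ode Phi_ne_zero_of_large)
open Vale.Agent.P225 (Harm)

namespace Vale.Agent.P139.H901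

variable {r0 : ℝ}

theorem SB.bdd (h0 : 0 < r0) {K : ℕ} {A : ℝ → ℂ} (h : SB r0 K A) : BDD r0 K A :=
  CL.of_WS (j := 0) h0 (by simpa using h)

/-- free radial equation with source, `κ A = i Δ_l A - (r/2) A' + s` -/
def FreeEq (d l : ℕ) (κ : ℂ) (s A : ℝ → ℂ) (r : ℝ) : Prop :=
  κ * A r = I * lapl d l A r - (r / 2) * deriv A r + s r

theorem FreeEq.ode {d l : ℕ} {κ : ℂ} {s A : ℝ → ℂ} {r : ℝ} (h : FreeEq d l κ s A r) :
    deriv (deriv A) r + (((d : ℂ) - 1) / r + I * r / 2) * deriv A r +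
      (I * κ - ((l : ℂ) * ((l : ℂ) + d - 2)) / (r : ℂ) ^ 2) * A r = I * s r := by
  unfold FreeEq lapl at h
  linear_combination I * h + (deriv (deriv A) r + (((d : ℂ) - 1) / r) * deriv A r
    - ((l : ℂ) * ((l : ℂ) + d - 2) / (r : ℂ) ^ 2) * A r) * I_sq

theorem FreeEq.of_ode {d l : ℕ} {κ : ℂ} {s A : ℝ → ℂ} {r : ℝ}
    (h : deriv (deriv A) r + (((d : ℂ) - 1) / r + I * r / 2) * deriv A r +
      (I * κ - ((l : ℂ) * ((l : ℂ) + d - 2)) / (r : ℂ) ^ 2) * A r = I * s r) :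
    FreeEq d l κ s A r := by
  unfold FreeEq lapl
  linear_combination (-I) * h + ((r : ℂ) / 2 * deriv A r + κ * A r - s r) * I_sq

/-- solutions of the homogeneous free equation with bounded derivatives are in `SB` -/
theorem hom_SB (h0 : 0 < r0) {d l J : ℕ} {κ : ℂ} {A : ℝ → ℂ} (hA : BDD r0 (2 * J) A)
    (e : ∀ r, r0 < r → FreeEq d l κ (fun _ => 0) A r) : SB r0 J A := by
  have inv2 : ∀ j K, CL r0 j K (fun r : ℝ => ((r : ℂ))⁻¹ * ((r : ℂ))⁻¹) := fun j K =>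
    (CL.inv h0 j K).mul (CL.inv h0 j K)
  have e1 : ∀ r, r0 < r → th A r = (2 * I) * deriv (deriv A) r +
      ((2 * I * ((d : ℂ) - 1) * (r : ℂ)⁻¹) * deriv A r +
      (((-(2 * I * ((l : ℂ) * ((l : ℂ) + d - 2)))) * ((r : ℂ)⁻¹ * (r : ℂ)⁻¹) + (-(2 * κ))) * A r +
      ((0 : ℂ) * A r + 0))) := by
    intro r hr
    have hne : (r : ℂ) ≠ 0 := by exact_mod_cast (h0.trans hr).ne'
    have h := e r hr
    unfold FreeEq lapl at h
    unfold th
    field_simp at h ⊢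
    linear_combination h
  have key := CL.system (r0 := r0) (J := J) (F := A) (G := A) (S := fun _ => 0) (T := fun _ => 0)
    (b1 := fun r => 2 * I * ((d : ℂ) - 1) * (r : ℂ)⁻¹)
    (b2 := fun r => (-(2 * I * ((l : ℂ) * ((l : ℂ) + d - 2)))) * ((r : ℂ)⁻¹ * (r : ℂ)⁻¹) +
      (-(2 * κ)))
    (b3 := fun _ => 0) (c1 := fun r => 2 * I * ((d : ℂ) - 1) * (r : ℂ)⁻¹)
    (c2 := fun r => (-(2 * I * ((l : ℂ) * ((l : ℂ) + d - 2)))) * ((r : ℂ)⁻¹ * (r : ℂ)⁻¹) +
      (-(2 * κ)))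
    (c3 := fun _ => 0) (c := 2 * I) (c' := 2 * I) hA hA
    (fun j K => (CL.inv h0 j K).const_mul _)
    (fun j K => ((inv2 j K).const_mul _).add (CL.const j K _))
    (fun j K => CL.const j K 0) (fun j K => (CL.inv h0 j K).const_mul _)
    (fun j K => ((inv2 j K).const_mul _).add (CL.const j K _))
    (fun j K => CL.const j K 0) (fun j K => CL.const j K 0) (fun j K => CL.const j K 0) e1 e1
  exact key.1.toSB

theorem lapl_sub {A P : ℝ → ℂ} (hA : ContDiffOn ℝ ∞ A (Ioi r0))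
    (hP : ContDiffOn ℝ ∞ P (Ioi r0)) {r : ℝ} (hr : r0 < r) :
    deriv (fun r => A r + (-1) * P r) r = deriv A r + (-1) * deriv P r ∧
    deriv (deriv (fun r => A r + (-1) * P r)) r =
      deriv (deriv A) r + (-1) * deriv (deriv P) r := by
  have d1 : ∀ r, r0 < r → deriv (fun r => A r + (-1) * P r) r = deriv A r + (-1) * deriv P r := by
    intro r hr
    exact ((diffAt hA hr).hasDerivAt.add ((diffAt hP hr).hasDerivAt.const_mul (-1))).deriv
  refine ⟨d1 r hr, ?_⟩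
  rw [deriv_congr_on d1 hr]
  exact ((diffAt (smooth_deriv hA) hr).hasDerivAt.add
    ((diffAt (smooth_deriv hP) hr).hasDerivAt.const_mul (-1))).deriv

/-- **radial form of X4**: a solution with bounded derivatives of the free equation with a source
equals a multiple of the slow solution plus a given particular solution. -/
theorem slow_rep (h0 : 0 < r0) {d l K : ℕ} (hd : 2 ≤ d) (hK : d + 2 ≤ K) {κ : ℂ}
    (hκ : 0 < κ.re) {A P s : ℝ → ℂ} (hA : BDD r0 K A) (hP : ∀ n, SB r0 n P)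
    (eA : ∀ r, r0 < r → FreeEq d l κ s A r) (eP : ∀ r, r0 < r → FreeEq d l κ s P r) :
    ∃ α : ℂ, ∀ r, r0 < r → A r =
      α * Phi l (κ + l / 2) ((d : ℂ) / 2 + l / 2 - 1 - κ) r + P r := by
  set B : ℝ → ℂ := fun r => A r + (-1) * P r with hB
  have sA : ContDiffOn ℝ ∞ A (Ioi r0) := hA.base.1
  have sP : ContDiffOn ℝ ∞ P (Ioi r0) := (SB.base (hP 0)).1
  have hBb : BDD r0 K B := hA.add ((SB.bdd h0 (hP K)).const_mul (-1))
  have eB : ∀ r, r0 < r → FreeEq d l κ (fun _ => 0) B r := by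
    intro r hr
    obtain ⟨d1, d2⟩ := lapl_sub sA sP hr
    have h1 := eA r hr
    have h2 := eP r hr
    unfold FreeEq lapl at h1 h2 ⊢
    rw [hB, d1, d2]
    linear_combination h1 - h2
  obtain ⟨k, hk⟩ : ∃ k, k = d / 2 := ⟨_, rfl⟩
  have hkd : d < 2 * k + 2 := by omega
  have hBS : SB r0 (k + 1) B := hom_SB h0 (hBb.mono_le (by omega)) eB
  set a : ℂ := κ + l / 2 with ha
  set c : ℂ := (d : ℂ) / 2 + l / 2 - 1 - κ with hc
  have hare : 0 < a.re := by
    rw [ha]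
    have : (κ + (l : ℂ) / 2).re = κ.re + l / 2 := by simp
    rw [this]
    have : (0 : ℝ) ≤ l := Nat.cast_nonneg l
    linarith
  have hal : (l : ℝ) ≤ 2 * a.re := by
    have : a.re = κ.re + l / 2 := by rw [ha]; simp
    rw [this]; linarith
  have hb : a + c + 1 = (d : ℂ) / 2 + l := by rw [ha, hc]; ring
  have hΦ : SB r0 (k + 1) (Phi l a c) := SB_Phi c hare hal h0 _
  obtain ⟨r1, hr1, hne⟩ := Phi_ne_zero_of_large l c hare
  obtain ⟨α, hα⟩ := slow_unique (r0 := r0) h0.le hd hkd (κ := κ)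
    (μ := (l : ℂ) * ((l : ℂ) + d - 2)) hBS hΦ
    (fun r hr => by simpa using (eB r hr).ode)
    (fun r hr => by
      have := Phi_ode hb hare (h0.trans hr)
      rw [← this, ha]
      ring)
    (r1 := max r1 (r0 + 1)) (lt_of_lt_of_le (by linarith) (le_max_right _ _))
    (hne _ (le_max_left _ _))
  refine ⟨α, fun r hr => ?_⟩
  rw [← hα r hr, hB]
  ring

/-- bounded derivatives of a globally smooth function of one variable -/
theorem bdd_of_global {K : ℕ} {A : ℝ → ℂ} (hs : ContDiffOn ℝ ∞ A (Ioi r0))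
    (h : ∀ k ≤ K, ∃ C : ℝ, ∀ r, r0 < r → ‖iteratedDeriv k A r‖ ≤ C) : BDD r0 K A := by
  induction K generalizing A with
  | zero =>
    obtain ⟨C, hC⟩ := h 0 le_rfl
    exact ⟨hs, C, fun r hr => by simpa using hC r hr⟩
  | succ K ih =>
    obtain ⟨C, hC⟩ := h 0 (Nat.zero_le _)
    refine ⟨⟨hs, C, fun r hr => by simpa using hC r hr⟩, ih (smooth_deriv hs) fun k hk => ?_⟩
    obtain ⟨C, hC⟩ := h (k + 1) (by omega)
    exact ⟨C, fun r hr => by rw [← iteratedDeriv_succ']; exact hC r hr⟩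

open Vale.Agent.P139.H889 in
/-- **X4.** If `κ u - L₀₀ u = g` for `|y| > r0`, `u` with bounded derivatives, the moments of `g`
are `s` there, and `P` is a slow particular solution of the radial equation with source `s`, then
the moment of `u` is `α Φ + P` outside. -/
theorem momC_rep (h0 : 0 < r0) {d l K : ℕ} [NeZero d] (hd : 2 ≤ d) (hK : d + 2 ≤ K) {κ : ℂ}
    (hκ : 0 < κ.re) {h : MvPolynomial (Fin d) ℝ} (hh : Harm l h) {u g : E d → ℂ}
    (hu : ContDiff ℝ K u) (hb : ∀ k ≤ K, ∃ C : ℝ, ∀ y, ‖iteratedFDeriv ℝ k u y‖ ≤ C)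
    (hg : Continuous g)
    (eu : ∀ y, r0 < ‖y‖ → κ * u y - (I * lap u y - (1 / 2) * eul u y) = g y)
    {s P : ℝ → ℂ} (hs : ContDiffOn ℝ ∞ s (Ioi r0)) (hgs : ∀ r, r0 < r → momC g h r = s r)
    (hP : ∀ n, SB r0 n P) (eP : ∀ r, r0 < r → FreeEq d l κ s P r) :
    ∃ α : ℂ, ∀ r, r0 < r → momC u h r =
      α * Phi l (κ + l / 2) ((d : ℂ) / 2 + l / 2 - 1 - κ) r + P r := by
  have h2K : ((2 : ℕ) : ℕ∞ω) ≤ ((K : ℕ) : ℕ∞ω) := by exact_mod_cast (by omega : 2 ≤ K)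
  have hu2 : ContDiff ℝ 2 u := hu.of_le h2K
  have hu1 : ContDiff ℝ 1 u := contDiff_one_of_two hu2
  have hM : ContDiff ℝ K (momC u h) := contDiff_momC_fin hu h
  have eM : ∀ r, r0 < r → FreeEq d l κ s (momC u h) r := by
    intro r hr
    have hrp := h0.trans hr
    have c1 : ContSph (BU.lap u) r := by
      rw [← lapC_eq]; exact contSph_of_continuous (continuous_lapC hu2) r
    have c2 : ContSph (eul u) r := contSph_of_continuous (continuous_eulC hu1) r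
    have c3 : ContSph u r := contSph_of_continuous hu1.continuous r
    have c4 : ContSph g r := contSph_of_continuous hg r
    have m1 := momC_lap hd hh hu2 hrp
    have m2 := momC_eul hu1 h r
    have e1 : momC (fun y => κ * u y) h r =
        momC (fun y => (I * BU.lap u y + (-(1 / 2)) * eul u y) + g y) h r := by
      apply momC_congr
      intro x hx
      rw [abs_of_pos hrp] at hx
      have := eu x (by rw [hx]; exact hr)
      linear_combination this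
    rw [momC_const_mul] at e1
    have k1 : ContSph (fun y => I * BU.lap u y) r := c1.const_mul I
    have k2 : ContSph (fun y => (-(1 / 2) : ℂ) * eul u y) r := c2.const_mul _
    have k3 : ContSph (fun y => I * BU.lap u y + (-(1 / 2)) * eul u y) r := k1.add k2
    rw [momC_add k3 c4, momC_add k1 k2, momC_const_mul, momC_const_mul, m1, hgs r hr] at e1
    unfold FreeEq
    rw [e1]
    have m2' : momC (eul u) h r = r * deriv (momC u h) r := m2
    rw [m2']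
    ring
  have hMs : ContDiffOn ℝ ∞ (momC u h) (Ioi r0) := by
    have hid : ContDiffOn ℝ ∞ (fun r : ℝ => (r : ℂ)) (Ioi r0) := smooth_ofReal.contDiffOn
    have hinv : ContDiffOn ℝ ∞ (fun r : ℝ => ((r : ℂ))⁻¹) (Ioi r0) :=
      hid.inv fun r hr => by
        have : (0 : ℝ) < r := h0.trans hr
        exact_mod_cast this.ne'
    have cst : ∀ c : ℂ, ContDiffOn ℝ ∞ (fun _ : ℝ => c) (Ioi r0) := fun c => contDiffOn_const
    have hM2 : ContDiffOn ℝ 2 (momC u h) (Ioi r0) := (hM.of_le h2K).contDiffOn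
    have e2 : ∀ r, r0 < r → deriv (deriv (momC u h)) r =
        (((-((d : ℂ) - 1)) * (r : ℂ)⁻¹ + (-(I / 2)) * (r : ℂ)) * deriv (momC u h) r +
        ((-(I * κ)) + ((l : ℂ) * ((l : ℂ) + d - 2)) * ((r : ℂ)⁻¹ * (r : ℂ)⁻¹)) * momC u h r +
        (0 : ℂ) * momC u h r + I * s r) := by
      intro r hr
      have hne : (r : ℂ) ≠ 0 := by exact_mod_cast (h0.trans hr).ne'
      have := (eM r hr).ode
      field_simp at this ⊢
      linear_combination this
    exact (smooth_system (r0 := r0)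
      (a1 := fun r => (-((d : ℂ) - 1)) * (r : ℂ)⁻¹ + (-(I / 2)) * (r : ℂ))
      (a2 := fun r => (-(I * κ)) + ((l : ℂ) * ((l : ℂ) + d - 2)) * ((r : ℂ)⁻¹ * (r : ℂ)⁻¹))
      (a3 := fun _ => 0) (a4 := fun r => I * s r)
      (b1 := fun r => (-((d : ℂ) - 1)) * (r : ℂ)⁻¹ + (-(I / 2)) * (r : ℂ))
      (b2 := fun r => (-(I * κ)) + ((l : ℂ) * ((l : ℂ) + d - 2)) * ((r : ℂ)⁻¹ * (r : ℂ)⁻¹))
      (b3 := fun _ => 0) (b4 := fun r => I * s r) hM2 hM2
      (((cst _).mul hinv).add ((cst _).mul hid))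
      ((cst _).add ((cst _).mul (hinv.mul hinv))) (cst 0) ((cst _).mul hs)
      (((cst _).mul hinv).add ((cst _).mul hid))
      ((cst _).add ((cst _).mul (hinv.mul hinv))) (cst 0) ((cst _).mul hs) e2 e2).1
  refine slow_rep h0 hd hK hκ (bdd_of_global hMs fun k hk => ?_) hP eM eP
  obtain ⟨C, hC⟩ := hb k hk
  exact ⟨_, fun r _ => norm_iteratedDeriv_momC_le_fin (hu.of_le (by exact_mod_cast hk)) h r
    fun x _ => hC x⟩

/-- the slow solution with spectral parameter `κ` in the mode `l` -/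
noncomputable def Ph (d l : ℕ) (κ : ℂ) : ℝ → ℂ :=
  Phi l (κ + l / 2) ((d : ℂ) / 2 + l / 2 - 1 - κ)

/-- its parameter derivative -/
noncomputable def dPh (d l : ℕ) (κ : ℂ) : ℝ → ℂ :=
  dPhi l (κ + l / 2) ((d : ℂ) / 2 + l / 2 - 1 - κ)

open Classical in
/-- divided difference of the slow solution in the spectral parameter -/
noncomputable def DD (d l : ℕ) (κ κ0 : ℂ) (r : ℝ) : ℂ :=
  if κ = κ0 then dPh d l κ r else (Ph d l κ r - Ph d l κ0 r) / (κ - κ0)

theorem re_add_half {l : ℕ} {κ : ℂ} (hκ : 0 < κ.re) :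
    0 < (κ + (l : ℂ) / 2).re ∧ (l : ℝ) < 2 * (κ + (l : ℂ) / 2).re := by
  have h : (κ + (l : ℂ) / 2).re = κ.re + l / 2 := by simp
  have : (0 : ℝ) ≤ l := Nat.cast_nonneg l
  rw [h]
  constructor <;> linarith

theorem SB_Ph (h0 : 0 < r0) (d l : ℕ) {κ : ℂ} (hκ : 0 < κ.re) (n : ℕ) : SB r0 n (Ph d l κ) :=
  SB_Phi _ (re_add_half hκ).1 (re_add_half hκ).2.le h0 n

theorem SB_dPh (h0 : 0 < r0) (d l : ℕ) {κ : ℂ} (hκ : 0 < κ.re) (n : ℕ) : SB r0 n (dPh d l κ) :=
  SB_dPhi _ (re_add_half hκ).1 (re_add_half hκ).2 h0 n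

theorem FreeEq_Ph (d l : ℕ) {κ : ℂ} (hκ : 0 < κ.re) {r : ℝ} (hr : 0 < r) :
    FreeEq d l κ (fun _ => 0) (Ph d l κ) r := by
  have hb : (κ + (l : ℂ) / 2) + ((d : ℂ) / 2 + l / 2 - 1 - κ) + 1 = (d : ℂ) / 2 + l := by ring
  have h := Phi_ode hb (re_add_half hκ).1 hr
  refine FreeEq.of_ode ?_
  unfold Ph
  rw [mul_zero, ← h]
  ring

theorem FreeEq_dPh (d l : ℕ) {κ : ℂ} (hκ : 0 < κ.re) {r : ℝ} (hr : 0 < r) :
    FreeEq d l κ (fun r => -(Ph d l κ r)) (dPh d l κ) r := by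
  have hb : (κ + (l : ℂ) / 2) + ((d : ℂ) / 2 + l / 2 - 1 - κ) + 1 = (d : ℂ) / 2 + l := by ring
  have h := dPhi_ode hb (re_add_half hκ).1 hr
  refine FreeEq.of_ode ?_
  unfold dPh Ph
  linear_combination h

theorem FreeEq.shift {d l : ℕ} {κ κ0 : ℂ} {s A : ℝ → ℂ} {r : ℝ} (h : FreeEq d l κ0 s A r) :
    FreeEq d l κ (fun r => s r + (κ - κ0) * A r) A r := by
  unfold FreeEq at h ⊢
  linear_combination h

theorem FreeEq.comb {d l : ℕ} {κ : ℂ} {s t A B : ℝ → ℂ}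
    (hA : ContDiffOn ℝ ∞ A (Ioi r0)) (hB : ContDiffOn ℝ ∞ B (Ioi r0)) (x y : ℂ) {r : ℝ}
    (hr : r0 < r) (h1 : FreeEq d l κ s A r) (h2 : FreeEq d l κ t B r) :
    FreeEq d l κ (fun r => x * s r + y * t r) (fun r => x * A r + y * B r) r := by
  have d1 : ∀ r, r0 < r → deriv (fun r => x * A r + y * B r) r = x * deriv A r + y * deriv B r := by
    intro r hr
    exact (((diffAt hA hr).hasDerivAt.const_mul x).add
      ((diffAt hB hr).hasDerivAt.const_mul y)).deriv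
  have d2 : deriv (deriv (fun r => x * A r + y * B r)) r =
      x * deriv (deriv A) r + y * deriv (deriv B) r := by
    rw [deriv_congr_on d1 hr]
    exact (((diffAt (smooth_deriv hA) hr).hasDerivAt.const_mul x).add
      ((diffAt (smooth_deriv hB) hr).hasDerivAt.const_mul y)).deriv
  unfold FreeEq lapl at h1 h2 ⊢
  rw [d1 r hr, d2]
  linear_combination x * h1 + y * h2

theorem FreeEq.congr {d l : ℕ} {κ : ℂ} {s t A B : ℝ → ℂ} {r : ℝ} (hr : r0 < r)
    (hst : s r = t r) (hAB : ∀ r, r0 < r → A r = B r) (h : FreeEq d l κ s A r) :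
    FreeEq d l κ t B r := by
  unfold FreeEq lapl at h ⊢
  have h2 : ∀ r, r0 < r → deriv A r = deriv B r := fun r hr => deriv_congr_on hAB hr
  rw [← hst, ← hAB r hr, ← h2 r hr, ← deriv_congr_on h2 hr]
  exact h

/-- `-DD` is a slow particular solution with source `Ph κ0` -/
theorem FreeEq_DD (h0 : 0 < r0) (d l : ℕ) {κ κ0 : ℂ} (hκ : 0 < κ.re) (hκ0 : 0 < κ0.re) :
    (∀ n, SB r0 n (DD d l κ κ0)) ∧
    ∀ r, r0 < r → FreeEq d l κ (fun r => -(Ph d l κ0 r)) (DD d l κ κ0) r := by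
  by_cases h : κ = κ0
  · subst h
    have e : ∀ r, r0 < r → dPh d l κ r = DD d l κ κ r := fun r _ => by simp [DD]
    refine ⟨fun n => (SB_dPh h0 d l hκ n).congr e, fun r hr => ?_⟩
    exact FreeEq.congr hr rfl e (FreeEq_dPh d l hκ (h0.trans hr))
  · have hne : κ - κ0 ≠ 0 := sub_ne_zero.2 h
    have e : ∀ r, r0 < r → (κ - κ0)⁻¹ * Ph d l κ r + (-(κ - κ0)⁻¹) * Ph d l κ0 r =
        DD d l κ κ0 r := fun r _ => by
      simp only [DD, h, if_false]
      field_simp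
      ring
    refine ⟨fun n => (((SB_Ph h0 d l hκ n).const_mul _).add
      ((SB_Ph h0 d l hκ0 n).const_mul _)).congr e, fun r hr => ?_⟩
    have s1 := (SB.base (SB_Ph h0 d l hκ 0)).1
    have s2 := (SB.base (SB_Ph h0 d l hκ0 0)).1
    have h1 := FreeEq_Ph d l hκ (h0.trans hr)
    have h2 := (FreeEq_Ph d l hκ0 (h0.trans hr)).shift (κ := κ)
    refine FreeEq.congr hr ?_ e (h1.comb s1 s2 (κ - κ0)⁻¹ (-(κ - κ0)⁻¹) hr h2)
    field_simp
    ring

open Vale.Agent.P139.H889 in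
/-- **X4**, homogeneous version. -/
theorem momC_hom (h0 : 0 < r0) {d l K : ℕ} [NeZero d] (hd : 2 ≤ d) (hK : d + 2 ≤ K) {κ : ℂ}
    (hκ : 0 < κ.re) {h : MvPolynomial (Fin d) ℝ} (hh : Harm l h) {u : E d → ℂ}
    (hu : ContDiff ℝ K u) (hb : ∀ k ≤ K, ∃ C : ℝ, ∀ y, ‖iteratedFDeriv ℝ k u y‖ ≤ C)
    (eu : ∀ y, r0 < ‖y‖ → κ * u y - (I * lap u y - (1 / 2) * eul u y) = 0) :
    ∃ α : ℂ, ∀ r, r0 < r → momC u h r = α * Ph d l κ r := by
  have hz : ∀ n, SB r0 n (fun _ => (0 : ℂ)) := fun n => (CL.const (r0 := r0) n 0 0).toSB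
  obtain ⟨α, hα⟩ := momC_rep h0 hd hK hκ hh hu hb (g := fun _ => 0) continuous_const eu
    (s := fun _ => 0) (P := fun _ => 0) contDiffOn_const
    (fun r _ => by simp [momC]) hz (fun r _ => by simp [FreeEq, lapl])
  exact ⟨α, fun r hr => by rw [hα r hr, add_zero]; rfl⟩

open Vale.Agent.P139.H889 in
/-- **X4**, version with a source whose moment is `α₀ Ph κ₀`. -/
theorem momC_src (h0 : 0 < r0) {d l K : ℕ} [NeZero d] (hd : 2 ≤ d) (hK : d + 2 ≤ K) {κ κ0 : ℂ}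
    (hκ : 0 < κ.re) (hκ0 : 0 < κ0.re) {h : MvPolynomial (Fin d) ℝ} (hh : Harm l h)
    {u g : E d → ℂ} (hu : ContDiff ℝ K u)
    (hb : ∀ k ≤ K, ∃ C : ℝ, ∀ y, ‖iteratedFDeriv ℝ k u y‖ ≤ C) (hg : Continuous g)
    (eu : ∀ y, r0 < ‖y‖ → κ * u y - (I * lap u y - (1 / 2) * eul u y) = g y) {α0 : ℂ}
    (hgs : ∀ r, r0 < r → momC g h r = α0 * Ph d l κ0 r) :
    ∃ α : ℂ, ∀ r, r0 < r → momC u h r = α * Ph d l κ r - α0 * DD d l κ κ0 r := by
  obtain ⟨hS, hE⟩ := FreeEq_DD h0 d l hκ hκ0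
  have sP := (SB.base (SB_Ph h0 d l hκ0 0)).1
  have sD := (SB.base (hS 0)).1
  have eP : ∀ r, r0 < r → FreeEq d l κ (fun r => α0 * Ph d l κ0 r)
      (fun r => (-α0) * DD d l κ κ0 r) r := by
    intro r hr
    refine FreeEq.congr hr ?_ (fun r _ => ?_) ((hE r hr).comb sD sD (-α0) 0 hr (hE r hr))
    · ring
    · ring
  obtain ⟨α, hα⟩ := momC_rep h0 hd hK hκ hh hu hb hg eu (s := fun r => α0 * Ph d l κ0 r)
    (P := fun r => (-α0) * DD d l κ κ0 r) (contDiffOn_const.mul sP) hgs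
    (fun n => (hS n).const_mul _) eP
  exact ⟨α, fun r hr => by rw [hα r hr]; unfold Ph; ring⟩

end Vale.Agent.P139.H901
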