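import Vale.Agent.P139.H901.Scal

/-! P139, block [X], X8: square mass of a polynomial on the sphere. -/

open MeasureTheory
open Vale.Agent.P139.BU
open Vale.Agent.P225 (pev sig)

namespace Vale.Agent.P139.H901

/-- `∫_S h²` -/
noncomputable def nu2 {d : ℕ} (h : MvPolynomial (Fin d) ℝ) : ℝ :=
  ∫ θ : Metric.sphere (0 : E d) 1, (pev h (θ : E d)) ^ 2 ∂(sig d)

theorem nu2_nonneg {d : ℕ} (h : MvPolynomial (Fin d) ℝ) : 0 ≤ nu2 h :=
  integral_nonneg fun _ => sq_nonneg _

end Vale.Agent.P139.H901
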