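import Vale.Agent.P139.H901.Pre
import Vale.Agent.P139.H901.Nu2

/-! P139, block [X], X8: exterior representation of pairs on `ℝ^d` for fixed cut-offs. -/

open Set Filter Topology Complex MeasureTheory Metric
open scoped ContDiff ComplexConjugate
open Vale.Agent.P139.BU
open Vale.Agent.P139.H201 (WienerRep nd)
open Vale.Agent.P139.H305 (DB)
open Vale.Agent.P139.H744 (L00 ext_rep)
open Vale.Agent.P139.H889 (momC)
open Vale.Agent.P225 (Harm pev sig)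

namespace Vale.Agent.P139.H901

theorem Close1.mono {ρ1 δ δ' : ℝ} {M S : ℝ → ℂ} (h : Close1 ρ1 δ M S) (hd : δ ≤ δ') :
    Close1 ρ1 δ' M S := fun ρ hρ =>
  ⟨(h ρ hρ).1.trans hd, (h ρ hρ).2.trans (by nlinarith [Real.pi_pos])⟩

/-- the arithmetic of the error terms -/
theorem arith_err (s n1 N2 : ℕ) {C1 C2 X m ε I0 I I0' I' c Y0 Y κr : ℝ} (hC1 : 0 < C1)
    (hC2 : 0 < C2) (hm : 1 ≤ m) (hX : m ≤ X) (hε : 0 ≤ ε) (hI0' : 0 ≤ I0') (hI' : 0 ≤ I')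
    (h0 : I0' ≤ I0) (hI : I' ≤ I) (hc : 0 ≤ c) (hY0 : 0 ≤ Y0) (hY : 0 ≤ Y) (hY0X : Y0 ≤ X)
    (hYX : Y ≤ X) (hκ : 1 / (2 * m) ≤ κr) :
    2 ^ s * (2 * m + 1) * ε * (4 * m * (C1 * Y0 ^ n1 * (I0' + 0) + 0)) * (2 * m) ≤
      24 * 2 ^ s * C1 * (7 + C2) * X ^ (n1 + N2 + 4) * ε * I0 ∧
    2 ^ s * (2 * m + 1) * ε * (4 * m * (C1 * Y ^ n1 * (I' + c * (C2 * Y0 ^ N2 * I0)) +
        c * (4 * m * (C1 * Y0 ^ n1 * (I0' + 0) + 0)))) * (2 * m) +
      c * (2 ^ s * (2 * m + 1) * ε * (4 * m * (C1 * Y0 ^ n1 * (I0' + 0) + 0)) * (2 * m)) / κr ≤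
      24 * 2 ^ s * C1 * (7 + C2) * X ^ (n1 + N2 + 4) * ε * (I + c * I0) := by
  have hX1 : 1 ≤ X := hm.trans hX
  have hX0 : 0 < X := by linarith
  have hm0 : 0 < m := by linarith
  have hI00 : 0 ≤ I0 := hI0'.trans h0
  have hI1 : 0 ≤ I := hI'.trans hI
  have p1 : Y0 ^ n1 ≤ X ^ n1 := pow_le_pow_left₀ hY0 hY0X _
  have p2 : Y ^ n1 ≤ X ^ n1 := pow_le_pow_left₀ hY hYX _
  have p3 : Y0 ^ N2 ≤ X ^ N2 := pow_le_pow_left₀ hY0 hY0X _
  have hXn : 1 ≤ X ^ n1 := one_le_pow₀ hX1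
  have hXN : 1 ≤ X ^ N2 := one_le_pow₀ hX1
  -- K0
  set K0 : ℝ := C1 * Y0 ^ n1 * (I0' + 0) + 0 with hK0
  have hK00 : 0 ≤ K0 := by rw [hK0]; positivity
  have k0 : K0 ≤ C1 * X ^ n1 * I0 := by
    rw [hK0, add_zero, add_zero]
    gcongr
  set B0 : ℝ := 2 ^ s * (2 * m + 1) * ε * (4 * m * K0) * (2 * m) with hB0
  have hB00 : 0 ≤ B0 := by rw [hB0]; positivity
  have b0 : B0 ≤ 24 * 2 ^ s * C1 * X ^ (n1 + 3) * ε * I0 := by
    calc B0 = 2 ^ s * (2 * m + 1) * ε * (4 * m * K0) * (2 * m) := hB0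
      _ ≤ 2 ^ s * (3 * X) * ε * (4 * X * (C1 * X ^ n1 * I0)) * (2 * X) := by
        have : 2 * m + 1 ≤ 3 * X := by linarith
        gcongr
      _ = _ := by ring
  have hW : 0 ≤ 24 * 2 ^ s * C1 * ε * I0 := by positivity
  have hpow : X ^ (n1 + 3) ≤ X ^ (n1 + N2 + 4) := pow_le_pow_right₀ hX1 (by omega)
  refine ⟨?_, ?_⟩
  · calc B0 ≤ 24 * 2 ^ s * C1 * X ^ (n1 + 3) * ε * I0 := b0
      _ = (24 * 2 ^ s * C1 * ε * I0) * X ^ (n1 + 3) := by ring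
      _ ≤ (24 * 2 ^ s * C1 * ε * I0) * X ^ (n1 + N2 + 4) := by gcongr
      _ = (24 * 2 ^ s * C1 * ε * I0) * X ^ (n1 + N2 + 4) * 1 := by ring
      _ ≤ (24 * 2 ^ s * C1 * ε * I0) * X ^ (n1 + N2 + 4) * (7 + C2) := by
        gcongr
        linarith
      _ = _ := by ring
  · set J : ℝ := I + c * I0 with hJ
    have hJ0 : 0 ≤ J := by rw [hJ]; positivity
    have hcJ : c * I0 ≤ J := by rw [hJ]; linarith
    have hIJ : I ≤ J := by
      rw [hJ]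
      have : 0 ≤ c * I0 := by positivity
      linarith
    have k1 : C1 * Y ^ n1 * (I' + c * (C2 * Y0 ^ N2 * I0)) + c * (4 * m * K0) ≤
        C1 * (5 + C2) * X ^ (n1 + N2 + 1) * J := by
      have t1 : C1 * Y ^ n1 * (I' + c * (C2 * Y0 ^ N2 * I0)) ≤
          C1 * X ^ n1 * (J + C2 * X ^ N2 * J) := by
        have a1 : I' ≤ J := hI.trans hIJ
        have a2 : c * (C2 * Y0 ^ N2 * I0) ≤ C2 * X ^ N2 * J := by
          calc c * (C2 * Y0 ^ N2 * I0) = C2 * Y0 ^ N2 * (c * I0) := by ring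
            _ ≤ C2 * X ^ N2 * J := by gcongr
        have a3 : 0 ≤ c * (C2 * Y0 ^ N2 * I0) := by positivity
        gcongr
      have t2 : C1 * X ^ n1 * (J + C2 * X ^ N2 * J) ≤ C1 * (1 + C2) * X ^ (n1 + N2) * J := by
        have : J ≤ X ^ N2 * J := le_mul_of_one_le_left hJ0 hXN
        calc C1 * X ^ n1 * (J + C2 * X ^ N2 * J) ≤ C1 * X ^ n1 * (X ^ N2 * J + C2 * X ^ N2 * J) := by
              gcongr
          _ = C1 * (1 + C2) * X ^ (n1 + N2) * J := by rw [pow_add]; ring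
      have t3 : c * (4 * m * K0) ≤ C1 * 4 * X ^ (n1 + 1) * J := by
        calc c * (4 * m * K0) ≤ c * (4 * X * (C1 * X ^ n1 * I0)) := by gcongr
          _ = C1 * 4 * X ^ (n1 + 1) * (c * I0) := by ring
          _ ≤ _ := by gcongr
      have t4 : C1 * (1 + C2) * X ^ (n1 + N2) * J ≤ C1 * (1 + C2) * X ^ (n1 + N2 + 1) * J := by
        have : X ^ (n1 + N2) ≤ X ^ (n1 + N2 + 1) := pow_le_pow_right₀ hX1 (by omega)
        gcongr
      have t5 : C1 * 4 * X ^ (n1 + 1) * J ≤ C1 * 4 * X ^ (n1 + N2 + 1) * J := by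
        have : X ^ (n1 + 1) ≤ X ^ (n1 + N2 + 1) := pow_le_pow_right₀ hX1 (by omega)
        gcongr
      calc _ ≤ C1 * (1 + C2) * X ^ (n1 + N2 + 1) * J + C1 * 4 * X ^ (n1 + N2 + 1) * J :=
            add_le_add (t1.trans (t2.trans t4)) (t3.trans t5)
        _ = _ := by ring
    have k2 : 0 ≤ C1 * Y ^ n1 * (I' + c * (C2 * Y0 ^ N2 * I0)) + c * (4 * m * K0) := by
      positivity
    have b1 : 2 ^ s * (2 * m + 1) * ε * (4 * m * (C1 * Y ^ n1 * (I' + c * (C2 * Y0 ^ N2 * I0)) +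
        c * (4 * m * K0))) * (2 * m) ≤
        24 * 2 ^ s * C1 * (5 + C2) * X ^ (n1 + N2 + 4) * ε * J := by
      calc _ ≤ 2 ^ s * (3 * X) * ε * (4 * X * (C1 * (5 + C2) * X ^ (n1 + N2 + 1) * J)) *
            (2 * X) := by
            have : 2 * m + 1 ≤ 3 * X := by linarith
            gcongr
        _ = _ := by ring
    have b2 : c * B0 / κr ≤ 24 * 2 ^ s * C1 * 2 * X ^ (n1 + N2 + 4) * ε * J := by
      have hκ0 : 0 < κr := lt_of_lt_of_le (by positivity) hκ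
      have h2 : 1 / κr ≤ 2 * m := by
        rw [div_le_iff₀ hκ0]
        rw [div_le_iff₀ (by positivity)] at hκ
        linarith
      calc c * B0 / κr = c * B0 * (1 / κr) := by ring
        _ ≤ c * B0 * (2 * m) := by gcongr
        _ ≤ c * (24 * 2 ^ s * C1 * X ^ (n1 + 3) * ε * I0) * (2 * X) := by gcongr
        _ = 24 * 2 ^ s * C1 * 2 * X ^ (n1 + 4) * ε * (c * I0) := by ring
        _ ≤ 24 * 2 ^ s * C1 * 2 * X ^ (n1 + N2 + 4) * ε * J := by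
          have : X ^ (n1 + 4) ≤ X ^ (n1 + N2 + 4) := pow_le_pow_right₀ hX1 (by omega)
          gcongr
    calc _ ≤ 24 * 2 ^ s * C1 * (5 + C2) * X ^ (n1 + N2 + 4) * ε * J +
          24 * 2 ^ s * C1 * 2 * X ^ (n1 + N2 + 4) * ε * J := add_le_add b1 b2
      _ = _ := by ring

end Vale.Agent.P139.H901
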