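import Vale.Agent.P139.H901.Core

/-! P139, block [X], X8: exterior representation of pairs on `ℝ^d` for fixed cut-offs. -/

open Set Filter Topology Complex MeasureTheory Metric
open scoped ContDiff ComplexConjugate
open Vale.Agent.P139.BU
open Vale.Agent.P139.H201 (WienerRep nd)
open Vale.Agent.P139.H305 (DB)
open Vale.Agent.P139.H744 (L00 ext_rep)
open Vale.Agent.P139.H889 (momC)
open Vale.Agent.P225 (Harm pev sig)

namespace Vale.Agent.P139.H901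

variable {d : ℕ}

theorem db_zero (n : ℕ) (ρ : ℝ) : DB n ρ 0 (fun _ : E d => (0 : ℂ)) :=
  ⟨contDiff_const, fun i _ x _ => by
    rcases Nat.eq_zero_or_pos i with rfl | hi
    · simp
    · rw [iteratedFDeriv_const_of_ne (by omega)]
      simp⟩

theorem wiener_zero (s : ℕ) : WienerRep s (fun _ : E d => (0 : ℂ)) 0 := by
  refine ⟨fun _ => 0, integrable_zero _ _ _, by simp, fun x => ?_, by simp⟩
  simp [Real.fourierInv_eq]

theorem eq_zero_of_wiener {s : ℕ} {f : E d → ℂ} (hf : WienerRep s f 0) (x : E d) : f x = 0 := by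
  have := H744.WienerRep.norm_le hf x
  exact norm_le_zero_iff.mp this

theorem db_smul {n : ℕ} {ρ T : ℝ} {f : E d → ℂ} (hf : ContDiff ℝ ∞ f)
    (hb : ∀ i ≤ n, ∀ x, ‖x‖ ≤ ρ → ‖iteratedFDeriv ℝ i f x‖ ≤ T) (c : ℂ) :
    DB n ρ (‖c‖ * T) (fun x => c * f x) := by
  refine ⟨(contDiff_const.mul hf).of_le (by exact_mod_cast le_top), fun i hi x hx => ?_⟩
  have h1 : (fun x => c * f x) = c • f := rfl
  have hfi : ContDiff ℝ i f := hf.of_le (by exact_mod_cast le_top)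
  rw [h1, iteratedFDeriv_const_smul_apply hfi.contDiffAt]
  rw [norm_smul]
  exact mul_le_mul_of_nonneg_left (hb i hi x hx) (norm_nonneg _)

theorem int_ball_mono {f g : E d → ℂ} (hf : Continuous f) (hg : Continuous g) {ρ ρ' : ℝ}
    (h : ρ ≤ ρ') : ∫ x in closedBall (0 : E d) ρ, (‖f x‖ + ‖g x‖) ≤
      ∫ x in closedBall (0 : E d) ρ', (‖f x‖ + ‖g x‖) := by
  have hc : Continuous fun x : E d => ‖f x‖ + ‖g x‖ := by fun_prop
  refine setIntegral_mono_set (hc.continuousOn.integrableOn_compact (isCompact_closedBall _ _))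
    (Eventually.of_forall fun x => by positivity) (closedBall_subset_closedBall h).eventuallyLE

/-- the conclusion of the exterior representation of a pair -/
def PairOut (d l : ℕ) (h : MvPolynomial (Fin d) ℝ) (ρ1 : ℝ) (κ κ0 κs κs0 c : ℂ)
    (f g f0 g0 : E d → ℂ) (δ0 δ : ℝ) : Prop :=
  (∃ α0 α : ℂ, Close1 ρ1 δ0 (momC f0 h) (fun ρ => α0 * Ph d l κ0 ρ) ∧
    Close1 ρ1 δ (momC f h) (fun ρ => α * Ph d l κ ρ + c * α0 * DD d l κ κ0 ρ)) ∧
  (∃ β0 β : ℂ, Close1 ρ1 δ0 (momC (fun x => conj (g0 x)) h) (fun ρ => β0 * Ph d l κs0 ρ) ∧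
    Close1 ρ1 δ (momC (fun x => conj (g x)) h)
      (fun ρ => β * Ph d l κs ρ + conj c * β0 * DD d l κs κs0 ρ))

theorem pair_close (hd : 3 ≤ d) {ρ1 ρ2 ρ3 : ℝ} (h1 : 0 < ρ1) (h12 : ρ1 < ρ2) (h23 : ρ2 < ρ3)
    {χ : E d → ℂ} (hχ : ContDiff ℝ ∞ χ) (hχ0 : ∀ x, ρ1 < ‖x‖ → χ x = 0) :
    ∃ (n : ℕ) (C : ℝ), 0 < C ∧ ∀ (m l : ℕ) (w : ℝ) (lam lam0 c : ℂ) (Q f g f0 g0 : E d → ℂ)
      (h : MvPolynomial (Fin d) ℝ) (A ε A0 : ℝ), 1 ≤ m → 0 ≤ lam.re → 0 ≤ lam0.re → 1 ≤ A →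
      Harm l h → WienerRep (d + 2) f A0 → WienerRep (d + 2) g A0 → WienerRep (d + 2) f0 A0 →
      WienerRep (d + 2) g0 A0 → ContDiff ℝ ∞ f0 → ContDiff ℝ ∞ g0 →
      DB n ρ3 A (fun x => W1 m (Q x)) → DB n ρ3 A (fun x => W2 m (Q x)) →
      DB n ρ3 A (fun x => conj (W2 m (Q x))) →
      (∀ x, LL1 m w Q f0 g0 x = lam0 * f0 x) → (∀ x, LL2 m w Q f0 g0 x = lam0 * g0 x) →
      (∀ x, LL1 m w Q f g x = lam * f x + c * f0 x) →
      (∀ x, LL2 m w Q f g x = lam * g x + c * g0 x) →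
      WienerRep (d + 2) (fun y => (1 - χ y) * W1 m (Q y)) ε →
      WienerRep (d + 2) (fun y => (1 - χ y) * W2 m (Q y)) ε →
      2 ^ (d + 2) * (2 * m + 1) * ε ≤ aa m / 2 →
      PairOut d l h ρ1 (lam + aa m - I * w) (lam0 + aa m - I * w) (conj lam + aa m - I * w)
        (conj lam0 + aa m - I * w) c f g f0 g0
        (lam1 h * (C * ((‖lam‖ + ‖lam0‖ + |w| + m + 2) * A) ^ n * ε *
          ∫ x in closedBall (0 : E d) ρ3, (‖f0 x‖ + ‖g0 x‖)))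
        (lam1 h * (C * ((‖lam‖ + ‖lam0‖ + |w| + m + 2) * A) ^ n * ε *
          ((∫ x in closedBall (0 : E d) ρ3, (‖f x‖ + ‖g x‖)) +
            ‖c‖ * ∫ x in closedBall (0 : E d) ρ3, (‖f0 x‖ + ‖g0 x‖)))) := by
  have : NeZero d := ⟨by omega⟩
  obtain ⟨n1, C1, hC1, R⟩ := ext_rep d (d + 2) (by omega) h1 h12 hχ hχ0
  obtain ⟨N2, C2, hC2, D⟩ := int_deriv d n1 (h1.trans h12) h23
  refine ⟨n1 + N2 + 4, 24 * 2 ^ (d + 2) * C1 * (7 + C2), by positivity, ?_⟩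
  intro m l w lam lam0 c Q f g f0 g0 h A ε A0 hm hlam hlam0 hA hh wf wg wf0 wg0 cf0 cg0 dV1 dV2
    dV3 e01 e02 e1 e2 t1 t2 hsmall
  have hmR : (1 : ℝ) ≤ m := by exact_mod_cast hm
  have hε : 0 ≤ ε := t1.nonneg
  have s2 : (2 : WithTop ℕ∞) ≤ ((d + 2 : ℕ) : WithTop ℕ∞) := by
    exact_mod_cast (by omega : 2 ≤ d + 2)
  have cf : Continuous f := (H744.WienerRep.contDiff wf).continuous
  have cg : Continuous g := (H744.WienerRep.contDiff wg).continuous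
  have cf0' : Continuous f0 := cf0.continuous
  have cg0' : Continuous g0 := cg0.continuous
  -- interior bounds of `(f0, g0)`
  have D0 := D m w lam0 Q f0 g0 A hm hA (cf0.of_le (by norm_cast))
    (cg0.of_le (by norm_cast)) (DB.of_le (by omega) dV1) (DB.of_le (by omega) dV2)
    (DB.of_le (by omega) dV3) e01 e02
  set I0 : ℝ := ∫ x in closedBall (0 : E d) ρ3, (‖f0 x‖ + ‖g0 x‖) with hI0
  set I1 : ℝ := ∫ x in closedBall (0 : E d) ρ3, (‖f x‖ + ‖g x‖) with hI1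
  have lV1 : DB n1 ρ2 A (fun x => W1 m (Q x)) :=
    DB.of_radius_le h23.le (DB.of_le (by omega) dV1)
  have lV2 : DB n1 ρ2 A (fun x => W2 m (Q x)) :=
    DB.of_radius_le h23.le (DB.of_le (by omega) dV2)
  have lV3 : DB n1 ρ2 A (fun x => conj (W2 m (Q x))) :=
    DB.of_radius_le h23.le (DB.of_le (by omega) dV3)
  -- representation of `(f0, g0)`
  obtain ⟨a1, a2, ⟨p0, q0, r0, a3, a4, a5, -, a7, a8⟩, ⟨p0', q0', r0', b3, b4, b5, -, b7, b8⟩⟩ :=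
    R m w lam0 Q f0 g0 (fun _ => 0) (fun _ => 0) A ε 0 0 A0 hm hlam0 hA le_rfl wf0 wg0 lV1 lV2
      lV3 (db_zero _ _) (db_zero _ _) (wiener_zero _) (wiener_zero _)
      (fun x => by rw [e01 x, add_zero]) (fun x => by rw [e02 x, add_zero]) t1 t2 hsmall _ rfl
  set Y0 : ℝ := (‖lam0‖ + |w| + m + 2) * A with hY0
  set Y : ℝ := (‖lam‖ + |w| + m + 2) * A with hY
  set X : ℝ := (‖lam‖ + ‖lam0‖ + |w| + m + 2) * A with hX
  have hA0 : 0 ≤ A := by linarith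
  have hY00 : 0 ≤ Y0 := by rw [hY0]; positivity
  have hY0' : 0 ≤ Y := by rw [hY]; positivity
  have hY0X : Y0 ≤ X := by
    rw [hY0, hX]
    exact mul_le_mul_of_nonneg_right (by linarith [norm_nonneg lam]) hA0
  have hYX : Y ≤ X := by
    rw [hY, hX]
    exact mul_le_mul_of_nonneg_right (by linarith [norm_nonneg lam0]) hA0
  have hmX : (m : ℝ) ≤ X := by
    have h5 : (m : ℝ) ≤ ‖lam‖ + ‖lam0‖ + |w| + m + 2 := by
      linarith [norm_nonneg lam, norm_nonneg lam0, abs_nonneg w]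
    have h6 : 0 ≤ ‖lam‖ + ‖lam0‖ + |w| + m + 2 := by positivity
    rw [hX]
    nlinarith
  set I0' : ℝ := ∫ x in closedBall (0 : E d) ρ2, (‖f0 x‖ + ‖g0 x‖) with hI0'
  set I1' : ℝ := ∫ x in closedBall (0 : E d) ρ2, (‖f x‖ + ‖g x‖) with hI1'
  have hI0'0 : 0 ≤ I0' := integral_nonneg fun x => by positivity
  have hI1'0 : 0 ≤ I1' := integral_nonneg fun x => by positivity
  have hI0le : I0' ≤ I0 := int_ball_mono cf0' cg0' h23.le
  have hI1le : I1' ≤ I1 := int_ball_mono cf cg h23.le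
  have hI00 : 0 ≤ I0 := hI0'0.trans hI0le
  set K0 : ℝ := C1 * Y0 ^ n1 * (I0' + 0) with hK0
  -- sources
  have T0 : 0 ≤ ‖c‖ * (C2 * Y0 ^ N2 * I0) := by positivity
  have dT1 : DB n1 ρ2 (‖c‖ * (C2 * Y0 ^ N2 * I0)) (fun x => c * f0 x) :=
    db_smul cf0 (fun i hi x hx => (D0 i hi x hx).1) c
  have dT2 : DB n1 ρ2 (‖c‖ * (C2 * Y0 ^ N2 * I0)) (fun x => c * g0 x) :=
    db_smul cg0 (fun i hi x hx => (D0 i hi x hx).2) c
  obtain ⟨-, -, ⟨p, q, r, c3, c4, c5, c6, c7, c8⟩, ⟨p', q', r', d3, d4, d5, d6, d7, d8⟩⟩ :=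
    R m w lam Q f g (fun x => c * f0 x) (fun x => c * g0 x) A ε (‖c‖ * (C2 * Y0 ^ N2 * I0))
      (‖c‖ * (4 * m * (K0 + 0))) A0 hm hlam hA T0 wf wg lV1 lV2 lV3 dT1 dT2
      (H744.WienerRep.const_mul a1 c) (H744.WienerRep.const_mul a2 c) e1 e2 t1 t2 hsmall _ rfl
  have haa : aa m = 1 / (2 * (m : ℝ)) := rfl
  have haa0 : 0 < aa m := by rw [haa]; positivity
  have hre : ∀ z : ℂ, 0 ≤ z.re → aa m ≤ (z + (aa m : ℂ) - I * (w : ℂ)).re := by
    intro z hz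
    simp
    exact hz
  have hκ := hre lam hlam
  have hκ0 := hre lam0 hlam0
  have hκs := hre (conj lam) (by simpa using hlam)
  have hκs0 := hre (conj lam0) (by simpa using hlam0)
  obtain ⟨E1, E2⟩ := arith_err (d + 2) n1 N2 (C1 := C1) (C2 := C2) (X := X) (m := m) (ε := ε)
    (I0 := I0) (I := I1) (I0' := I0') (I' := I1') (c := ‖c‖) (Y0 := Y0) (Y := Y)
    (κr := (lam + (aa m : ℂ) - I * (w : ℂ)).re) hC1 hC2 hmR hmX hε hI0'0 hI1'0 hI0le hI1le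
    (norm_nonneg _) hY00 hY0' hY0X hYX hκ
  obtain ⟨-, E3⟩ := arith_err (d + 2) n1 N2 (C1 := C1) (C2 := C2) (X := X) (m := m) (ε := ε)
    (I0 := I0) (I := I1) (I0' := I0') (I' := I1') (c := ‖c‖) (Y0 := Y0) (Y := Y)
    (κr := (conj lam + (aa m : ℂ) - I * (w : ℂ)).re) hC1 hC2 hmR hmX hε hI0'0 hI1'0 hI0le hI1le
    (norm_nonneg _) hY00 hY0' hY0X hYX hκs
  have hL0 := lam1_nonneg h
  have hχH : ∀ (u : E d → ℂ) (y : E d), ρ1 < ‖y‖ → χ y * u y = 0 := fun u y hy => by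
    rw [hχ0 y hy, zero_mul]
  rw [mul_zero] at a7 b7
  have hq0 : ∀ x, q0 x = 0 := fun x => eq_zero_of_wiener a7 x
  have hq0' : ∀ x, q0' x = 0 := fun x => eq_zero_of_wiener b7 x
  have hcc : ‖conj c‖ = ‖c‖ := Complex.norm_conj c
  obtain ⟨α0, α, X1, X2⟩ := scalar_E3 (φ := f0) (u := f) (by omega) le_rfl hh (haa0.trans_le hκ) (haa0.trans_le hκ0)
    h1 (fun y => by rw [a3 y, hq0 y, add_zero]) a4 (hχH _) a5 a8 c3 c4 (hχH _) c5 c6 c7 c8
  obtain ⟨β0, β, X3, X4⟩ := scalar_E3 (c := conj c) (φ := fun y => conj (g0 y))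
    (u := fun y => conj (g y)) (by omega) le_rfl hh (haa0.trans_le hκs)
    (haa0.trans_le hκs0) h1 (fun y => by rw [b3 y, hq0' y, add_zero]) b4 (hχH _) b5 b8 d3 d4
    (hχH _) d5 (fun y => by rw [d6 y, map_mul]) d7 d8
  rw [hcc] at X4
  exact ⟨⟨α0, α, X1.mono (mul_le_mul_of_nonneg_left E1 hL0),
      X2.mono (mul_le_mul_of_nonneg_left E2 hL0)⟩,
    ⟨β0, β, X3.mono (mul_le_mul_of_nonneg_left E1 hL0),
      X4.mono (mul_le_mul_of_nonneg_left E3 hL0)⟩⟩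

end Vale.Agent.P139.H901
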