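import Vale.Agent.P139.H901.Slow

/-! P139, block [X], X1: decay of admissible solutions of the (perturbed) radial system.

`BDD r0 K A` : `A` smooth on `(r0, ∞)` with bounded derivatives up to order `K`.
`CL r0 j K A` : `th^i A` is in `BDD r0 K` for all `i ≤ j`. -/

open Set Filter Topology Complex
open scoped ContDiff

namespace Vale.Agent.P139.H901

variable {r0 : ℝ}

/-- smooth and bounded on `(r0, ∞)` -/
def B0 (r0 : ℝ) (A : ℝ → ℂ) : Prop :=
  ContDiffOn ℝ ∞ A (Ioi r0) ∧ ∃ C : ℝ, ∀ r, r0 < r → ‖A r‖ ≤ C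

/-- smooth on `(r0, ∞)`, derivatives up to order `K` bounded -/
def BDD (r0 : ℝ) : ℕ → (ℝ → ℂ) → Prop
  | 0, A => B0 r0 A
  | K + 1, A => B0 r0 A ∧ BDD r0 K (deriv A)

/-- `th^i A ∈ BDD K` for `i ≤ j` -/
def CL (r0 : ℝ) : ℕ → ℕ → (ℝ → ℂ) → Prop
  | 0, K, A => BDD r0 K A
  | j + 1, K, A => BDD r0 K A ∧ CL r0 j K (th A)

theorem B0.congr {U V : ℝ → ℂ} (h : ∀ r, r0 < r → U r = V r) (hU : B0 r0 U) : B0 r0 V := by
  refine ⟨hU.1.congr fun r hr => (h r hr).symm, ?_⟩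
  obtain ⟨C, hC⟩ := hU.2
  exact ⟨C, fun r hr => by rw [← h r hr]; exact hC r hr⟩

theorem B0.add {U V : ℝ → ℂ} (hU : B0 r0 U) (hV : B0 r0 V) : B0 r0 (fun r => U r + V r) := by
  obtain ⟨hU, C, hC⟩ := hU
  obtain ⟨hV, D, hD⟩ := hV
  exact ⟨hU.add hV, C + D, fun r hr => (norm_add_le _ _).trans (add_le_add (hC r hr) (hD r hr))⟩

theorem B0.mul {U V : ℝ → ℂ} (hU : B0 r0 U) (hV : B0 r0 V) : B0 r0 (fun r => U r * V r) := by
  obtain ⟨hU, C, hC⟩ := hU
  obtain ⟨hV, D, hD⟩ := hV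
  refine ⟨hU.mul hV, C * D, fun r hr => ?_⟩
  rw [norm_mul]
  exact mul_le_mul (hC r hr) (hD r hr) (norm_nonneg _) ((norm_nonneg _).trans (hC r hr))

theorem B0.const (c : ℂ) : B0 r0 (fun _ => c) := ⟨contDiffOn_const, ‖c‖, fun _ _ => le_rfl⟩

theorem BDD.base {K : ℕ} {A : ℝ → ℂ} (h : BDD r0 K A) : B0 r0 A := by
  cases K with
  | zero => exact h
  | succ K => exact h.1

theorem BDD.mono : ∀ {K : ℕ} {A : ℝ → ℂ}, BDD r0 (K + 1) A → BDD r0 K A := by
  intro K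
  induction K with
  | zero => intro A h; exact h.1
  | succ K ih => intro A h; exact ⟨h.1, ih h.2⟩

theorem BDD.mono_le {K K' : ℕ} (hK : K' ≤ K) {A : ℝ → ℂ} (h : BDD r0 K A) : BDD r0 K' A := by
  induction K with
  | zero => obtain rfl : K' = 0 := by omega
            exact h
  | succ K ih =>
    rcases Nat.lt_or_ge K' (K + 1) with h1 | h1
    · exact ih (by omega) h.mono
    · obtain rfl : K' = K + 1 := by omega
      exact h

theorem BDD.congr : ∀ {K : ℕ} {U V : ℝ → ℂ}, (∀ r, r0 < r → U r = V r) → BDD r0 K U →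
    BDD r0 K V := by
  intro K
  induction K with
  | zero => intro U V h hU; exact B0.congr h hU
  | succ K ih => intro U V h hU
                 exact ⟨B0.congr h hU.1, ih (fun r hr => deriv_congr_on h hr) hU.2⟩

theorem BDD.add : ∀ {K : ℕ} {U V : ℝ → ℂ}, BDD r0 K U → BDD r0 K V →
    BDD r0 K (fun r => U r + V r) := by
  intro K
  induction K with
  | zero => intro U V hU hV; exact B0.add hU hV
  | succ K ih =>
    intro U V hU hV
    refine ⟨B0.add hU.1 hV.1, BDD.congr (fun r hr => ?_) (ih hU.2 hV.2)⟩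
    exact (deriv_fun_add (diffAt hU.1.1 hr) (diffAt hV.1.1 hr)).symm

theorem BDD.mul : ∀ {K : ℕ} {U V : ℝ → ℂ}, BDD r0 K U → BDD r0 K V →
    BDD r0 K (fun r => U r * V r) := by
  intro K
  induction K with
  | zero => intro U V hU hV; exact B0.mul hU hV
  | succ K ih =>
    intro U V hU hV
    refine ⟨B0.mul hU.1 hV.1, BDD.congr (fun r hr => ?_)
      ((ih hU.2 hV.mono).add (ih hU.mono hV.2))⟩
    exact (deriv_fun_mul (diffAt hU.1.1 hr) (diffAt hV.1.1 hr)).symm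

theorem BDD.const (K : ℕ) : ∀ c : ℂ, BDD r0 K (fun _ => c) := by
  induction K with
  | zero => intro c; exact B0.const c
  | succ K ih =>
    intro c
    refine ⟨B0.const c, BDD.congr (fun r _ => ?_) (ih 0)⟩
    simp

theorem BDD.const_mul (c : ℂ) {K : ℕ} {U : ℝ → ℂ} (h : BDD r0 K U) :
    BDD r0 K (fun r => c * U r) := (BDD.const K c).mul h

theorem CL.base {j K : ℕ} {A : ℝ → ℂ} (h : CL r0 j K A) : BDD r0 K A := by
  cases j with
  | zero => exact h
  | succ j => exact h.1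

theorem CL.mono_left : ∀ {j K : ℕ} {A : ℝ → ℂ}, CL r0 (j + 1) K A → CL r0 j K A := by
  intro j
  induction j with
  | zero => intro K A h; exact h.1
  | succ j ih => intro K A h; exact ⟨h.1, ih h.2⟩

theorem CL.mono_right : ∀ {j K K' : ℕ} {A : ℝ → ℂ}, K' ≤ K → CL r0 j K A → CL r0 j K' A := by
  intro j
  induction j with
  | zero => intro K K' A hK h; exact BDD.mono_le hK h
  | succ j ih => intro K K' A hK h; exact ⟨BDD.mono_le hK h.1, ih hK h.2⟩

theorem CL.mono_le {j j' K K' : ℕ} (hj : j' ≤ j) (hK : K' ≤ K) {A : ℝ → ℂ} (h : CL r0 j K A) :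
    CL r0 j' K' A := by
  induction j with
  | zero => obtain rfl : j' = 0 := by omega
            exact h.mono_right hK
  | succ j ih =>
    rcases Nat.lt_or_ge j' (j + 1) with h1 | h1
    · exact ih (by omega) h.mono_left
    · obtain rfl : j' = j + 1 := by omega
      exact h.mono_right hK

theorem CL.congr : ∀ {j K : ℕ} {U V : ℝ → ℂ}, (∀ r, r0 < r → U r = V r) → CL r0 j K U →
    CL r0 j K V := by
  intro j
  induction j with
  | zero => intro K U V h hU; exact BDD.congr h hU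
  | succ j ih => intro K U V h hU
                 exact ⟨BDD.congr h hU.1, ih (th_congr h) hU.2⟩

theorem CL.add : ∀ {j K : ℕ} {U V : ℝ → ℂ}, CL r0 j K U → CL r0 j K V →
    CL r0 j K (fun r => U r + V r) := by
  intro j
  induction j with
  | zero => intro K U V hU hV; exact BDD.add hU hV
  | succ j ih =>
    intro K U V hU hV
    exact ⟨BDD.add hU.1 hV.1, CL.congr
      (fun r hr => (th_add hU.1.base.1 hV.1.base.1 hr).symm) (ih hU.2 hV.2)⟩

theorem CL.mul : ∀ {j K : ℕ} {U V : ℝ → ℂ}, CL r0 j K U → CL r0 j K V →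
    CL r0 j K (fun r => U r * V r) := by
  intro j
  induction j with
  | zero => intro K U V hU hV; exact BDD.mul hU hV
  | succ j ih =>
    intro K U V hU hV
    exact ⟨BDD.mul hU.1 hV.1, CL.congr
      (fun r hr => (th_mul hU.1.base.1 hV.1.base.1 hr).symm)
      ((ih hU.2 hV.mono_left).add (ih hU.mono_left hV.2))⟩

theorem CL.const (j K : ℕ) : ∀ c : ℂ, CL r0 j K (fun _ => c) := by
  induction j with
  | zero => intro c; exact BDD.const K c
  | succ j ih =>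
    intro c
    refine ⟨BDD.const K c, CL.congr (fun r _ => ?_) (ih 0)⟩
    simp [th]

theorem CL.const_mul (c : ℂ) {j K : ℕ} {U : ℝ → ℂ} (h : CL r0 j K U) :
    CL r0 j K (fun r => c * U r) := (CL.const j K c).mul h

theorem CL.smooth {j K : ℕ} {U : ℝ → ℂ} (h : CL r0 j K U) : ContDiffOn ℝ ∞ U (Ioi r0) :=
  h.base.base.1

theorem CL.toSB : ∀ {j K : ℕ} {U : ℝ → ℂ}, CL r0 j K U → SB r0 j U := by
  intro j
  induction j with
  | zero => intro K U h; exact h.base.base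
  | succ j ih => intro K U h; exact ⟨h.1.base, ih h.2⟩

/-- `D th = th D + D` -/
theorem th_deriv {A : ℝ → ℂ} (hA : ContDiffOn ℝ ∞ A (Ioi r0)) {r : ℝ} (hr : r0 < r) :
    th (deriv A) r = deriv (th A) r + (-1) * deriv A r := by
  have a1 : HasDerivAt (fun r : ℝ => (r : ℂ)) 1 r := (hasDerivAt_id (r : ℂ)).comp_ofReal
  have h1 : HasDerivAt (th A) (1 * deriv A r + (r : ℂ) * deriv (deriv A) r) r :=
    a1.mul (diffAt (smooth_deriv hA) hr).hasDerivAt
  rw [h1.deriv]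
  unfold th
  ring

protected theorem CL.der : ∀ {j K : ℕ} {A : ℝ → ℂ}, CL r0 j (K + 1) A → CL r0 j K (deriv A) := by
  intro j
  induction j with
  | zero => intro K A h; exact h.2
  | succ j ih =>
    intro K A h
    refine ⟨h.1.2, CL.congr (fun r hr => (th_deriv h.smooth hr).symm) ?_⟩
    exact (ih h.2).add ((ih h.mono_left).const_mul (-1))

/-- `r^{-1}` is in all classes when `0 < r0` -/
theorem CL.inv (h0 : 0 < r0) (j K : ℕ) : CL r0 j K (fun r : ℝ => ((r : ℂ))⁻¹) := by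
  have hne : ∀ r : ℝ, r0 < r → (r : ℂ) ≠ 0 := fun r hr => by
    exact_mod_cast (h0.trans hr).ne'
  have hb : B0 r0 (fun r : ℝ => ((r : ℂ))⁻¹) := by
    refine ⟨smooth_ofReal.contDiffOn.inv fun r hr => hne r hr, r0⁻¹, fun r hr => ?_⟩
    rw [norm_inv, Complex.norm_real, Real.norm_eq_abs, abs_of_pos (h0.trans hr)]
    exact inv_anti₀ h0 hr.le
  have hd : ∀ r : ℝ, r0 < r → deriv (fun r : ℝ => ((r : ℂ))⁻¹) r =
      (-1) * ((r : ℂ)⁻¹ * (r : ℂ)⁻¹) := by
    intro r hr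
    have a1 : HasDerivAt (fun r : ℝ => (r : ℂ)) 1 r := (hasDerivAt_id (r : ℂ)).comp_ofReal
    have h2 : HasDerivAt (fun r : ℝ => ((r : ℂ))⁻¹) (-1 / (r : ℂ) ^ 2) r := a1.inv (hne r hr)
    rw [h2.deriv]
    have := hne r hr
    field_simp
  have hB : ∀ K, BDD r0 K (fun r : ℝ => ((r : ℂ))⁻¹) := by
    intro K
    induction K with
    | zero => exact hb
    | succ K ih =>
      exact ⟨hb, BDD.congr (fun r hr => (hd r hr).symm) ((ih.mul ih).const_mul (-1))⟩
  induction j with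
  | zero => exact hB K
  | succ j ih =>
    refine ⟨hB K, CL.congr (fun r hr => ?_) (ih.const_mul (-1))⟩
    unfold th
    rw [hd r hr]
    have := hne r hr
    field_simp

/-- **gain of one `th`** for a solution of `th F = c D²F + b₁ DF + b₂ F + b₃ G + S`. -/
theorem CL.step {j K : ℕ} {F G S b1 b2 b3 : ℝ → ℂ} {c : ℂ} (hF : CL r0 j (K + 2) F)
    (hG : CL r0 j K G) (h1 : CL r0 j K b1) (h2 : CL r0 j K b2) (h3 : CL r0 j K b3)
    (hS : CL r0 j K S)
    (e : ∀ r, r0 < r → th F r = c * deriv (deriv F) r + (b1 r * deriv F r + (b2 r * F r +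
      (b3 r * G r + S r)))) : CL r0 (j + 1) K F := by
  refine ⟨hF.base.mono.mono, CL.congr (fun r hr => (e r hr).symm) ?_⟩
  have hD : CL r0 j (K + 1) (deriv F) := CL.der hF
  have hDD : CL r0 j K (deriv (deriv F)) := CL.der hD
  exact (hDD.const_mul c).add ((h1.mul (hD.mono_right (Nat.le_succ K))).add
    ((h2.mul (hF.mono_right (by omega))).add ((h3.mul hG).add hS)))

/-- full `th`-regularity of admissible solutions of the radial system -/
theorem CL.system {J : ℕ} {F G S T b1 b2 b3 c1 c2 c3 : ℝ → ℂ} {c c' : ℂ}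
    (hF : BDD r0 (2 * J) F) (hG : BDD r0 (2 * J) G)
    (h1 : ∀ j K, CL r0 j K b1) (h2 : ∀ j K, CL r0 j K b2) (h3 : ∀ j K, CL r0 j K b3)
    (h4 : ∀ j K, CL r0 j K c1) (h5 : ∀ j K, CL r0 j K c2) (h6 : ∀ j K, CL r0 j K c3)
    (hS : ∀ j K, CL r0 j K S) (hT : ∀ j K, CL r0 j K T)
    (e : ∀ r, r0 < r → th F r = c * deriv (deriv F) r + (b1 r * deriv F r + (b2 r * F r +
      (b3 r * G r + S r))))
    (e' : ∀ r, r0 < r → th G r = c' * deriv (deriv G) r + (c1 r * deriv G r + (c2 r * G r +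
      (c3 r * F r + T r)))) : CL r0 J 0 F ∧ CL r0 J 0 G := by
  have key : ∀ j, j ≤ J → CL r0 j (2 * (J - j)) F ∧ CL r0 j (2 * (J - j)) G := by
    intro j
    induction j with
    | zero => intro _; exact ⟨hF, hG⟩
    | succ j ih =>
      intro hj
      obtain ⟨a, b⟩ := ih (by omega)
      have hk : 2 * (J - j) = 2 * (J - (j + 1)) + 2 := by omega
      rw [hk] at a b
      exact ⟨CL.step a (b.mono_right (by omega)) (h1 _ _) (h2 _ _) (h3 _ _) (hS _ _) e,
        CL.step b (a.mono_right (by omega)) (h4 _ _) (h5 _ _) (h6 _ _) (hT _ _) e'⟩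
  have := key J le_rfl
  simpa using this


/-! ### weighted classes -/

/-- `r^β` as a complex number -/
noncomputable def rp (β : ℝ) (r : ℝ) : ℂ := ((r ^ β : ℝ) : ℂ)

/-- `r^β F` has bounded `th`-derivatives up to order `J` -/
def WS (r0 β : ℝ) (J : ℕ) (F : ℝ → ℂ) : Prop := SB r0 J (fun r => rp β r * F r)

theorem norm_rp {β r : ℝ} (hr : 0 < r) : ‖rp β r‖ = r ^ β := by
  rw [rp, Complex.norm_real, Real.norm_eq_abs, abs_of_nonneg (Real.rpow_nonneg hr.le β)]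

theorem rp_add {β γ r : ℝ} (hr : 0 < r) : rp (β + γ) r = rp β r * rp γ r := by
  rw [rp, rp, rp, Real.rpow_add hr, Complex.ofReal_mul]

theorem rp_zero (r : ℝ) : rp 0 r = 1 := by simp [rp]

theorem rp_one (r : ℝ) : rp 1 r = r := by simp [rp]

theorem rp_ne {β r : ℝ} (hr : 0 < r) : rp β r ≠ 0 := by
  rw [rp]
  exact_mod_cast (Real.rpow_pos_of_pos hr β).ne'

theorem hasDerivAt_rp {β r : ℝ} (hr : 0 < r) :
    HasDerivAt (rp β) ((β : ℂ) * rp (β - 1) r) r := by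
  have h := (Real.hasDerivAt_rpow_const (x := r) (p := β) (Or.inl hr.ne')).ofReal_comp
  have e : ((β * r ^ (β - 1) : ℝ) : ℂ) = (β : ℂ) * rp (β - 1) r := by
    rw [rp]; push_cast; ring
  rw [e] at h
  exact h

theorem th_rp {β r : ℝ} (hr : 0 < r) : th (rp β) r = (β : ℂ) * rp β r := by
  have h1 : rp β r = rp (β - 1) r * r := by
    rw [← rp_one r, ← rp_add hr]
    simp
  rw [th, (hasDerivAt_rp hr).deriv, h1]
  ring

theorem smooth_rp (h0 : 0 ≤ r0) (β : ℝ) : ContDiffOn ℝ ∞ (rp β) (Ioi r0) := by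
  intro r hr
  have hr' : 0 < r := lt_of_le_of_lt h0 hr
  have h1 : ContDiffAt ℝ ∞ (fun r : ℝ => r ^ β) r := Real.contDiffAt_rpow_const_of_ne hr'.ne'
  exact (Complex.ofRealCLM.contDiff.contDiffAt.comp r h1).contDiffWithinAt

theorem smooth_of_rp_mul (h0 : 0 ≤ r0) {β : ℝ} {F : ℝ → ℂ}
    (h : ContDiffOn ℝ ∞ (fun r => rp β r * F r) (Ioi r0)) : ContDiffOn ℝ ∞ F (Ioi r0) := by
  have h1 := (smooth_rp h0 (-β)).mul h
  refine h1.congr fun r hr => ?_
  have hr' : 0 < r := lt_of_le_of_lt h0 hr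
  rw [← mul_assoc, ← rp_add hr']
  simp [rp_zero]

theorem th_rp_mul (h0 : 0 ≤ r0) {β : ℝ} {F : ℝ → ℂ} (hF : ContDiffOn ℝ ∞ F (Ioi r0)) {r : ℝ}
    (hr : r0 < r) : th (fun r => rp β r * F r) r = (β : ℂ) * (rp β r * F r) + rp β r * th F r := by
  have hr' : 0 < r := lt_of_le_of_lt h0 hr
  rw [th_mul (smooth_rp h0 β) hF hr, th_rp hr']
  ring

theorem SB.rp_neg (h0 : 0 < r0) {σ : ℝ} (hσ : 0 ≤ σ) (J : ℕ) : SB r0 J (rp (-σ)) := by
  have hb : ContDiffOn ℝ ∞ (rp (-σ)) (Ioi r0) ∧ ∃ C : ℝ, ∀ r, r0 < r → ‖rp (-σ) r‖ ≤ C := by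
    refine ⟨smooth_rp h0.le _, r0 ^ (-σ), fun r hr => ?_⟩
    rw [norm_rp (h0.trans hr)]
    exact Real.rpow_le_rpow_of_nonpos h0 hr.le (by linarith)
  induction J with
  | zero => exact hb
  | succ J ih =>
    refine ⟨hb, SB.congr (fun r hr => (th_rp (h0.trans hr)).symm) (ih.const_mul _)⟩

theorem WS.congr {β : ℝ} {J : ℕ} {F G : ℝ → ℂ} (h : ∀ r, r0 < r → F r = G r)
    (hF : WS r0 β J F) : WS r0 β J G :=
  SB.congr (fun r hr => by rw [h r hr]) hF

theorem WS.add {β : ℝ} {J : ℕ} {F G : ℝ → ℂ} (hF : WS r0 β J F) (hG : WS r0 β J G) :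
    WS r0 β J (fun r => F r + G r) :=
  SB.congr (fun r _ => by ring) (SB.add hF hG)

theorem WS.const_mul {β : ℝ} {J : ℕ} {F : ℝ → ℂ} (c : ℂ) (hF : WS r0 β J F) :
    WS r0 β J (fun r => c * F r) :=
  SB.congr (fun r _ => by ring) (SB.const_mul c hF)

theorem WS.mul (h0 : 0 ≤ r0) {β γ : ℝ} {J : ℕ} {F G : ℝ → ℂ} (hF : WS r0 β J F)
    (hG : WS r0 γ J G) : WS r0 (β + γ) J (fun r => F r * G r) := by
  refine SB.congr (fun r hr => ?_) (SB.mul hF hG)
  rw [rp_add (lt_of_le_of_lt h0 hr)]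
  ring

theorem WS.mono_le (h0 : 0 < r0) {β γ : ℝ} (h : γ ≤ β) {J : ℕ} {F : ℝ → ℂ} (hF : WS r0 β J F) :
    WS r0 γ J F := by
  refine SB.congr (fun r hr => ?_) (SB.mul (SB.rp_neg h0 (sub_nonneg.2 h) J) hF)
  rw [← mul_assoc, ← rp_add (h0.trans hr)]
  congr 2
  ring

theorem WS.smooth (h0 : 0 ≤ r0) {β : ℝ} {J : ℕ} {F : ℝ → ℂ} (hF : WS r0 β J F) :
    ContDiffOn ℝ ∞ F (Ioi r0) := smooth_of_rp_mul h0 (SB.base hF).1

theorem WS.zero_iff {J : ℕ} {F : ℝ → ℂ} : WS r0 0 J F ↔ SB r0 J F := by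
  constructor
  · exact fun h => SB.congr (fun r _ => by rw [rp_zero, one_mul]) h
  · exact fun h => SB.congr (fun r _ => by rw [rp_zero, one_mul]) h

theorem SB.sb_mono {j k : ℕ} (hjk : j ≤ k) {U : ℝ → ℂ} (h : SB r0 k U) : SB r0 j U := by
  induction k with
  | zero => obtain rfl : j = 0 := by omega
            exact h
  | succ k ih =>
    rcases Nat.lt_or_ge j (k + 1) with h1 | h1
    · exact ih (by omega) h.mono
    · obtain rfl : j = k + 1 := by omega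
      exact h

theorem WS.th_mem (h0 : 0 ≤ r0) {β : ℝ} {J : ℕ} {F : ℝ → ℂ} (hF : WS r0 β (J + 1) F) :
    WS r0 β J (th F) := by
  have h1 := hF.2
  have h2 := (SB.mono hF).const_mul (-(β : ℂ))
  refine SB.congr (fun r hr => ?_) (h1.add h2)
  rw [th_rp_mul h0 (hF.smooth h0) hr]
  ring

/-- if `r^{β+k} D^k q` is bounded for `k ≤ J` then `r^β q` is in `SB J`. -/
theorem WS.of_deriv (h0 : 0 ≤ r0) : ∀ {J : ℕ} {β : ℝ} {q : ℝ → ℂ},
    ContDiffOn ℝ ∞ q (Ioi r0) →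
    (∀ k ≤ J, ∃ C : ℝ, ∀ r, r0 < r → ‖iteratedDeriv k q r‖ ≤ C * r ^ (-β - k)) → WS r0 β J q := by
  have hbase : ∀ {β : ℝ} {q : ℝ → ℂ}, ContDiffOn ℝ ∞ q (Ioi r0) →
      (∃ C : ℝ, ∀ r, r0 < r → ‖q r‖ ≤ C * r ^ (-β)) →
      (ContDiffOn ℝ ∞ (fun r => rp β r * q r) (Ioi r0) ∧
        ∃ C : ℝ, ∀ r, r0 < r → ‖rp β r * q r‖ ≤ C) := by
    rintro β q hq ⟨C, hC⟩
    refine ⟨(smooth_rp h0 β).mul hq, C, fun r hr => ?_⟩
    have hr' : 0 < r := lt_of_le_of_lt h0 hr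
    rw [norm_mul, norm_rp hr']
    calc r ^ β * ‖q r‖ ≤ r ^ β * (C * r ^ (-β)) :=
          mul_le_mul_of_nonneg_left (hC r hr) (Real.rpow_nonneg hr'.le _)
      _ = C * (r ^ β * r ^ (-β)) := by ring
      _ = C := by rw [← Real.rpow_add hr']; simp
  intro J
  induction J with
  | zero =>
    intro β q hq h
    obtain ⟨C, hC⟩ := h 0 le_rfl
    exact hbase hq ⟨C, fun r hr => by simpa using hC r hr⟩
  | succ J ih =>
    intro β q hq h
    obtain ⟨C, hC⟩ := h 0 (Nat.zero_le _)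
    refine ⟨hbase hq ⟨C, fun r hr => by simpa using hC r hr⟩, ?_⟩
    have h1 : WS r0 β J q := ih hq fun k hk => h k (by omega)
    have h2 : WS r0 (β + 1) J (deriv q) := by
      refine ih (smooth_deriv hq) fun k hk => ?_
      obtain ⟨C, hC⟩ := h (k + 1) (by omega)
      refine ⟨C, fun r hr => ?_⟩
      have := hC r hr
      rw [iteratedDeriv_succ'] at this
      convert this using 3
      push_cast
      ring
    refine SB.congr (fun r hr => ?_) ((SB.const_mul (β : ℂ) h1).add h2)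
    have hr' : 0 < r := lt_of_le_of_lt h0 hr
    rw [th_rp_mul h0 hq hr, rp_add hr', rp_one]
    unfold th
    ring

/-- conversely `r^β F ∈ SB J` gives `r^{β+k} D^k F` bounded for `k ≤ J`. -/
theorem WS.iteratedDeriv_le (h0 : 0 ≤ r0) : ∀ {J : ℕ} {β : ℝ} {F : ℝ → ℂ}, WS r0 β J F →
    ∀ k ≤ J, ∃ C : ℝ, ∀ r, r0 < r → ‖iteratedDeriv k F r‖ ≤ C * r ^ (-β - k) := by
  have hbase : ∀ {β : ℝ} {F : ℝ → ℂ} {J : ℕ}, WS r0 β J F →
      ∃ C : ℝ, ∀ r, r0 < r → ‖F r‖ ≤ C * r ^ (-β) := by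
    intro β F J h
    obtain ⟨C, hC⟩ := (SB.base h).2
    refine ⟨C, fun r hr => ?_⟩
    have hr' : 0 < r := lt_of_le_of_lt h0 hr
    have h1 := hC r hr
    rw [norm_mul, norm_rp hr'] at h1
    calc ‖F r‖ = (r ^ β * ‖F r‖) * r ^ (-β) := by
          rw [mul_comm (r ^ β), mul_assoc, ← Real.rpow_add hr']; simp
      _ ≤ C * r ^ (-β) := mul_le_mul_of_nonneg_right h1 (Real.rpow_nonneg hr'.le _)
  intro J
  induction J with
  | zero =>
    intro β F h k hk
    obtain rfl : k = 0 := by omega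
    simpa using hbase h
  | succ J ih =>
    intro β F h k hk
    rcases k with _ | k
    · simpa using hbase h
    · have h2 : WS r0 (β + 1) J (deriv F) := by
        refine SB.congr (fun r hr => ?_) (WS.th_mem h0 h)
        have hr' : 0 < r := lt_of_le_of_lt h0 hr
        rw [rp_add hr', rp_one]
        unfold th
        ring
      obtain ⟨C, hC⟩ := ih h2 k (by omega)
      refine ⟨C, fun r hr => ?_⟩
      have := hC r hr
      rw [iteratedDeriv_succ']
      convert this using 3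
      push_cast
      ring

/-- the basic decay estimate for `th F + 2 κ F = O(r^{-σ})` -/
theorem decay_bound (h0 : 0 < r0) {κ : ℂ} {δ σ C : ℝ} (hδ : δ < 2 * κ.re) (hσ : δ ≤ σ)
    {F : ℝ → ℂ} (hF : B0 r0 F) (hR : ∀ r, r0 < r → ‖th F r + 2 * κ * F r‖ ≤ C * r ^ (-σ)) :
    ∃ C' : ℝ, ∀ r, r0 < r → ‖F r‖ ≤ C' * r ^ (-δ) := by
  obtain ⟨hs, M, hM⟩ := hF
  set r1 : ℝ := r0 + 1 with hr1
  have hr01 : r0 < r1 := by rw [hr1]; linarith
  have hr1pos : 0 < r1 := h0.trans hr01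
  have hM0 : 0 ≤ M := (norm_nonneg _).trans (hM r1 hr01)
  have hC0 : 0 ≤ C := by
    have h := hR r1 hr01
    have h2 : 0 < r1 ^ (-σ) := Real.rpow_pos_of_pos hr1pos _
    by_contra hlt
    push Not at hlt
    have := mul_neg_of_neg_of_pos hlt h2
    linarith [norm_nonneg (th F r1 + 2 * κ * F r1)]
  set u : ℝ → ℂ := fun r => (r : ℂ) ^ (2 * κ) * F r with hu
  have hder : ∀ r, r0 < r → HasDerivAt u ((r : ℂ) ^ (2 * κ - 1) * (th F r + 2 * κ * F r)) r := by
    intro r hr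
    have hrp : 0 < r := h0.trans hr
    have hrne : (r : ℂ) ≠ 0 := by exact_mod_cast hrp.ne'
    have h1 : HasDerivAt (fun r : ℝ => (r : ℂ) ^ (2 * κ)) ((2 * κ) * (r : ℂ) ^ (2 * κ - 1)) r := by
      have a1 : HasDerivAt (fun z : ℂ => z ^ (2 * κ)) ((2 * κ) * (r : ℂ) ^ (2 * κ - 1)) (r : ℂ) := by
        have := (hasDerivAt_id (r : ℂ)).cpow_const (c := 2 * κ)
          (Or.inl (by simpa using hrp))
        simpa using this
      exact a1.comp_ofReal
    have h2 := h1.mul (diffAt hs hr).hasDerivAt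
    have e : (2 * κ) * (r : ℂ) ^ (2 * κ - 1) * F r + (r : ℂ) ^ (2 * κ) * deriv F r =
        (r : ℂ) ^ (2 * κ - 1) * (th F r + 2 * κ * F r) := by
      have : (r : ℂ) ^ (2 * κ) = (r : ℂ) ^ (2 * κ - 1) * r := by
        rw [Complex.cpow_sub _ _ hrne, Complex.cpow_one]
        field_simp
      rw [this]
      unfold th
      ring
    rw [e] at h2
    exact h2
  set ε : ℝ := 2 * κ.re - δ with hε
  have hεpos : 0 < ε := by rw [hε]; linarith
  -- `‖u r‖ ≤ A r ^ ε`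
  set A : ℝ := M * r1 ^ (2 * κ.re) * r1 ^ (-ε) + C * r1 ^ (δ - σ) / ε with hA
  have hnu : ∀ r, r0 < r → ‖u r‖ = r ^ (2 * κ.re) * ‖F r‖ := by
    intro r hr
    have hrp : 0 < r := h0.trans hr
    rw [hu]
    simp only [norm_mul]
    rw [Complex.norm_cpow_eq_rpow_re_of_pos hrp]
    simp
  have hbig : ∀ r, r1 ≤ r → ‖u r‖ ≤ A * r ^ ε := by
    intro r hr
    have hBder : ∀ x : ℝ, 0 < x → HasDerivAt (fun x : ℝ => A * x ^ ε) (A * (ε * x ^ (ε - 1))) x :=
      fun x hx => (Real.hasDerivAt_rpow_const (Or.inl hx.ne')).const_mul A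
    have key := image_norm_le_of_norm_deriv_right_le_deriv_boundary' (f := u)
      (f' := fun r => (r : ℂ) ^ (2 * κ - 1) * (th F r + 2 * κ * F r)) (a := r1) (b := r)
      (B := fun x : ℝ => A * x ^ ε) (B' := fun x : ℝ => A * (ε * x ^ (ε - 1)))
      (fun x hx => (hder x (hr01.trans_le hx.1)).continuousAt.continuousWithinAt)
      (fun x hx => (hder x (hr01.trans_le hx.1)).hasDerivWithinAt) ?_
      (fun x hx => (hBder x (hr1pos.trans_le hx.1)).continuousAt.continuousWithinAt)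
      (fun x hx => (hBder x (hr1pos.trans_le hx.1)).hasDerivWithinAt) ?_
    · exact key ⟨hr, le_rfl⟩
    · rw [hnu r1 hr01]
      have e1 : 0 ≤ C * r1 ^ (δ - σ) / ε * r1 ^ ε := by positivity
      have e2 : r1 ^ (-ε) * r1 ^ ε = 1 := by rw [← Real.rpow_add hr1pos]; simp
      have e3 : r1 ^ (2 * κ.re) * ‖F r1‖ ≤ M * r1 ^ (2 * κ.re) := by
        rw [mul_comm]
        exact mul_le_mul_of_nonneg_right (hM r1 hr01) (Real.rpow_nonneg hr1pos.le _)
      calc r1 ^ (2 * κ.re) * ‖F r1‖ ≤ M * r1 ^ (2 * κ.re) := e3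
        _ = M * r1 ^ (2 * κ.re) * (r1 ^ (-ε) * r1 ^ ε) := by rw [e2, mul_one]
        _ ≤ A * r1 ^ ε := by rw [hA]; nlinarith [e1]
    · intro x hx
      have hxp : 0 < x := hr1pos.trans_le hx.1
      have hx0 : r0 < x := hr01.trans_le hx.1
      rw [norm_mul, Complex.norm_cpow_eq_rpow_re_of_pos hxp]
      have e1 : (2 * κ - 1).re = 2 * κ.re - 1 := by simp
      rw [e1]
      have e2 : x ^ (2 * κ.re - 1) * ‖th F x + 2 * κ * F x‖ ≤
          x ^ (2 * κ.re - 1) * (C * x ^ (-σ)) :=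
        mul_le_mul_of_nonneg_left (hR x hx0) (Real.rpow_nonneg hxp.le _)
      have e3 : x ^ (2 * κ.re - 1) * (C * x ^ (-σ)) = C * x ^ (δ - σ) * x ^ (ε - 1) := by
        have : x ^ (2 * κ.re - 1) * x ^ (-σ) = x ^ (δ - σ) * x ^ (ε - 1) := by
          rw [← Real.rpow_add hxp, ← Real.rpow_add hxp]
          congr 1
          rw [hε]; ring
        calc x ^ (2 * κ.re - 1) * (C * x ^ (-σ)) = C * (x ^ (2 * κ.re - 1) * x ^ (-σ)) := by ring
          _ = C * x ^ (δ - σ) * x ^ (ε - 1) := by rw [this]; ring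
      have e4 : x ^ (δ - σ) ≤ r1 ^ (δ - σ) :=
        Real.rpow_le_rpow_of_nonpos hr1pos hx.1 (by linarith)
      have e5 : C * x ^ (δ - σ) * x ^ (ε - 1) ≤ C * r1 ^ (δ - σ) * x ^ (ε - 1) :=
        mul_le_mul_of_nonneg_right (mul_le_mul_of_nonneg_left e4 hC0) (Real.rpow_nonneg hxp.le _)
      have e6 : C * r1 ^ (δ - σ) ≤ A * ε := by
        rw [hA, add_mul, div_mul_cancel₀ _ hεpos.ne']
        have : 0 ≤ M * r1 ^ (2 * κ.re) * r1 ^ (-ε) * ε := by positivity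
        linarith
      calc x ^ (2 * κ.re - 1) * ‖th F x + 2 * κ * F x‖ ≤ C * r1 ^ (δ - σ) * x ^ (ε - 1) := by
            linarith
        _ ≤ A * ε * x ^ (ε - 1) :=
            mul_le_mul_of_nonneg_right e6 (Real.rpow_nonneg hxp.le _)
        _ = A * (ε * x ^ (ε - 1)) := by ring
  have hA0 : 0 ≤ A := by rw [hA]; positivity
  -- conclusion
  set B : ℝ := max 1 (max (r0 ^ δ) (r1 ^ δ)) with hB
  refine ⟨A + M * B, fun r hr => ?_⟩
  have hrp : 0 < r := h0.trans hr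
  have hneg : 0 < r ^ (-δ) := Real.rpow_pos_of_pos hrp _
  have hB0 : 0 ≤ B := le_trans zero_le_one (le_max_left _ _)
  rcases le_total r1 r with h | h
  · have h1 := hbig r h
    rw [hnu r hr] at h1
    have h2 : r ^ (2 * κ.re) * r ^ (-(2 * κ.re)) = 1 := by rw [← Real.rpow_add hrp]; simp
    have h3 : ‖F r‖ = (r ^ (2 * κ.re) * ‖F r‖) * r ^ (-(2 * κ.re)) := by
      calc ‖F r‖ = ‖F r‖ * (r ^ (2 * κ.re) * r ^ (-(2 * κ.re))) := by rw [h2, mul_one]
        _ = _ := by ring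
    have h4 : r ^ ε * r ^ (-(2 * κ.re)) = r ^ (-δ) := by
      rw [← Real.rpow_add hrp]; congr 1; rw [hε]; ring
    calc ‖F r‖ = (r ^ (2 * κ.re) * ‖F r‖) * r ^ (-(2 * κ.re)) := h3
      _ ≤ (A * r ^ ε) * r ^ (-(2 * κ.re)) :=
          mul_le_mul_of_nonneg_right h1 (Real.rpow_nonneg hrp.le _)
      _ = A * r ^ (-δ) := by rw [mul_assoc, h4]
      _ ≤ (A + M * B) * r ^ (-δ) :=
          mul_le_mul_of_nonneg_right (by nlinarith [mul_nonneg hM0 hB0]) hneg.le
  · have h1 : 1 ≤ B * r ^ (-δ) := by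
      have h2 : r ^ δ ≤ B := by
        rcases le_total 0 δ with hd | hd
        · exact (Real.rpow_le_rpow hrp.le h hd).trans ((le_max_right _ _).trans (le_max_right _ _))
        · exact (Real.rpow_le_rpow_of_nonpos h0 hr.le hd).trans
            ((le_max_left _ _).trans (le_max_right _ _))
      have h3 : r ^ δ * r ^ (-δ) = 1 := by rw [← Real.rpow_add hrp]; simp
      calc (1 : ℝ) = r ^ δ * r ^ (-δ) := h3.symm
        _ ≤ B * r ^ (-δ) := mul_le_mul_of_nonneg_right h2 hneg.le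
    calc ‖F r‖ ≤ M := hM r hr
      _ ≤ M * (B * r ^ (-δ)) := by nlinarith
      _ ≤ (A + M * B) * r ^ (-δ) := by nlinarith [mul_nonneg hA0 hneg.le]

/-- bootstrapping the decay to all `th`-derivatives -/
theorem WS.of_eq (h0 : 0 < r0) {κ : ℂ} {δ : ℝ} {F R : ℝ → ℂ} {J : ℕ}
    (hF : WS r0 δ 0 F) (hR : WS r0 δ J R) (e : ∀ r, r0 < r → th F r + 2 * κ * F r = R r) :
    WS r0 δ (J + 1) F := by
  have key : ∀ j, j ≤ J + 1 → WS r0 δ j F := by
    intro j
    induction j with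
    | zero => intro _; exact hF
    | succ j ih =>
      intro hj
      have h1 := ih (by omega)
      refine ⟨SB.base hF, SB.congr (fun r hr => ?_)
        ((SB.const_mul ((δ : ℂ) - 2 * κ) h1).add (SB.sb_mono (j := j) (by omega) hR))⟩
      rw [th_rp_mul h0.le (hF.smooth h0.le) hr, ← e r hr]
      ring
  exact key _ le_rfl

/-- smoothness of solutions of linear second order systems with smooth coefficients -/
theorem smooth_system {F G a1 a2 a3 a4 b1 b2 b3 b4 : ℝ → ℂ}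
    (hF : ContDiffOn ℝ 2 F (Ioi r0)) (hG : ContDiffOn ℝ 2 G (Ioi r0))
    (h1 : ContDiffOn ℝ ∞ a1 (Ioi r0)) (h2 : ContDiffOn ℝ ∞ a2 (Ioi r0))
    (h3 : ContDiffOn ℝ ∞ a3 (Ioi r0)) (h4 : ContDiffOn ℝ ∞ a4 (Ioi r0))
    (k1 : ContDiffOn ℝ ∞ b1 (Ioi r0)) (k2 : ContDiffOn ℝ ∞ b2 (Ioi r0))
    (k3 : ContDiffOn ℝ ∞ b3 (Ioi r0)) (k4 : ContDiffOn ℝ ∞ b4 (Ioi r0))
    (e : ∀ r, r0 < r → deriv (deriv F) r = a1 r * deriv F r + a2 r * F r + a3 r * G r + a4 r)
    (e' : ∀ r, r0 < r → deriv (deriv G) r = b1 r * deriv G r + b2 r * G r + b3 r * F r + b4 r) :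
    ContDiffOn ℝ ∞ F (Ioi r0) ∧ ContDiffOn ℝ ∞ G (Ioi r0) := by
  have up : ∀ (n : ℕ) (f : ℝ → ℂ), ContDiffOn ℝ 2 f (Ioi r0) →
      ContDiffOn ℝ n (deriv (deriv f)) (Ioi r0) → ContDiffOn ℝ (n + 2 : ℕ) f (Ioi r0) := by
    intro n f hf hd
    have d1 : DifferentiableOn ℝ f (Ioi r0) := hf.differentiableOn (by norm_num)
    have hf1 : ContDiffOn ℝ 1 (deriv f) (Ioi r0) :=
      hf.deriv_of_isOpen isOpen_Ioi (by norm_num)
    have d2 : DifferentiableOn ℝ (deriv f) (Ioi r0) := hf1.differentiableOn (by norm_num)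
    have s1 : ContDiffOn ℝ ((n : ℕ∞ω) + 1) (deriv f) (Ioi r0) :=
      (contDiffOn_succ_iff_deriv_of_isOpen isOpen_Ioi).2 ⟨d2, by simp, hd⟩
    have s2 : ContDiffOn ℝ (((n : ℕ∞ω) + 1) + 1) f (Ioi r0) :=
      (contDiffOn_succ_iff_deriv_of_isOpen isOpen_Ioi).2 ⟨d1, by simp, s1⟩
    have e : (((n : ℕ∞ω) + 1) + 1) = ((n + 2 : ℕ) : ℕ∞ω) := by push_cast; ring
    rw [← e]
    exact s2
  have key : ∀ n : ℕ, ContDiffOn ℝ (n + 1 : ℕ) F (Ioi r0) ∧ ContDiffOn ℝ (n + 1 : ℕ) G (Ioi r0) := by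
    intro n
    induction n with
    | zero => exact ⟨hF.of_le (by norm_num), hG.of_le (by norm_num)⟩
    | succ n ih =>
      obtain ⟨iF, iG⟩ := ih
      have hle : ((n : ℕ) : ℕ∞ω) ≤ ((n + 1 : ℕ) : ℕ∞ω) := by exact_mod_cast Nat.le_succ n
      have gen : ∀ {a : ℝ → ℂ}, ContDiffOn ℝ ∞ a (Ioi r0) → ContDiffOn ℝ n a (Ioi r0) :=
        fun h => h.of_le (by exact_mod_cast le_top)
      have dF : ContDiffOn ℝ n (deriv F) (Ioi r0) :=
        iF.deriv_of_isOpen isOpen_Ioi (by push_cast; exact le_rfl)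
      have dG : ContDiffOn ℝ n (deriv G) (Ioi r0) :=
        iG.deriv_of_isOpen isOpen_Ioi (by push_cast; exact le_rfl)
      constructor
      · refine up n F hF (ContDiffOn.congr ?_ e)
        exact (((gen h1).mul dF).add ((gen h2).mul (iF.of_le hle))).add
          ((gen h3).mul (iG.of_le hle)) |>.add (gen h4)
      · refine up n G hG (ContDiffOn.congr ?_ e')
        exact (((gen k1).mul dG).add ((gen k2).mul (iG.of_le hle))).add
          ((gen k3).mul (iF.of_le hle)) |>.add (gen k4)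
  constructor
  · exact contDiffOn_infty.2 fun n => (key n).1.of_le (by exact_mod_cast Nat.le_succ n)
  · exact contDiffOn_infty.2 fun n => (key n).2.of_le (by exact_mod_cast Nat.le_succ n)

theorem SB.conj {k : ℕ} {U : ℝ → ℂ} (h : SB r0 k U) :
    SB r0 k (fun r => (starRingEnd ℂ) (U r)) := by
  have hb : ∀ {U : ℝ → ℂ}, (ContDiffOn ℝ ∞ U (Ioi r0) ∧ ∃ C : ℝ, ∀ r, r0 < r → ‖U r‖ ≤ C) →
      (ContDiffOn ℝ ∞ (fun r => (starRingEnd ℂ) (U r)) (Ioi r0) ∧
        ∃ C : ℝ, ∀ r, r0 < r → ‖(starRingEnd ℂ) (U r)‖ ≤ C) := by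
    rintro U ⟨hU, C, hC⟩
    refine ⟨?_, C, fun r hr => by rw [RCLike.norm_conj]; exact hC r hr⟩
    exact (Complex.conjCLE.contDiff (n := ∞)).comp_contDiffOn hU
  induction k generalizing U with
  | zero => exact hb h
  | succ k ih =>
    refine ⟨hb h.1, SB.congr (fun r hr => ?_) (ih h.2)⟩
    have h1 : HasDerivAt (fun r => (starRingEnd ℂ) (U r)) ((starRingEnd ℂ) (deriv U r)) r :=
      (diffAt h.1.1 hr).hasDerivAt.star
    unfold th
    rw [h1.deriv, map_mul, Complex.conj_ofReal]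

theorem SB.one (k : ℕ) : SB r0 k (fun _ => (1 : ℂ)) := by
  have hb : ∀ c : ℂ, (ContDiffOn ℝ ∞ (fun _ : ℝ => c) (Ioi r0) ∧
      ∃ C : ℝ, ∀ r, r0 < r → ‖(fun _ : ℝ => c) r‖ ≤ C) :=
    fun c => ⟨contDiffOn_const, ‖c‖, fun _ _ => le_rfl⟩
  have key : ∀ k (c : ℂ), SB r0 k (fun _ => c) := by
    intro k
    induction k with
    | zero => intro c; exact hb c
    | succ k ih => intro c; exact ⟨hb c, SB.congr (fun r _ => by simp [th]) (ih 0)⟩
  exact key k 1

theorem SB.pow {k : ℕ} {U : ℝ → ℂ} (h : SB r0 k U) (n : ℕ) : SB r0 k (fun r => U r ^ n) := by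
  induction n with
  | zero => simpa using SB.one k
  | succ n ih => exact SB.congr (fun r _ => (pow_succ _ _).symm) (ih.mul h)

/-- `SB`-type decay of order `0` with derivative gain gives the classes `CL`. -/
theorem CL.of_WS (h0 : 0 < r0) : ∀ {j K : ℕ} {A : ℝ → ℂ}, SB r0 (j + K) A → CL r0 j K A := by
  have hder : ∀ {J : ℕ} {A : ℝ → ℂ}, SB r0 (J + 1) A → SB r0 J (deriv A) := by
    intro J A h
    refine SB.congr (fun r hr => ?_) (SB.mul (SB.rp_neg h0 zero_le_one J) h.2)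
    have hrp := h0.trans hr
    have hne : (r : ℂ) ≠ 0 := by exact_mod_cast hrp.ne'
    unfold th
    rw [← mul_assoc, ← rp_one r, ← rp_add hrp]
    simp [rp_zero]
  have hB : ∀ {K : ℕ} {A : ℝ → ℂ}, SB r0 K A → BDD r0 K A := by
    intro K
    induction K with
    | zero => intro A h; exact h
    | succ K ih => intro A h; exact ⟨SB.base h, ih (hder h)⟩
  intro j
  induction j with
  | zero => intro K A h; rw [Nat.zero_add] at h; exact hB h
  | succ j ih =>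
    intro K A h
    refine ⟨hB (SB.sb_mono (by omega) h), ih ?_⟩
    have : j + 1 + K = (j + K) + 1 := by ring
    rw [this] at h
    exact h.2

/-- **X1**, general form: solutions with bounded derivatives up to order `2 J` of
`th F = c (F'' + (d-1) F'/r - μ F/r²) - 2 κ F + p₁ F + p₂ G + S` (and the mirror equation), with
`p = O(r^{-2})`, `S = O(r^{-σ})` (as symbols), decay like `r^{-δ}`, `δ < 2 Re κ`, `δ ≤ min(2,σ)`,
as symbols of order up to `J - 1`. -/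
theorem decay_system (h0 : 0 < r0) {J : ℕ} (hJ : 2 ≤ J) {dd μ c c' κ κ' : ℂ} {δ σ : ℝ}
    {F G p1 p2 p3 p4 S T : ℝ → ℂ} (hF : BDD r0 (2 * J) F) (hG : BDD r0 (2 * J) G)
    (h1 : ∀ J, WS r0 2 J p1) (h2 : ∀ J, WS r0 2 J p2) (h3 : ∀ J, WS r0 2 J p3)
    (h4 : ∀ J, WS r0 2 J p4) (hS : ∀ J, WS r0 σ J S) (hT : ∀ J, WS r0 σ J T)
    (hδ : 0 ≤ δ) (hδκ : δ < 2 * κ.re) (hδκ' : δ < 2 * κ'.re) (hδ2 : δ ≤ 2) (hδσ : δ ≤ σ)
    (e : ∀ r, r0 < r → th F r = c * (deriv (deriv F) r + dd / r * deriv F r - μ / (r : ℂ) ^ 2 * F r)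
      - 2 * κ * F r + p1 r * F r + p2 r * G r + S r)
    (e' : ∀ r, r0 < r → th G r = c' * (deriv (deriv G) r + dd / r * deriv G r
      - μ / (r : ℂ) ^ 2 * G r) - 2 * κ' * G r + p3 r * G r + p4 r * F r + T r) :
    WS r0 δ (J - 1) F ∧ WS r0 δ (J - 1) G := by
  have toCL : ∀ {p : ℝ → ℂ} {β : ℝ}, 0 ≤ β → (∀ J, WS r0 β J p) → ∀ j K, CL r0 j K p := by
    intro p β hβ hp j K
    exact CL.of_WS h0 (WS.zero_iff.1 ((hp (j + K)).mono_le h0 hβ))
  have hσ : 0 ≤ σ := hδ.trans hδσ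
  have inv2 : ∀ j K, CL r0 j K (fun r : ℝ => ((r : ℂ))⁻¹ * ((r : ℂ))⁻¹) := fun j K =>
    (CL.inv h0 j K).mul (CL.inv h0 j K)
  have key := CL.system (r0 := r0) (J := J) (F := F) (G := G) (S := S) (T := T)
    (b1 := fun r => c * dd * (r : ℂ)⁻¹)
    (b2 := fun r => (-(c * μ)) * ((r : ℂ)⁻¹ * (r : ℂ)⁻¹) + (p1 r + (-(2 * κ))))
    (b3 := p2) (c1 := fun r => c' * dd * (r : ℂ)⁻¹)
    (c2 := fun r => (-(c' * μ)) * ((r : ℂ)⁻¹ * (r : ℂ)⁻¹) + (p3 r + (-(2 * κ'))))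
    (c3 := p4) (c := c) (c' := c') hF hG
    (fun j K => (CL.inv h0 j K).const_mul _)
    (fun j K => ((inv2 j K).const_mul _).add ((toCL (by norm_num) h1 j K).add (CL.const j K _)))
    (toCL (by norm_num) h2) (fun j K => (CL.inv h0 j K).const_mul _)
    (fun j K => ((inv2 j K).const_mul _).add ((toCL (by norm_num) h3 j K).add (CL.const j K _)))
    (toCL (by norm_num) h4) (toCL hσ hS) (toCL hσ hT)
    (by
      intro r hr
      have hne : (r : ℂ) ≠ 0 := by exact_mod_cast (h0.trans hr).ne'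
      rw [e r hr]; field_simp; ring)
    (by
      intro r hr
      have hne : (r : ℂ) ≠ 0 := by exact_mod_cast (h0.trans hr).ne'
      rw [e' r hr]; field_simp; ring)
  have sF : SB r0 J F := key.1.toSB
  have sG : SB r0 J G := key.2.toSB
  -- the remainder
  have rem : ∀ {F G p1 p2 S : ℝ → ℂ} {c κ : ℂ}, SB r0 J F → SB r0 J G → (∀ J, WS r0 2 J p1) →
      (∀ J, WS r0 2 J p2) → (∀ J, WS r0 σ J S) →
      (∀ r, r0 < r → th F r = c * (deriv (deriv F) r + dd / r * deriv F r - μ / (r : ℂ) ^ 2 * F r)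
      - 2 * κ * F r + p1 r * F r + p2 r * G r + S r) →
      WS r0 δ (J - 2) (fun r => th F r + 2 * κ * F r) := by
    intro F G p1 p2 S c κ sF sG h1 h2 hS e
    have w2 : WS r0 2 (J - 2) (fun r => c * (th (th F) r + (dd - 1) * th F r + (-μ) * F r) *
        rp (-2) r) := by
      have t2 : SB r0 (J - 2) (th (th F)) := by
        obtain ⟨k, rfl⟩ : ∃ k, J = k + 2 := ⟨J - 2, by omega⟩
        exact sF.2.2
      have t1 : SB r0 (J - 2) (th F) := by
        obtain ⟨k, rfl⟩ : ∃ k, J = k + 2 := ⟨J - 2, by omega⟩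
        exact sF.2.mono
      have t0 : SB r0 (J - 2) F := sF.sb_mono (by omega)
      refine SB.congr (fun r hr => ?_)
        ((t2.add ((t1.const_mul (dd - 1)).add (t0.const_mul (-μ)))).const_mul c)
      have : rp 2 r * rp (-2) r = 1 := by rw [← rp_add (h0.trans hr)]; simp [rp_zero]
      linear_combination (-(c * (th (th F) r + (dd - 1) * th F r + (-μ) * F r))) * this
    have F0 : WS r0 0 (J - 2) F := WS.zero_iff.2 (sF.sb_mono (by omega))
    have G0 : WS r0 0 (J - 2) G := WS.zero_iff.2 (sG.sb_mono (by omega))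
    have a1 := ((h1 (J - 2)).mul h0.le F0).mono_le h0 (γ := δ) (by linarith)
    have a2 := ((h2 (J - 2)).mul h0.le G0).mono_le h0 (γ := δ) (by linarith)
    have a3 := (hS (J - 2)).mono_le h0 hδσ
    have a4 := w2.mono_le h0 hδ2
    refine (((a4.add a1).add a2).add a3).congr fun r hr => ?_
    have hrp := h0.trans hr
    have hne : (r : ℂ) ≠ 0 := by exact_mod_cast hrp.ne'
    have e1 : th (th F) r = (r : ℂ) * (deriv F r + (r : ℂ) * deriv (deriv F) r) := by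
      have a1 : HasDerivAt (fun r : ℝ => (r : ℂ)) 1 r := (hasDerivAt_id (r : ℂ)).comp_ofReal
      have h1 : HasDerivAt (th F) (1 * deriv F r + (r : ℂ) * deriv (deriv F) r) r :=
        a1.mul (diffAt (smooth_deriv (SB.base sF).1) hr).hasDerivAt
      have : th (th F) r = (r : ℂ) * deriv (th F) r := rfl
      rw [this, h1.deriv, one_mul]
    have e2 : rp (-2) r = ((r : ℂ) ^ 2)⁻¹ := by
      rw [rp, Real.rpow_neg hrp.le]
      push_cast
      congr 1
      norm_cast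
    have e3 := e r hr
    rw [e1, e2]
    unfold th at e3 ⊢
    have e4 : c * ((r : ℂ) * (deriv F r + (r : ℂ) * deriv (deriv F) r) +
        (dd - 1) * ((r : ℂ) * deriv F r) + -μ * F r) * ((r : ℂ) ^ 2)⁻¹ =
        c * (deriv (deriv F) r + dd / r * deriv F r - μ / (r : ℂ) ^ 2 * F r) := by
      field_simp
      ring
    rw [e4]
    linear_combination -e3
  have RF := rem sF sG h1 h2 hS e
  have RG := rem sG sF h3 h4 hT e'
  have fin : ∀ {F : ℝ → ℂ} {κ : ℂ}, SB r0 J F → δ < 2 * κ.re →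
      WS r0 δ (J - 2) (fun r => th F r + 2 * κ * F r) → WS r0 δ (J - 1) F := by
    intro F κ sF hκ hR
    obtain ⟨C, hC⟩ := WS.iteratedDeriv_le h0.le hR 0 (Nat.zero_le _)
    obtain ⟨C', hC'⟩ := decay_bound h0 (κ := κ) (δ := δ) (σ := δ) (C := C) hκ le_rfl
      (SB.base sF) (fun r hr => by simpa using hC r hr)
    have w0 : WS r0 δ 0 F := WS.of_deriv h0.le (SB.base sF).1 fun k hk => by
      obtain rfl : k = 0 := by omega
      exact ⟨C', fun r hr => by simpa using hC' r hr⟩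
    have := WS.of_eq h0 w0 hR (fun r _ => rfl)
    have hj : J - 2 + 1 = J - 1 := by omega
    rwa [hj] at this
  exact ⟨fin sF hδκ RF, fin sG hδκ' RG⟩

end Vale.Agent.P139.H901
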