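import Vale.Agent.P139.H523.X2d

/-! P139, block [X], X1 and X2 for sources of finite regularity. -/

open Set Filter Topology Complex
open scoped ContDiff
open Vale.Agent.P139.BU

namespace Vale.Agent.P139.H901

variable {r0 : ℝ}

/-- full `th`-regularity of admissible solutions, sources of finite regularity -/
theorem CL.system_fin {J : ℕ} {F G S T b1 b2 b3 c1 c2 c3 : ℝ → ℂ} {c c' : ℂ}
    (hF : BDD r0 (2 * J) F) (hG : BDD r0 (2 * J) G)
    (h1 : ∀ j K, CL r0 j K b1) (h2 : ∀ j K, CL r0 j K b2) (h3 : ∀ j K, CL r0 j K b3)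
    (h4 : ∀ j K, CL r0 j K c1) (h5 : ∀ j K, CL r0 j K c2) (h6 : ∀ j K, CL r0 j K c3)
    (hS : ∀ j K, j + K ≤ 2 * J → CL r0 j K S) (hT : ∀ j K, j + K ≤ 2 * J → CL r0 j K T)
    (e : ∀ r, r0 < r → th F r = c * deriv (deriv F) r + (b1 r * deriv F r + (b2 r * F r +
      (b3 r * G r + S r))))
    (e' : ∀ r, r0 < r → th G r = c' * deriv (deriv G) r + (c1 r * deriv G r + (c2 r * G r +
      (c3 r * F r + T r)))) : CL r0 J 0 F ∧ CL r0 J 0 G := by
  have key : ∀ j, j ≤ J → CL r0 j (2 * (J - j)) F ∧ CL r0 j (2 * (J - j)) G := by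
    intro j
    induction j with
    | zero => intro _; exact ⟨hF, hG⟩
    | succ j ih =>
      intro hj
      obtain ⟨a, b⟩ := ih (by omega)
      have hk : 2 * (J - j) = 2 * (J - (j + 1)) + 2 := by omega
      rw [hk] at a b
      exact ⟨CL.step a (b.mono_right (by omega)) (h1 _ _) (h2 _ _) (h3 _ _) (hS _ _ (by omega)) e,
        CL.step b (a.mono_right (by omega)) (h4 _ _) (h5 _ _) (h6 _ _) (hT _ _ (by omega)) e'⟩
  have := key J le_rfl
  simpa using this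



/-- **X1**, general form with sources of finite regularity: solutions with bounded derivatives up to order `2 J` of
`th F = c (F'' + (d-1) F'/r - μ F/r²) - 2 κ F + p₁ F + p₂ G + S` (and the mirror equation), with
`p = O(r^{-2})`, `S = O(r^{-σ})` (as symbols), decay like `r^{-δ}`, `δ < 2 Re κ`, `δ ≤ min(2,σ)`,
as symbols of order up to `J - 1`. -/
theorem decay_system_fin (h0 : 0 < r0) {J : ℕ} (hJ : 2 ≤ J) {dd μ c c' κ κ' : ℂ} {δ σ : ℝ}
    {F G p1 p2 p3 p4 S T : ℝ → ℂ} (hF : BDD r0 (2 * J) F) (hG : BDD r0 (2 * J) G)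
    (h1 : ∀ J, WS r0 2 J p1) (h2 : ∀ J, WS r0 2 J p2) (h3 : ∀ J, WS r0 2 J p3)
    (h4 : ∀ J, WS r0 2 J p4) (hS : WS r0 σ (2 * J) S) (hT : WS r0 σ (2 * J) T)
    (hδ : 0 ≤ δ) (hδκ : δ < 2 * κ.re) (hδκ' : δ < 2 * κ'.re) (hδ2 : δ ≤ 2) (hδσ : δ ≤ σ)
    (e : ∀ r, r0 < r → th F r = c * (deriv (deriv F) r + dd / r * deriv F r - μ / (r : ℂ) ^ 2 * F r)
      - 2 * κ * F r + p1 r * F r + p2 r * G r + S r)
    (e' : ∀ r, r0 < r → th G r = c' * (deriv (deriv G) r + dd / r * deriv G r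
      - μ / (r : ℂ) ^ 2 * G r) - 2 * κ' * G r + p3 r * G r + p4 r * F r + T r) :
    WS r0 δ (J - 1) F ∧ WS r0 δ (J - 1) G := by
  have toCL : ∀ {p : ℝ → ℂ} {β : ℝ}, 0 ≤ β → (∀ J, WS r0 β J p) → ∀ j K, CL r0 j K p := by
    intro p β hβ hp j K
    exact CL.of_WS h0 (WS.zero_iff.1 ((hp (j + K)).mono_le h0 hβ))
  have hσ : 0 ≤ σ := hδ.trans hδσ
  have toCL' : ∀ {p : ℝ → ℂ}, WS r0 σ (2 * J) p → ∀ j K, j + K ≤ 2 * J → CL r0 j K p := by
    intro p hp j K hjK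
    exact CL.of_WS h0 (SB.sb_mono hjK (WS.zero_iff.1 (hp.mono_le h0 hσ)))
  have inv2 : ∀ j K, CL r0 j K (fun r : ℝ => ((r : ℂ))⁻¹ * ((r : ℂ))⁻¹) := fun j K =>
    (CL.inv h0 j K).mul (CL.inv h0 j K)
  have key := CL.system_fin (r0 := r0) (J := J) (F := F) (G := G) (S := S) (T := T)
    (b1 := fun r => c * dd * (r : ℂ)⁻¹)
    (b2 := fun r => (-(c * μ)) * ((r : ℂ)⁻¹ * (r : ℂ)⁻¹) + (p1 r + (-(2 * κ))))
    (b3 := p2) (c1 := fun r => c' * dd * (r : ℂ)⁻¹)
    (c2 := fun r => (-(c' * μ)) * ((r : ℂ)⁻¹ * (r : ℂ)⁻¹) + (p3 r + (-(2 * κ'))))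
    (c3 := p4) (c := c) (c' := c') hF hG
    (fun j K => (CL.inv h0 j K).const_mul _)
    (fun j K => ((inv2 j K).const_mul _).add ((toCL (by norm_num) h1 j K).add (CL.const j K _)))
    (toCL (by norm_num) h2) (fun j K => (CL.inv h0 j K).const_mul _)
    (fun j K => ((inv2 j K).const_mul _).add ((toCL (by norm_num) h3 j K).add (CL.const j K _)))
    (toCL (by norm_num) h4) (toCL' hS) (toCL' hT)
    (by
      intro r hr
      have hne : (r : ℂ) ≠ 0 := by exact_mod_cast (h0.trans hr).ne'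
      rw [e r hr]; field_simp; ring)
    (by
      intro r hr
      have hne : (r : ℂ) ≠ 0 := by exact_mod_cast (h0.trans hr).ne'
      rw [e' r hr]; field_simp; ring)
  have sF : SB r0 J F := key.1.toSB
  have sG : SB r0 J G := key.2.toSB
  -- the remainder
  have rem : ∀ {F G p1 p2 S : ℝ → ℂ} {c κ : ℂ}, SB r0 J F → SB r0 J G → (∀ J, WS r0 2 J p1) →
      (∀ J, WS r0 2 J p2) → WS r0 σ (2 * J) S →
      (∀ r, r0 < r → th F r = c * (deriv (deriv F) r + dd / r * deriv F r - μ / (r : ℂ) ^ 2 * F r)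
      - 2 * κ * F r + p1 r * F r + p2 r * G r + S r) →
      WS r0 δ (J - 2) (fun r => th F r + 2 * κ * F r) := by
    intro F G p1 p2 S c κ sF sG h1 h2 hS e
    have w2 : WS r0 2 (J - 2) (fun r => c * (th (th F) r + (dd - 1) * th F r + (-μ) * F r) *
        rp (-2) r) := by
      have t2 : SB r0 (J - 2) (th (th F)) := by
        obtain ⟨k, rfl⟩ : ∃ k, J = k + 2 := ⟨J - 2, by omega⟩
        exact sF.2.2
      have t1 : SB r0 (J - 2) (th F) := by
        obtain ⟨k, rfl⟩ : ∃ k, J = k + 2 := ⟨J - 2, by omega⟩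
        exact sF.2.mono
      have t0 : SB r0 (J - 2) F := sF.sb_mono (by omega)
      refine SB.congr (fun r hr => ?_)
        ((t2.add ((t1.const_mul (dd - 1)).add (t0.const_mul (-μ)))).const_mul c)
      have : rp 2 r * rp (-2) r = 1 := by rw [← rp_add (h0.trans hr)]; simp [rp_zero]
      linear_combination (-(c * (th (th F) r + (dd - 1) * th F r + (-μ) * F r))) * this
    have F0 : WS r0 0 (J - 2) F := WS.zero_iff.2 (sF.sb_mono (by omega))
    have G0 : WS r0 0 (J - 2) G := WS.zero_iff.2 (sG.sb_mono (by omega))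
    have a1 := ((h1 (J - 2)).mul h0.le F0).mono_le h0 (γ := δ) (by linarith)
    have a2 := ((h2 (J - 2)).mul h0.le G0).mono_le h0 (γ := δ) (by linarith)
    have a3 : WS r0 δ (J - 2) S := SB.sb_mono (by omega) (hS.mono_le h0 hδσ)
    have a4 := w2.mono_le h0 hδ2
    refine (((a4.add a1).add a2).add a3).congr fun r hr => ?_
    have hrp := h0.trans hr
    have hne : (r : ℂ) ≠ 0 := by exact_mod_cast hrp.ne'
    have e1 : th (th F) r = (r : ℂ) * (deriv F r + (r : ℂ) * deriv (deriv F) r) := by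
      have a1 : HasDerivAt (fun r : ℝ => (r : ℂ)) 1 r := (hasDerivAt_id (r : ℂ)).comp_ofReal
      have h1 : HasDerivAt (th F) (1 * deriv F r + (r : ℂ) * deriv (deriv F) r) r :=
        a1.mul (diffAt (smooth_deriv (SB.base sF).1) hr).hasDerivAt
      have : th (th F) r = (r : ℂ) * deriv (th F) r := rfl
      rw [this, h1.deriv, one_mul]
    have e2 : rp (-2) r = ((r : ℂ) ^ 2)⁻¹ := by
      rw [rp, Real.rpow_neg hrp.le]
      push_cast
      congr 1
      norm_cast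
    have e3 := e r hr
    rw [e1, e2]
    unfold th at e3 ⊢
    have e4 : c * ((r : ℂ) * (deriv F r + (r : ℂ) * deriv (deriv F) r) +
        (dd - 1) * ((r : ℂ) * deriv F r) + -μ * F r) * ((r : ℂ) ^ 2)⁻¹ =
        c * (deriv (deriv F) r + dd / r * deriv F r - μ / (r : ℂ) ^ 2 * F r) := by
      field_simp
      ring
    rw [e4]
    linear_combination -e3
  have RF := rem sF sG h1 h2 hS e
  have RG := rem sG sF h3 h4 hT e'
  have fin : ∀ {F : ℝ → ℂ} {κ : ℂ}, SB r0 J F → δ < 2 * κ.re →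
      WS r0 δ (J - 2) (fun r => th F r + 2 * κ * F r) → WS r0 δ (J - 1) F := by
    intro F κ sF hκ hR
    obtain ⟨C, hC⟩ := WS.iteratedDeriv_le h0.le hR 0 (Nat.zero_le _)
    obtain ⟨C', hC'⟩ := decay_bound h0 (κ := κ) (δ := δ) (σ := δ) (C := C) hκ le_rfl
      (SB.base sF) (fun r hr => by simpa using hC r hr)
    have w0 : WS r0 δ 0 F := WS.of_deriv h0.le (SB.base sF).1 fun k hk => by
      obtain rfl : k = 0 := by omega
      exact ⟨C', fun r hr => by simpa using hC' r hr⟩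
    have := WS.of_eq h0 w0 hR (fun r _ => rfl)
    have hj : J - 2 + 1 = J - 1 := by omega
    rwa [hj] at this
  exact ⟨fin sF hδκ RF, fin sG hδκ' RG⟩


/-- **X1** with sources of finite regularity. Admissible solutions of the radial system are smooth and decay as
symbols of some negative order. -/
theorem radial_decay_fin {d m l K J : ℕ} [NeZero d] (hm : 1 ≤ m) {w : ℝ} {Q : E d → ℂ} {q : ℝ → ℂ}
    (hP : IsProfile d m w Q) (hq : ∀ x, Q x = q ‖x‖) {lam : ℂ} (hlam : 0 ≤ lam.re)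
    {F G F0 G0 : ℝ → ℂ} (hF : RadAdm K F) (hG : RadAdm K G) (hJ : 2 ≤ J) (hK : 2 * J ≤ K)
    (hF0 : ContDiffOn ℝ ∞ F0 (Ioi 0)) (hG0 : ContDiffOn ℝ ∞ G0 (Ioi 0))
    (hF0' : WS 1 (aa m) (2 * J) F0) (hG0' : WS 1 (aa m) (2 * J) G0)
    (e1 : ∀ r > 0, RL1 d m l w q F G r = lam * F r + F0 r)
    (e2 : ∀ r > 0, RL2 d m l w q F G r = lam * G r + G0 r) :
    ContDiffOn ℝ ∞ F (Ioi 0) ∧ ContDiffOn ℝ ∞ G (Ioi 0) ∧
      WS 1 (aa m) (J - 1) F ∧ WS 1 (aa m) (J - 1) G := by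
  obtain ⟨hqs, hqw⟩ := profile_radial hP hq
  have h2K : ((2 : ℕ) : ℕ∞ω) ≤ ((K : ℕ) : ℕ∞ω) := by exact_mod_cast (by omega : 2 ≤ K)
  obtain ⟨sF, sG⟩ := radial_smooth (d := d) (m := m) (l := l) (w := w) hqs
    (hF.smooth.of_le h2K) (hG.smooth.of_le h2K) hF0 hG0 e1 e2
  have ha := aa_pos hm
  have ha2 : aa m ≤ 1 / 2 := by
    unfold aa
    have : (1 : ℝ) ≤ m := by exact_mod_cast hm
    rw [div_le_div_iff₀ (by positivity) (by norm_num)]
    linarith
  have bF := BDD.mono_le hK (RadAdm.BDD hF sF)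
  have bG := BDD.mono_le hK (RadAdm.BDD hG sG)
  have key := decay_system_fin (r0 := 1) zero_lt_one hJ (dd := (d : ℂ) - 1)
    (μ := (l : ℂ) * ((l : ℂ) + d - 2)) (c := 2 * I) (c' := -(2 * I))
    (κ := lam + aa m - I * w) (κ' := lam + aa m + I * w) (δ := aa m) (σ := aa m)
    (F := F) (G := G) (p1 := fun r => (-(2 * I * ((m : ℂ) + 1))) * W1 m (q r))
    (p2 := fun r => (-(2 * I * (m : ℂ))) * W2 m (q r))
    (p3 := fun r => (2 * I * ((m : ℂ) + 1)) * W1 m (q r))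
    (p4 := fun r => (2 * I * (m : ℂ)) * (starRingEnd ℂ) (W2 m (q r)))
    (S := fun r => (-2) * F0 r) (T := fun r => (-2) * G0 r) bF bG
    (fun J => (WS_W1 hm hqw J).const_mul _) (fun J => (WS_W2 hm hqw J).const_mul _)
    (fun J => (WS_W1 hm hqw J).const_mul _) (fun J => (WS_W2c hm hqw J).const_mul _)
    (hF0'.const_mul _) (hG0'.const_mul _)
    ha.le (by simp; linarith) (by simp; linarith) (by linarith) le_rfl
    (fun r hr => ?_) (fun r hr => ?_)
  · exact ⟨sF, sG, key.1, key.2⟩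
  · have h := e1 r (zero_lt_one.trans hr)
    simp only [RL1, lapl] at h
    simp only [th]
    linear_combination (-2) * h
  · have h := e2 r (zero_lt_one.trans hr)
    simp only [RL2, lapl] at h
    simp only [th]
    linear_combination (-2) * h


open Vale.Agent.P139.H523 Vale.Agent.P139.H201 in
/-- **X2** with sources of finite regularity. -/
theorem mode_pair_fin {d m l K J : ℕ} {w : ℝ} {Q : E d → ℂ} {q : ℝ → ℂ} {lam : ℂ} (hd : 3 ≤ d)
    (hm : 1 ≤ m) (hP : IsProfile d m w Q) (hq : ∀ x, Q x = q ‖x‖)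
    (hlam : 0 ≤ lam.re) {F G : ℝ → ℂ} (hF : RadAdm K F) (hG : RadAdm K G)
    (hJ : 2 ≤ J) (hK : 2 * J ≤ K) {s1 s2 : ℝ → ℂ} (hs1 : ContDiff ℝ ∞ s1)
    (hs2 : ContDiff ℝ ∞ s2)
    (hw1 : WS 1 (aa m) (2 * J) (fun r : ℝ => (r : ℂ) ^ l * s1 (r ^ 2)))
    (hw2 : WS 1 (aa m) (2 * J) (fun r : ℝ => (r : ℂ) ^ l * s2 (r ^ 2)))
    (e1 : ∀ r > 0, RL1 d m l w q F G r = lam * F r + (r : ℂ) ^ l * s1 (r ^ 2))
    (e2 : ∀ r > 0, RL2 d m l w q F G r = lam * G r + (r : ℂ) ^ l * s2 (r ^ 2)) :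
    ∃ hF hG : ℝ → ℂ, X2Out d m l J w Q lam F G s1 s2 hF hG := by
  have : NeZero d := ⟨by omega⟩
  obtain ⟨u, hu, hqu⟩ := profile_form (by omega) hP hq
  obtain ⟨cF, cG, wF, wG⟩ := radial_decay_fin (l := l) hm hP hq hlam hF hG hJ hK
    (contDiffOn_rpow_mul hs1 l).contDiffOn (contDiffOn_rpow_mul hs2 l).contDiffOn hw1 hw2 e1 e2
  have hcF : ContDiffOn ℝ 2 F (Ioi 0) := cF.of_le (by norm_cast)
  have hcG : ContDiffOn ℝ 2 G (Ioi 0) := cG.of_le (by norm_cast)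
  obtain ⟨hF', hG', sF, sG, hFG⟩ := radial_pair_regular (m := m) (l := l) (w := w) (q := q)
    (lam := lam) hd hu (fun r hr => hqu r hr.le) hcF hcG hF.bdd0 hG.bdd0 hs1 hs2 e1 e2
  have eF : ∀ r : ℝ, 0 < r → F r = (r : ℂ) ^ l * hF' (r ^ 2) := fun r hr => (hFG r hr).1
  have eG : ∀ r : ℝ, 0 < r → G r = (r : ℂ) ^ l * hG' (r ^ 2) := fun r hr => (hFG r hr).2
  have hQc : Continuous Q := by
    obtain ⟨h, hh, hQ⟩ := hP.radial
    have : Q = fun x => h (‖x‖ ^ 2) := funext hQ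
    rw [this]
    exact hh.continuous.comp (continuous_norm.pow 2)
  have ha := aa_pos hm
  have hLL := fun (P : E d → ℂ) (hPP : HarmP l P) (x : E d) =>
    LL_modeFn (m := m) (w := w) (lam := lam) (by omega : 1 ≤ d) hQc hq sF sG eF eG hs1 hs2 e1 e2
      hPP x
  refine ⟨hF', hG', ⟨sF, sG, eF, eG, cF, cG, wF, wG, fun P hPP x => (hLL P hPP x).1,
    fun P hPP x => (hLL P hPP x).2, fun P hPP => contDiff_modeFn sF hPP.toHomP,
    fun P hPP => contDiff_modeFn sG hPP.toHomP, ?_, ?_, ?_, ?_, ?_, ?_⟩⟩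
  · exact fun P hPP s hs => modeFn_wiener ha (by omega : nd (E d) s ≤ J - 1) sF eF wF hPP.toHomP
  · exact fun P hPP s hs => modeFn_wiener ha (by omega : nd (E d) s ≤ J - 1) sG eG wG hPP.toHomP
  · exact fun P hPP s hs =>
      modeFn_eul_wiener ha (by omega : nd (E d) s + 1 ≤ J - 1) sF eF wF hPP.toHomP
  · exact fun P hPP s hs =>
      modeFn_eul_wiener ha (by omega : nd (E d) s + 1 ≤ J - 1) sG eG wG hPP.toHomP
  · exact fun P hPP s hs j =>
      modeFn_pd_wiener ha (by omega : nd (E d) s + 1 ≤ J - 1) sF eF wF hPP.toHomP j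
  · exact fun P hPP s hs j =>
      modeFn_pd_wiener ha (by omega : nd (E d) s + 1 ≤ J - 1) sG eG wG hPP.toHomP j

end Vale.Agent.P139.H901
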