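import Vale.Agent.P139.H311.S2Spec
import Vale.Agent.P139.H745.JS2
import Vale.Agent.P139.H607.S1Spec

/-!
# P139 [X8] : exterior description with source, in the `J` normalisation (statement)
-/

noncomputable section

open scoped ComplexConjugate
open Complex Set MeasureTheory

namespace Vale.Agent.P139.H901

open BU H311 H745 H607

/-- `C¹` closeness of `f` to `g` at the point `r`. -/
def NearJ (f g : ℝ → ℂ) (r e : ℝ) : Prop := ‖f r - g r‖ ≤ e ∧ ‖deriv f r - deriv g r‖ ≤ e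

/-- Exterior description of radial pairs with a source which is itself an eigenpair, valid for
spectral parameters of size `≤ m ^ C` and all `l`. -/
def ExtJ (d K : ℕ) (w R : ℕ → ℝ) (q : ℕ → ℝ → ℂ) : Prop :=
  ∀ (C : ℕ) (η : ℝ), 0 < η → ∃ cc > 0, ∃ m1 : ℕ, ∀ m ≥ m1, ∀ (l : ℕ) (lam lam0 : ℂ),
    0 ≤ lam.re → 0 ≤ lam0.re → ‖lam‖ ≤ (m : ℝ) ^ C → ‖lam0‖ ≤ (m : ℝ) ^ C →
    ∀ (F G φ γ : ℝ → ℂ) (c : ℂ), RadAdm K F → RadAdm K G → RadAdm K φ → RadAdm K γ →
    RSol d m l (w m) (q m) lam0 0 φ γ φ γ → RSol d m l (w m) (q m) lam c F G φ γ →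
    ∃ α β α0 β0 : ℂ, ∀ r : ℝ, R m + η ≤ r →
      NearJ φ (mJ d l (w m) (lam0 + aa m) (lam0 + aa m) α0 0 0) r
        (Real.exp (-(cc * m)) * Real.sqrt (massN d φ γ (R m + 2 * η))) ∧
      NearJ γ (mJs d l (w m) (lam0 + aa m) (lam0 + aa m) β0 0 0) r
        (Real.exp (-(cc * m)) * Real.sqrt (massN d φ γ (R m + 2 * η))) ∧
      NearJ F (mJ d l (w m) (lam + aa m) (lam0 + aa m) α α0 c) r
        (Real.exp (-(cc * m)) * (Real.sqrt (massN d F G (R m + 2 * η)) +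
          ‖c‖ * Real.sqrt (massN d φ γ (R m + 2 * η)))) ∧
      NearJ G (mJs d l (w m) (lam + aa m) (lam0 + aa m) β β0 c) r
        (Real.exp (-(cc * m)) * (Real.sqrt (massN d F G (R m + 2 * η)) +
          ‖c‖ * Real.sqrt (massN d φ γ (R m + 2 * η))))

end Vale.Agent.P139.H901
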