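import Vale.Agent.P139.H901.Nu2
import Vale.Agent.P139.H889.Ang4

/-! P139, block [X], X8: real harmonic polynomials of every degree, Cauchy–Schwarz on the
sphere. -/

open Set Filter Topology MeasureTheory Metric
open Vale.Agent.P139.BU
open Vale.Agent.P139.H889 (kap)
open Vale.Agent.P225 (Harm pev sig plap pev_cont)
open MvPolynomial

namespace Vale.Agent.P139.H901

variable {d : ℕ}

theorem int_sph {f : sphere (0 : E d) 1 → ℝ} (hf : Continuous f) : Integrable f (sig d) :=
  hf.integrable_of_hasCompactSupport (HasCompactSupport.of_compactSpace _)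

theorem cont_pev_sph (h : MvPolynomial (Fin d) ℝ) :
    Continuous fun θ : sphere (0 : E d) 1 => pev h (θ : E d) :=
  (pev_cont h).comp continuous_subtype_val

theorem lam1_sq_le (h : MvPolynomial (Fin d) ℝ) : lam1 h ^ 2 ≤ kap d * nu2 h := by
  have c1 := cont_pev_sph h
  have key : ∀ t : ℝ, 0 ≤ kap d * (t * t) + (-2 * lam1 h) * t + nu2 h := by
    intro t
    have h0 : 0 ≤ ∫ θ : sphere (0 : E d) 1, (t - |pev h (θ : E d)|) ^ 2 ∂(sig d) :=
      integral_nonneg fun θ => sq_nonneg _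
    have e : (fun θ : sphere (0 : E d) 1 => (t - |pev h (θ : E d)|) ^ 2) =
        fun θ : sphere (0 : E d) 1 => (1 : ℝ) * (t * t) + -2 * |pev h (θ : E d)| * t +
          pev h (θ : E d) ^ 2 := by
      funext θ
      rw [← sq_abs (pev h (θ : E d))]
      ring
    have i1 : Integrable (fun θ : sphere (0 : E d) 1 => (1 : ℝ) * (t * t)) (sig d) :=
      int_sph (by fun_prop)
    have i2 : Integrable (fun θ : sphere (0 : E d) 1 => -2 * |pev h (θ : E d)| * t) (sig d) :=
      int_sph (by fun_prop)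
    have i3 : Integrable (fun θ : sphere (0 : E d) 1 => pev h (θ : E d) ^ 2) (sig d) :=
      int_sph (by fun_prop)
    have i12 : Integrable (fun θ : sphere (0 : E d) 1 => (1 : ℝ) * (t * t) +
        -2 * |pev h (θ : E d)| * t) (sig d) := i1.add i2
    rw [e, integral_add i12 i3, integral_add i1 i2, integral_mul_const, integral_mul_const,
      integral_const_mul] at h0
    exact h0
  have := discrim_le_zero key
  unfold discrim at this
  nlinarith [this]

/-- real and imaginary part of `(X₀ + i X₁) ^ l` -/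
noncomputable def zp (hd : 2 ≤ d) : ℕ → MvPolynomial (Fin d) ℝ × MvPolynomial (Fin d) ℝ
  | 0 => (1, 0)
  | l + 1 => (X ⟨0, by omega⟩ * (zp hd l).1 - X ⟨1, by omega⟩ * (zp hd l).2,
      X ⟨0, by omega⟩ * (zp hd l).2 + X ⟨1, by omega⟩ * (zp hd l).1)

theorem zp_hom (hd : 2 ≤ d) (l : ℕ) :
    (zp hd l).1.IsHomogeneous l ∧ (zp hd l).2.IsHomogeneous l := by
  induction l with
  | zero => exact ⟨isHomogeneous_one _ _, isHomogeneous_zero _ _ _⟩
  | succ l ih =>
    obtain ⟨a, b⟩ := ih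
    rw [add_comm l 1]
    refine ⟨?_, ?_⟩
    · rw [add_comm 1 l]
      have h1 := (isHomogeneous_X ℝ (⟨0, by omega⟩ : Fin d)).mul a
      have h2 := (isHomogeneous_X ℝ (⟨1, by omega⟩ : Fin d)).mul b
      rw [add_comm 1 l] at h1 h2
      exact h1.sub h2
    · rw [add_comm 1 l]
      have h1 := (isHomogeneous_X ℝ (⟨0, by omega⟩ : Fin d)).mul b
      have h2 := (isHomogeneous_X ℝ (⟨1, by omega⟩ : Fin d)).mul a
      rw [add_comm 1 l] at h1 h2
      exact h1.add h2

theorem zp_cr (hd : 2 ≤ d) (l : ℕ) :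
    pderiv ⟨0, by omega⟩ (zp hd l).1 = pderiv ⟨1, by omega⟩ (zp hd l).2 ∧
    pderiv ⟨1, by omega⟩ (zp hd l).1 = -pderiv ⟨0, by omega⟩ (zp hd l).2 ∧
    ∀ i : Fin d, i ≠ ⟨0, by omega⟩ → i ≠ ⟨1, by omega⟩ →
      pderiv i (zp hd l).1 = 0 ∧ pderiv i (zp hd l).2 = 0 := by
  have h01 : (⟨0, by omega⟩ : Fin d) ≠ ⟨1, by omega⟩ := by simp
  induction l with
  | zero => simp [zp]
  | succ l ih =>
    obtain ⟨a, b, c⟩ := ih
    refine ⟨?_, ?_, fun i h0 h1 => ?_⟩
    · simp only [zp, map_sub, map_add, Derivation.leibniz, smul_eq_mul, pderiv_X_self,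
        pderiv_X_of_ne h01, pderiv_X_of_ne h01.symm, a, b]
      ring
    · simp only [zp, map_sub, map_add, Derivation.leibniz, smul_eq_mul, pderiv_X_self,
        pderiv_X_of_ne h01, pderiv_X_of_ne h01.symm, a, b]
      ring
    · obtain ⟨c1, c2⟩ := c i h0 h1
      simp only [zp, map_sub, map_add, Derivation.leibniz, smul_eq_mul,
        pderiv_X_of_ne h0.symm, pderiv_X_of_ne h1.symm, c1, c2]
      constructor <;> ring

theorem pderiv_swap (i j : Fin d) (p : MvPolynomial (Fin d) ℝ) :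
    pderiv i (pderiv j p) = pderiv j (pderiv i p) := by
  induction p using MvPolynomial.induction_on with
  | C a => simp
  | add p q hp hq => simp only [map_add, hp, hq]
  | mul_X p k hp =>
    simp only [Derivation.leibniz, smul_eq_mul, map_add, hp, pderiv_X, Pi.single_apply]
    split_ifs <;> simp <;> ring

theorem zp_harm (hd : 2 ≤ d) (l : ℕ) : Harm l (zp hd l).1 := by
  refine ⟨(zp_hom hd l).1, ?_⟩
  obtain ⟨a, b, c⟩ := zp_cr hd l
  unfold plap
  have h01 : (⟨0, by omega⟩ : Fin d) ≠ ⟨1, by omega⟩ := by simp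
  rw [← Finset.sum_subset (Finset.subset_univ {(⟨0, by omega⟩ : Fin d), ⟨1, by omega⟩}) (by
    intro i _ hi
    simp only [Finset.mem_insert, Finset.mem_singleton, not_or] at hi
    rw [(c i hi.1 hi.2).1, map_zero]), Finset.sum_pair h01, a, b, map_neg]
  have : pderiv (⟨0, by omega⟩ : Fin d) (pderiv ⟨1, by omega⟩ (zp hd l).2) =
      pderiv ⟨1, by omega⟩ (pderiv ⟨0, by omega⟩ (zp hd l).2) := pderiv_swap _ _ _
  rw [this]
  ring

theorem zp_one (hd : 2 ≤ d) (l : ℕ) :
    pev (zp hd l).1 (EuclideanSpace.single ⟨0, by omega⟩ 1) = 1 ∧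
    pev (zp hd l).2 (EuclideanSpace.single ⟨0, by omega⟩ 1) = 0 := by
  induction l with
  | zero => simp [zp, pev]
  | succ l ih =>
    obtain ⟨a, b⟩ := ih
    simp only [zp, pev, map_sub, map_add, map_mul, eval_X] at a b ⊢
    rw [a, b]
    simp

theorem exists_harm (hd : 2 ≤ d) (l : ℕ) : ∃ h : MvPolynomial (Fin d) ℝ, Harm l h ∧ 0 < nu2 h := by
  refine ⟨(zp hd l).1, zp_harm hd l, ?_⟩
  have hs : (EuclideanSpace.single (⟨0, by omega⟩ : Fin d) (1 : ℝ) : E d) ∈ sphere (0 : E d) 1 := by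
    simp
  have c1 := cont_pev_sph (zp hd l).1
  have : (volume : Measure (E d)).toSphere.IsOpenPosMeasure := inferInstance
  unfold nu2 sig
  refine Continuous.integral_pos_of_hasCompactSupport_nonneg_nonzero
    (x := (⟨_, hs⟩ : sphere (0 : E d) 1)) (by fun_prop) (HasCompactSupport.of_compactSpace _)
    (fun θ => sq_nonneg _) ?_
  simp only
  rw [(zp_one hd l).1]
  norm_num

end Vale.Agent.P139.H901
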