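import Vale.Agent.P139.H901.Core2
import Vale.Agent.P139.H901.PolA
import Vale.Agent.P139.H744.Pol
import Vale.Agent.P139.H523.HarmBr

/-! P139, block [X], X8: exterior representation of radial pairs for fixed cut-offs. -/

open Set Filter Topology Complex MeasureTheory Metric
open scoped ContDiff ComplexConjugate
open Vale.Agent.P139.BU
open Vale.Agent.P139.H201 (WienerRep nd)
open Vale.Agent.P139.H305 (DB)
open Vale.Agent.P139.H523 (modeFn HarmP X2Out harmP_of_harm mode_pair_hom)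
open Vale.Agent.P139.H607 (massN)
open Vale.Agent.P139.H744 (pol_int momC_mode)
open Vale.Agent.P139.H745 (PhJ PhJs mJ mJs conj_mJ)
open Vale.Agent.P139.H889 (momC kap)
open Vale.Agent.P225 (Harm pev sig)

namespace Vale.Agent.P139.H901

variable {d l : ℕ}

theorem nearJ_of_close {nu L1 kd δ : ℝ} (hnu : 0 < nu) (hL : L1 ^ 2 ≤ kd * nu)
    (hδ : 0 ≤ δ) {ρ1 : ℝ} (h1 : 0 < ρ1) {M F S T : ℝ → ℂ} (hM : ∀ r, 0 < r → M r = nu * F r)
    (hT : ∀ r, 0 < r → S r = nu * T r) (h : Close1 ρ1 (L1 * (δ * L1)) M S) :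
    ∀ r, ρ1 < r → NearJ F T r (2 * Real.pi * (kd * δ)) := by
  intro r hr
  have hr0 : 0 < r := h1.trans hr
  have hnuC : (nu : ℂ) ≠ 0 := by exact_mod_cast hnu.ne'
  obtain ⟨a, b⟩ := h r hr
  have hev : ∀ {M F : ℝ → ℂ}, (∀ r, 0 < r → M r = nu * F r) → deriv M r = nu * deriv F r := by
    intro M F hM
    have : M =ᶠ[𝓝 r] fun t => (nu : ℂ) * F t :=
      eventuallyEq_of_mem (isOpen_Ioi.mem_nhds hr0) hM
    rw [this.deriv_eq, deriv_const_mul_field]
  have hbd : L1 * (δ * L1) ≤ nu * (kd * δ) := by nlinarith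
  have hkd : 0 ≤ kd * δ := by
    have : 0 ≤ kd * nu := (sq_nonneg _).trans hL
    have : 0 ≤ kd := nonneg_of_mul_nonneg_left this hnu
    positivity
  have hnn : ∀ z : ℂ, ‖(nu : ℂ) * z‖ = nu * ‖z‖ := fun z => by
    rw [norm_mul, Complex.norm_real, Real.norm_of_nonneg hnu.le]
  rw [hM r hr0, hT r hr0, ← mul_sub, hnn] at a
  rw [hev hM, hev hT, ← mul_sub, hnn] at b
  constructor
  · have a' : nu * ‖F r - T r‖ ≤ nu * (kd * δ) := a.trans hbd
    have := le_of_mul_le_mul_left a' hnu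
    nlinarith [Real.pi_gt_three]
  · have b' : nu * ‖deriv F r - deriv T r‖ ≤ nu * (2 * Real.pi * (kd * δ)) := by
      refine b.trans ?_
      have := Real.pi_pos
      nlinarith
    exact le_of_mul_le_mul_left b' hnu

theorem nearJ_conj {F T : ℝ → ℂ} {r e : ℝ} (h : NearJ (fun t => conj (F t)) T r e) :
    NearJ F (fun t => conj (T t)) r e := by
  obtain ⟨a, b⟩ := h
  constructor
  · rw [← Complex.norm_conj]
    simpa using a
  · have e1 : deriv (fun t => conj (F t)) r = conj (deriv F r) := deriv.star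
    have e2 : deriv (fun t => conj (T t)) r = conj (deriv T r) := deriv.star
    rw [e1] at b
    rw [e2, ← Complex.norm_conj]
    simpa using b

theorem momC_conj (g : E d → ℂ) (h : MvPolynomial (Fin d) ℝ) (r : ℝ) :
    momC (fun x => conj (g x)) h r = conj (momC g h r) := by
  unfold momC
  rw [← integral_conj]
  congr 1
  funext θ
  simp

/-- finite regularity needed for the exterior description -/
noncomputable def KX (d : ℕ) : ℕ := 4 * (nd (E d) (d + 2) + 2) + 2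

theorem ball_mass (hd : 1 ≤ d) {h : MvPolynomial (Fin d) ℝ} (hh : Harm l h) {hF hG : ℝ → ℂ}
    (cF : Continuous hF) (cG : Continuous hG) {F G : ℝ → ℂ}
    (eF : ∀ r : ℝ, 0 < r → F r = (r : ℂ) ^ l * hF (r ^ 2))
    (eG : ∀ r : ℝ, 0 < r → G r = (r : ℂ) ^ l * hG (r ^ 2)) {ρ : ℝ} (hρ : 0 ≤ ρ) :
    ∫ y in closedBall (0 : E d) ρ, (‖modeFn hF (fun y => (pev h y : ℂ)) y‖ +
      ‖modeFn hG (fun y => (pev h y : ℂ)) y‖) ≤
      lam1 h * ((Real.sqrt (2 * ρ ^ d) + 1) * Real.sqrt (massN d F G ρ)) := by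
  have : NeZero d := ⟨by omega⟩
  have cP : Continuous fun y : E d => (pev h y : ℂ) :=
    Complex.continuous_ofReal.comp (Vale.Agent.P225.pev_cont h)
  have c1 : Continuous (modeFn hF (fun y : E d => (pev h y : ℂ))) := by
    unfold modeFn
    exact (cF.comp (continuous_norm.pow 2)).mul cP
  have c2 : Continuous (modeFn hG (fun y : E d => (pev h y : ℂ))) := by
    unfold modeFn
    exact (cG.comp (continuous_norm.pow 2)).mul cP
  rw [integral_add (c1.norm.continuousOn.integrableOn_compact (isCompact_closedBall _ _))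
    (c2.norm.continuousOn.integrableOn_compact (isCompact_closedBall _ _)),
    pol_int hh cF eF hρ, pol_int hh cG eG hρ, ← mul_add]
  have cF' : Continuous fun r : ℝ => (r : ℂ) ^ l * hF (r ^ 2) := by fun_prop
  have cG' : Continuous fun r : ℝ => (r : ℂ) ^ l * hG (r ^ 2) := by fun_prop
  have hcs := mass_cs hd hρ cF' cG' eF eG
  have hL0 := lam1_nonneg h
  have i1 : IntervalIntegrable (fun r => ‖F r‖ * r ^ (d - 1)) volume 0 ρ := by
    have : Continuous fun r : ℝ => ‖(r : ℂ) ^ l * hF (r ^ 2)‖ * r ^ (d - 1) := by fun_prop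
    refine (this.intervalIntegrable 0 ρ).congr fun r hr => ?_
    rw [uIoc_of_le hρ] at hr
    simp only [eF r hr.1]
  have i2 : IntervalIntegrable (fun r => ‖G r‖ * r ^ (d - 1)) volume 0 ρ := by
    have : Continuous fun r : ℝ => ‖(r : ℂ) ^ l * hG (r ^ 2)‖ * r ^ (d - 1) := by fun_prop
    refine (this.intervalIntegrable 0 ρ).congr fun r hr => ?_
    rw [uIoc_of_le hρ] at hr
    simp only [eG r hr.1]
  rw [← intervalIntegral.integral_add i1 i2]
  refine mul_le_mul_of_nonneg_left ?_ hL0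
  have : (fun r : ℝ => ‖F r‖ * r ^ (d - 1) + ‖G r‖ * r ^ (d - 1)) =
      fun r => (‖F r‖ + ‖G r‖) * r ^ (d - 1) := by
    funext r
    ring
  rw [this]
  have h0 := Real.sqrt_nonneg (massN d F G ρ)
  nlinarith

theorem modeFn_zero (P : E d → ℂ) (x : E d) : modeFn (fun _ => 0) P x = 0 := by
  simp [modeFn]

theorem mode_close (hd : 3 ≤ d) {ρ1 ρ2 ρ3 : ℝ} (h1 : 0 < ρ1) (h12 : ρ1 < ρ2) (h23 : ρ2 < ρ3)
    {χ : E d → ℂ} (hχ : ContDiff ℝ ∞ χ) (hχ0 : ∀ x, ρ1 < ‖x‖ → χ x = 0) :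
    ∃ (n : ℕ) (C : ℝ), 0 < C ∧ ∀ (K m l : ℕ) (w : ℝ) (lam lam0 c : ℂ) (Q : E d → ℂ)
      (q F G φ γ : ℝ → ℂ) (A ε : ℝ), KX d ≤ K → 1 ≤ m → 0 ≤ lam.re → 0 ≤ lam0.re → 1 ≤ A →
      IsProfile d m w Q → (∀ x, Q x = q ‖x‖) →
      RadAdm K F → RadAdm K G → RadAdm K φ → RadAdm K γ →
      DB n ρ3 A (fun x => W1 m (Q x)) → DB n ρ3 A (fun x => W2 m (Q x)) →
      DB n ρ3 A (fun x => conj (W2 m (Q x))) →
      (∀ r > 0, RL1 d m l w q φ γ r = lam0 * φ r) → (∀ r > 0, RL2 d m l w q φ γ r = lam0 * γ r) →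
      (∀ r > 0, RL1 d m l w q F G r = lam * F r + c * φ r) →
      (∀ r > 0, RL2 d m l w q F G r = lam * G r + c * γ r) →
      WienerRep (d + 2) (fun y => (1 - χ y) * W1 m (Q y)) ε →
      WienerRep (d + 2) (fun y => (1 - χ y) * W2 m (Q y)) ε →
      2 ^ (d + 2) * (2 * m + 1) * ε ≤ aa m / 2 →
      ∀ e : ℝ, e = C * ((‖lam‖ + ‖lam0‖ + |w| + m + 2) * A) ^ n * ε →
      ∃ α β α0 β0 : ℂ, ∀ r : ℝ, ρ1 < r →
        NearJ φ (mJ d l w (lam0 + aa m) (lam0 + aa m) α0 0 0) r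
          (e * Real.sqrt (massN d φ γ ρ3)) ∧
        NearJ γ (mJs d l w (lam0 + aa m) (lam0 + aa m) β0 0 0) r
          (e * Real.sqrt (massN d φ γ ρ3)) ∧
        NearJ F (mJ d l w (lam + aa m) (lam0 + aa m) α α0 c) r
          (e * (Real.sqrt (massN d F G ρ3) + ‖c‖ * Real.sqrt (massN d φ γ ρ3))) ∧
        NearJ G (mJs d l w (lam + aa m) (lam0 + aa m) β β0 c) r
          (e * (Real.sqrt (massN d F G ρ3) + ‖c‖ * Real.sqrt (massN d φ γ ρ3))) := by
  have : NeZero d := ⟨by omega⟩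
  obtain ⟨n, C, hC, H⟩ := pair_close hd h1 h12 h23 hχ hχ0
  have hρ3 : 0 < ρ3 := h1.trans (h12.trans h23)
  have hkap : 0 < kap d := H889.kap_pos
  refine ⟨n, 2 * Real.pi * (kap d * (C * (Real.sqrt (2 * ρ3 ^ d) + 1))), by positivity, ?_⟩
  intro K m l w lam lam0 c Q q F G φ γ A ε hK hm hlam hlam0 hA hP hq rF rG rφ rγ dV1 dV2 dV3
    e01 e02 e1 e2 t1 t2 hsmall e he
  have hε : 0 ≤ ε := t1.nonneg
  set nn : ℕ := nd (E d) (d + 2) with hnn
  have hKX : 4 * (nn + 2) + 2 ≤ K := hK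
  -- the homogeneous pair
  obtain ⟨hφ, hγ, O0⟩ := mode_pair_hom (Q := Q) (J := 2 * (nn + 2) + 1) hd hm hP hq hlam0 rφ rγ
    (by omega) (by omega) e01 e02
  have w0 : WS 1 (aa m) (2 * (nn + 2)) φ := O0.wF
  have w0' : WS 1 (aa m) (2 * (nn + 2)) γ := O0.wG
  -- the sourced pair
  obtain ⟨hF, hG, O1⟩ := mode_pair_fin (Q := Q) (J := nn + 2) (s1 := fun t => c * hφ t)
    (s2 := fun t => c * hγ t) hd hm hP hq hlam rF rG (by omega) (by omega)
    (contDiff_const.mul O0.sF) (contDiff_const.mul O0.sG)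
    ((w0.const_mul c).congr fun r hr => by
      rw [O0.eF r (lt_trans zero_lt_one hr)]; ring)
    ((w0'.const_mul c).congr fun r hr => by
      rw [O0.eG r (lt_trans zero_lt_one hr)]; ring)
    (fun r hr => by rw [e1 r hr, O0.eF r hr]; ring)
    (fun r hr => by rw [e2 r hr, O0.eG r hr]; ring)
  obtain ⟨h, hh, hnu⟩ := exists_harm (d := d) (by omega) l
  set P : E d → ℂ := fun y => (pev h y : ℂ) with hPdef
  have HP : HarmP l P := harmP_of_harm hh
  obtain ⟨A1, wA1⟩ := O1.wien1 P HP (d + 2) le_rfl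
  obtain ⟨A2, wA2⟩ := O1.wien2 P HP (d + 2) le_rfl
  obtain ⟨A3, wA3⟩ := O0.wien1 P HP (d + 2) (by omega)
  obtain ⟨A4, wA4⟩ := O0.wien2 P HP (d + 2) (by omega)
  obtain ⟨⟨α0, α, X1, X2⟩, ⟨β0, β, X3, X4⟩⟩ := H m l w lam lam0 c Q (modeFn hF P) (modeFn hG P)
    (modeFn hφ P) (modeFn hγ P) h A ε (max (max A1 A2) (max A3 A4)) hm hlam hlam0 hA hh
    (wA1.mono ((le_max_left _ _).trans (le_max_left _ _)))
    (wA2.mono ((le_max_right _ _).trans (le_max_left _ _)))
    (wA3.mono ((le_max_left _ _).trans (le_max_right _ _)))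
    (wA4.mono ((le_max_right _ _).trans (le_max_right _ _)))
    (O0.smooth1 P HP) (O0.smooth2 P HP) dV1 dV2 dV3
    (fun x => by rw [O0.eq1 P HP x, modeFn_zero, add_zero])
    (fun x => by rw [O0.eq2 P HP x, modeFn_zero, add_zero])
    (fun x => by rw [O1.eq1 P HP x]; simp only [modeFn]; ring)
    (fun x => by rw [O1.eq2 P HP x]; simp only [modeFn]; ring) t1 t2 hsmall
  set N0 : ℝ := Real.sqrt (massN d φ γ ρ3) with hN0
  set N1 : ℝ := Real.sqrt (massN d F G ρ3) with hN1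
  have hN00 : 0 ≤ N0 := Real.sqrt_nonneg _
  have hN10 : 0 ≤ N1 := Real.sqrt_nonneg _
  set Xn : ℝ := ((‖lam‖ + ‖lam0‖ + |w| + m + 2) * A) ^ n with hXn
  have hXn0 : 0 ≤ Xn := by
    rw [hXn]
    have : 0 ≤ A := by linarith
    positivity
  set S : ℝ := Real.sqrt (2 * ρ3 ^ d) + 1 with hS
  have hS0 : 0 ≤ S := by rw [hS]; positivity
  have hL0 := lam1_nonneg h
  have hLs := lam1_sq_le h
  have B0 := ball_mass (l := l) (by omega) hh O0.sF.continuous O0.sG.continuous O0.eF O0.eG hρ3.le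
  have B1 := ball_mass (l := l) (by omega) hh O1.sF.continuous O1.sG.continuous O1.eF O1.eG hρ3.le
  rw [← hPdef, ← hS, ← hN0] at B0
  rw [← hPdef, ← hS, ← hN1] at B1
  set I0 : ℝ := ∫ x in closedBall (0 : E d) ρ3, (‖modeFn hφ P x‖ + ‖modeFn hγ P x‖) with hI0
  set I1 : ℝ := ∫ x in closedBall (0 : E d) ρ3, (‖modeFn hF P x‖ + ‖modeFn hG P x‖) with hI1
  have m0 : lam1 h * (C * Xn * ε * I0) ≤ lam1 h * ((C * Xn * ε * (S * N0)) * lam1 h) := by
    refine mul_le_mul_of_nonneg_left ?_ hL0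
    calc C * Xn * ε * I0 ≤ C * Xn * ε * (lam1 h * (S * N0)) :=
          mul_le_mul_of_nonneg_left B0 (by positivity)
      _ = _ := by ring
  have m1 : lam1 h * (C * Xn * ε * (I1 + ‖c‖ * I0)) ≤
      lam1 h * ((C * Xn * ε * (S * (N1 + ‖c‖ * N0))) * lam1 h) := by
    refine mul_le_mul_of_nonneg_left ?_ hL0
    have h5 : ‖c‖ * I0 ≤ ‖c‖ * (lam1 h * (S * N0)) :=
      mul_le_mul_of_nonneg_left B0 (norm_nonneg _)
    calc C * Xn * ε * (I1 + ‖c‖ * I0) ≤
          C * Xn * ε * (lam1 h * (S * N1) + ‖c‖ * (lam1 h * (S * N0))) :=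
          mul_le_mul_of_nonneg_left (add_le_add B1 h5) (by positivity)
      _ = _ := by ring
  have haa : aa m = 1 / (2 * (m : ℝ)) := rfl
  have hmR : (1 : ℝ) ≤ m := by exact_mod_cast hm
  have haa0 : 0 < aa m := by rw [haa]; positivity
  have hnuC : (nu2 h : ℂ) ≠ 0 := by exact_mod_cast hnu.ne'
  have re1 : 0 < (lam + (aa m : ℂ)).re := by simp; linarith
  have re0 : 0 < (lam0 + (aa m : ℂ)).re := by simp; linarith
  have re1' : 0 < (conj (lam + (aa m : ℂ))).re := by simp; linarith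
  have re0' : 0 < (conj (lam0 + (aa m : ℂ))).re := by simp; linarith
  have cs : ∀ z : ℂ, conj (z + (aa m : ℂ)) = conj z + (aa m : ℂ) := fun z => by
    rw [map_add, Complex.conj_ofReal]
  have ee0 : 2 * Real.pi * (kap d * (C * Xn * ε * (S * N0))) = e * N0 := by rw [he]; ring
  have ee1 : 2 * Real.pi * (kap d * (C * Xn * ε * (S * (N1 + ‖c‖ * N0)))) =
      e * (N1 + ‖c‖ * N0) := by rw [he]; ring
  have d0 : 0 ≤ C * Xn * ε * (S * N0) := by positivity
  have d1 : 0 ≤ C * Xn * ε * (S * (N1 + ‖c‖ * N0)) := by positivity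
  refine ⟨α / nu2 h, conj (β / nu2 h), α0 / nu2 h, conj (β0 / nu2 h), fun r hr => ?_⟩
  rw [← ee0, ← ee1]
  refine ⟨?_, ?_, ?_, ?_⟩
  · refine nearJ_of_close hnu hLs d0 h1 (fun r hr => momC_mode hh O0.eF hr) (fun r hr => ?_)
      (X1.mono m0) r hr
    rw [mJ_eq_DD re0 _ _ _ hr]
    field_simp
    ring
  · have key := nearJ_of_close hnu hLs d0 h1
      (M := momC (fun x => conj (modeFn hγ P x)) h) (F := fun t => conj (γ t))
      (T := fun t => mJ d l w (conj (lam0 + (aa m : ℂ))) (conj (lam0 + (aa m : ℂ)))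
        (conj (conj (β0 / nu2 h))) (conj 0) (conj 0) t) (fun r hr => by
        rw [momC_conj, momC_mode hh O0.eG hr, map_mul, Complex.conj_ofReal]) (fun r hr => by
        rw [mJ_eq_DD re0' _ _ _ hr, cs]
        simp only [Complex.conj_conj, map_zero]
        field_simp
        ring) (X3.mono m0) r hr
    have k2 := nearJ_conj key
    simp only [conj_mJ] at k2
    exact k2
  · refine nearJ_of_close hnu hLs d1 h1 (fun r hr => momC_mode hh O1.eF hr) (fun r hr => ?_)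
      (X2.mono m1) r hr
    rw [mJ_eq_DD re1 _ _ _ hr]
    field_simp
  · have key := nearJ_of_close hnu hLs d1 h1
      (M := momC (fun x => conj (modeFn hG P x)) h) (F := fun t => conj (G t))
      (T := fun t => mJ d l w (conj (lam + (aa m : ℂ))) (conj (lam0 + (aa m : ℂ)))
        (conj (conj (β / nu2 h))) (conj (conj (β0 / nu2 h))) (conj c) t) (fun r hr => by
        rw [momC_conj, momC_mode hh O1.eG hr, map_mul, Complex.conj_ofReal]) (fun r hr => by
        rw [mJ_eq_DD re1' _ _ _ hr, cs, cs]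
        simp only [Complex.conj_conj]
        field_simp) (X4.mono m1) r hr
    have k2 := nearJ_conj key
    simp only [conj_mJ] at k2
    exact k2

end Vale.Agent.P139.H901
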