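import Vale.Agent.P139.H901.Scal
import Vale.Agent.P139.H901.Decay3
import Vale.Agent.P139.H901.ExtJ

/-! P139, block [X], X8: preparations for the exterior representation of pairs. -/

open Set Filter Topology Complex MeasureTheory Metric
open scoped ContDiff ComplexConjugate
open Vale.Agent.P139.BU
open Vale.Agent.P139.H201 (WienerRep nd)
open Vale.Agent.P139.H305 (DB interior_LL exists_cut cut_bound)
open Vale.Agent.P139.H607 (massN)
open Vale.Agent.P139.H745 (PhJ PhJs mJ mJs)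
open Vale.Agent.P139.KU (aE bE)

namespace Vale.Agent.P139.H901

/-- lowering the order of a Wiener representation -/
theorem wiener_of_le {d s s' : ℕ} (h : s ≤ s') {f : E d → ℂ} {A : ℝ} (hf : WienerRep s' f A) :
    WienerRep s f (2 * A) := by
  obtain ⟨φ, h1, h2, h3, h4⟩ := hf
  have key : ∀ ξ : E d, (1 + ‖ξ‖ ^ s) * ‖φ ξ‖ ≤ 2 * ((1 + ‖ξ‖ ^ s') * ‖φ ξ‖) := by
    intro ξ
    have h0 : 0 ≤ ‖ξ‖ := norm_nonneg ξ
    have hp : 1 + ‖ξ‖ ^ s ≤ 2 * (1 + ‖ξ‖ ^ s') := by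
      rcases le_total ‖ξ‖ 1 with h' | h'
      · have := pow_le_one₀ h0 h' (n := s)
        have h5 : 0 ≤ ‖ξ‖ ^ s' := by positivity
        linarith
      · have := pow_le_pow_right₀ h' h
        have h5 : 0 ≤ ‖ξ‖ ^ s' := by positivity
        linarith
    calc (1 + ‖ξ‖ ^ s) * ‖φ ξ‖ ≤ (2 * (1 + ‖ξ‖ ^ s')) * ‖φ ξ‖ :=
          mul_le_mul_of_nonneg_right hp (norm_nonneg _)
      _ = _ := by ring
  have hint : Integrable (fun ξ : E d => (1 + ‖ξ‖ ^ s) * ‖φ ξ‖) := by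
    refine (h2.const_mul 2).mono' ?_ (Eventually.of_forall fun ξ => ?_)
    · exact (by fun_prop : Continuous fun ξ : E d => 1 + ‖ξ‖ ^ s).aestronglyMeasurable.mul
        h1.aestronglyMeasurable.norm
    · rw [Real.norm_of_nonneg (by positivity)]
      exact key ξ
  refine ⟨φ, h1, hint, h3, ?_⟩
  calc ∫ ξ, (1 + ‖ξ‖ ^ s) * ‖φ ξ‖ ≤ ∫ ξ, 2 * ((1 + ‖ξ‖ ^ s') * ‖φ ξ‖) :=
        integral_mono hint (h2.const_mul 2) key
    _ = 2 * ∫ ξ, (1 + ‖ξ‖ ^ s') * ‖φ ξ‖ := integral_const_mul _ _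
    _ ≤ 2 * A := by linarith

theorem DB.of_le {d n n' : ℕ} (h : n ≤ n') {R A : ℝ} {p : E d → ℂ} (hp : DB n' R A p) :
    DB n R A p :=
  ⟨hp.1.of_le (by exact_mod_cast h), fun i hi x hx => hp.2 i (hi.trans h) x hx⟩

theorem DB.of_radius_le {d n : ℕ} {R R' A : ℝ} (h : R ≤ R') {p : E d → ℂ} (hp : DB n R' A p) :
    DB n R A p :=
  ⟨hp.1, fun i hi x hx => hp.2 i hi x (hx.trans h)⟩

/-- interior derivative bounds of eigenfunctions -/
theorem int_deriv (d n : ℕ) {ρ2 ρ3 : ℝ} (h2 : 0 < ρ2) (h23 : ρ2 < ρ3) :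
    ∃ (N : ℕ) (C : ℝ), 0 < C ∧ ∀ (m : ℕ) (w : ℝ) (lam : ℂ) (Q f g : E d → ℂ) (A : ℝ), 1 ≤ m →
      1 ≤ A → ContDiff ℝ 2 f → ContDiff ℝ 2 g →
      DB N ρ3 A (fun x => W1 m (Q x)) → DB N ρ3 A (fun x => W2 m (Q x)) →
      DB N ρ3 A (fun x => conj (W2 m (Q x))) →
      (∀ x, LL1 m w Q f g x = lam * f x) → (∀ x, LL2 m w Q f g x = lam * g x) →
      ∀ i ≤ n, ∀ x, ‖x‖ ≤ ρ2 →
        ‖iteratedFDeriv ℝ i f x‖ ≤ C * ((‖lam‖ + |w| + m + 2) * A) ^ N *
          (∫ x in closedBall (0 : E d) ρ3, (‖f x‖ + ‖g x‖)) ∧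
        ‖iteratedFDeriv ℝ i g x‖ ≤ C * ((‖lam‖ + |w| + m + 2) * A) ^ N *
          (∫ x in closedBall (0 : E d) ρ3, (‖f x‖ + ‖g x‖)) := by
  set a : ℝ := (2 * ρ2 + ρ3) / 3 with ha
  set b : ℝ := (ρ2 + 2 * ρ3) / 3 with hb
  have ha2 : ρ2 < a := by rw [ha]; linarith
  have hab : a < b := by rw [ha, hb]; linarith
  have hb3 : b < ρ3 := by rw [hb]; linarith
  have ha0 : 0 < a := h2.trans ha2
  obtain ⟨ψ, q1, q2, q3, q4, -⟩ := exists_cut (d := d) ha0 hab
  obtain ⟨N, C0, hC0, -, H⟩ := interior_LL d n (ha0.trans hab) hb3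
  obtain ⟨A1, hA1, HA⟩ := cut_bound N q1 q2 q4
  obtain ⟨c1, c2⟩ := HA (fun _ => 1) 1 zero_le_one contDiff_const (fun i _ x _ => by
    rcases Nat.eq_zero_or_pos i with rfl | hi
    · simp
    · rw [iteratedFDeriv_const_of_ne (by omega)]
      simp)
  simp only [mul_one] at c1 c2
  refine ⟨N, (2 * Real.pi) ^ n * (C0 * A1) * 1, by positivity, ?_⟩
  intro m w lam Q f g A hm hA hf hg hV1 hV2 hV3 hL1 hL2 i hi x hx
  have hm0 : (1 : ℝ) ≤ m := by exact_mod_cast hm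
  have hz : DB N ρ3 0 (fun _ : E d => (0 : ℂ)) := ⟨contDiff_const, fun i _ x _ => by
    rcases Nat.eq_zero_or_pos i with rfl | hi
    · simp
    · rw [iteratedFDeriv_const_of_ne (by omega)]
      simp⟩
  obtain ⟨r1, r2⟩ := H m w lam Q f g (fun _ => 0) (fun _ => 0) A 0 hA le_rfl hf hg hV1 hV2 hV3 hz
    hz (fun x _ => by rw [hL1 x, add_zero]) (fun x _ => by rw [hL2 x, add_zero]) ψ A1 hA1.le
    c1 q4 c2
  rw [add_zero] at r1 r2
  set I0 : ℝ := ∫ x in closedBall (0 : E d) ρ3, (‖f x‖ + ‖g x‖) with hI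
  have hI0 : 0 ≤ I0 := integral_nonneg fun x => by positivity
  have haa : aa m = 1 / (2 * (m : ℝ)) := rfl
  have haa1 : |aa m| ≤ 1 := by
    rw [haa, abs_of_pos (by positivity), div_le_one (by positivity)]
    linarith
  have hYZ : (‖lam‖ + |w| + |aa m| + m + 1) * A ≤ (‖lam‖ + |w| + m + 2) * A :=
    mul_le_mul_of_nonneg_right (by linarith) (by linarith)
  have hmono : C0 * A1 * ((‖lam‖ + |w| + |aa m| + m + 1) * A) ^ N * I0 ≤
      C0 * A1 * ((‖lam‖ + |w| + m + 2) * A) ^ N * I0 := by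
    have h0 : 0 ≤ (‖lam‖ + |w| + |aa m| + m + 1) * A := by positivity
    gcongr
  have hfin : ∀ u : E d → ℂ, WienerRep n (fun x => ψ x * u x)
      (C0 * A1 * ((‖lam‖ + |w| + |aa m| + m + 1) * A) ^ N * I0) →
      ‖iteratedFDeriv ℝ i u x‖ ≤ (2 * Real.pi) ^ n * (C0 * A1) * 1 *
        ((‖lam‖ + |w| + m + 2) * A) ^ N * I0 := by
    intro u hu
    have e1 : (fun x => ψ x * u x) =ᶠ[𝓝 x] u := by
      have : {y : E d | ‖y‖ < a} ∈ 𝓝 x :=
        (isOpen_lt continuous_norm continuous_const).mem_nhds (lt_of_le_of_lt hx ha2)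
      filter_upwards [this] with y hy
      rw [q3 y (le_of_lt hy), one_mul]
    rw [← (e1.iteratedFDeriv ℝ i).eq_of_nhds]
    have h1 := H744.WienerRep.iteratedFDeriv_le hu hi x
    have h2 : (2 * Real.pi) ^ i ≤ (2 * Real.pi) ^ n :=
      pow_le_pow_right₀ (by linarith [Real.pi_gt_three]) hi
    calc ‖iteratedFDeriv ℝ i (fun x => ψ x * u x) x‖
        ≤ (2 * Real.pi) ^ i * (C0 * A1 * ((‖lam‖ + |w| + |aa m| + m + 1) * A) ^ N * I0) := h1
      _ ≤ (2 * Real.pi) ^ n * (C0 * A1 * ((‖lam‖ + |w| + m + 2) * A) ^ N * I0) :=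
        mul_le_mul h2 hmono hu.nonneg (by positivity)
      _ = _ := by ring
  exact ⟨hfin f r1, hfin g r2⟩

/-- Cauchy–Schwarz with a weight -/
theorem cs_aux {ρ : ℝ} (hρ : 0 ≤ ρ) {a w : ℝ → ℝ} (ca : Continuous a) (cw : Continuous w)
    (hw : ∀ r, 0 ≤ r → 0 ≤ w r) :
    (∫ r in (0 : ℝ)..ρ, a r * w r) ^ 2 ≤
      (∫ r in (0 : ℝ)..ρ, w r) * ∫ r in (0 : ℝ)..ρ, a r ^ 2 * w r := by
  have key : ∀ t : ℝ, 0 ≤ (∫ r in (0 : ℝ)..ρ, w r) * (t * t) +
      (-2 * ∫ r in (0 : ℝ)..ρ, a r * w r) * t + ∫ r in (0 : ℝ)..ρ, a r ^ 2 * w r := by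
    intro t
    have h0 : 0 ≤ ∫ r in (0 : ℝ)..ρ, (t - a r) ^ 2 * w r :=
      intervalIntegral.integral_nonneg hρ fun r hr => mul_nonneg (sq_nonneg _) (hw r hr.1)
    have i1 : IntervalIntegrable (fun r => w r * (t * t)) volume 0 ρ :=
      (by fun_prop : Continuous fun r => w r * (t * t)).intervalIntegrable _ _
    have i2 : IntervalIntegrable (fun r => -2 * (a r * w r) * t) volume 0 ρ :=
      (by fun_prop : Continuous fun r => -2 * (a r * w r) * t).intervalIntegrable _ _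
    have i3 : IntervalIntegrable (fun r => a r ^ 2 * w r) volume 0 ρ :=
      (by fun_prop : Continuous fun r => a r ^ 2 * w r).intervalIntegrable _ _
    have e : ∫ r in (0 : ℝ)..ρ, (t - a r) ^ 2 * w r =
        ∫ r in (0 : ℝ)..ρ, (w r * (t * t) + -2 * (a r * w r) * t + a r ^ 2 * w r) := by
      congr 1
      funext r
      ring
    rw [e, intervalIntegral.integral_add (i1.add i2) i3, intervalIntegral.integral_add i1 i2,
      intervalIntegral.integral_mul_const, intervalIntegral.integral_mul_const,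
      intervalIntegral.integral_const_mul] at h0
    exact h0
  have := discrim_le_zero key
  unfold discrim at this
  nlinarith [this]

/-- Cauchy–Schwarz for the radial masses -/
theorem mass_cs {d : ℕ} (hd : 1 ≤ d) {ρ : ℝ} (hρ : 0 ≤ ρ) {F G : ℝ → ℂ} {F' G' : ℝ → ℂ}
    (cF : Continuous F') (cG : Continuous G') (eF : ∀ r, 0 < r → F r = F' r)
    (eG : ∀ r, 0 < r → G r = G' r) :
    ∫ r in (0 : ℝ)..ρ, (‖F r‖ + ‖G r‖) * r ^ (d - 1) ≤
      Real.sqrt (2 * ρ ^ d) * Real.sqrt (massN d F G ρ) := by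
  have e1 : ∫ r in (0 : ℝ)..ρ, (‖F r‖ + ‖G r‖) * r ^ (d - 1) =
      ∫ r in (0 : ℝ)..ρ, (‖F' r‖ + ‖G' r‖) * r ^ (d - 1) := by
    refine intervalIntegral.integral_congr_ae (Eventually.of_forall fun r hr => ?_)
    rw [uIoc_of_le hρ] at hr
    simp only [eF r hr.1, eG r hr.1]
  have e2 : massN d F G ρ = ∫ r in (0 : ℝ)..ρ, (‖F' r‖ ^ 2 + ‖G' r‖ ^ 2) * r ^ (d - 1) := by
    refine intervalIntegral.integral_congr_ae (Eventually.of_forall fun r hr => ?_)
    rw [uIoc_of_le hρ] at hr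
    simp only [eF r hr.1, eG r hr.1]
  have c1 := cs_aux hρ (a := fun r => ‖F' r‖ + ‖G' r‖) (w := fun r => r ^ (d - 1))
    (by fun_prop) (by fun_prop) (fun r hr => by positivity)
  have W1 : ∫ r in (0 : ℝ)..ρ, r ^ (d - 1) ≤ ρ ^ d := by
    rw [integral_pow]
    have : ((d - 1 : ℕ) : ℝ) + 1 = d := by
      have : (d - 1) + 1 = d := by omega
      exact_mod_cast this
    rw [this, Nat.sub_add_cancel hd, zero_pow (by omega), sub_zero]
    have hd' : (1 : ℝ) ≤ d := by exact_mod_cast hd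
    exact div_le_self (by positivity) hd'
  have M1 : ∫ r in (0 : ℝ)..ρ, (‖F' r‖ + ‖G' r‖) ^ 2 * r ^ (d - 1) ≤ 2 * massN d F G ρ := by
    rw [e2, ← intervalIntegral.integral_const_mul]
    refine intervalIntegral.integral_mono_on hρ
      ((by fun_prop : Continuous fun r => (‖F' r‖ + ‖G' r‖) ^ 2 * r ^ (d - 1)).intervalIntegrable
        _ _)
      ((by fun_prop : Continuous fun r => 2 * ((‖F' r‖ ^ 2 + ‖G' r‖ ^ 2) *
        r ^ (d - 1))).intervalIntegrable _ _) fun r hr => ?_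
    have h1 : (‖F' r‖ + ‖G' r‖) ^ 2 ≤ 2 * (‖F' r‖ ^ 2 + ‖G' r‖ ^ 2) := by
      nlinarith [sq_nonneg (‖F' r‖ - ‖G' r‖)]
    rw [← mul_assoc]
    exact mul_le_mul_of_nonneg_right h1 (pow_nonneg hr.1 _)
  have hM0 : 0 ≤ massN d F G ρ := by
    rw [e2]
    exact intervalIntegral.integral_nonneg hρ fun r hr => by
      have := hr.1
      positivity
  rw [e1, ← Real.sqrt_mul (by positivity)]
  apply Real.le_sqrt_of_sq_le
  refine c1.trans ?_
  have hW0 : 0 ≤ ∫ r in (0 : ℝ)..ρ, r ^ (d - 1) :=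
    intervalIntegral.integral_nonneg hρ fun r hr => by
      have := hr.1
      positivity
  calc (∫ r in (0 : ℝ)..ρ, r ^ (d - 1)) *
        ∫ r in (0 : ℝ)..ρ, (‖F' r‖ + ‖G' r‖) ^ 2 * r ^ (d - 1)
      ≤ ρ ^ d * (2 * massN d F G ρ) := by
        refine mul_le_mul W1 M1 ?_ (by positivity)
        exact intervalIntegral.integral_nonneg hρ fun r hr => by
          have := hr.1
          positivity
    _ = _ := by ring

/-- the divided difference of the slow solutions -/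
theorem mJ_eq_DD {d l : ℕ} {w : ℝ} {x x0 : ℂ} (hx : 0 < x.re) (α α0 c : ℂ)
    {r : ℝ} (hr : 0 < r) :
    mJ d l w x x0 α α0 c r = α * Ph d l (x - I * w) r +
      c * α0 * DD d l (x - I * w) (x0 - I * w) r := by
  have h1 : ∀ y : ℂ, aE l w y = y - I * w + l / 2 := fun y => by unfold aE; ring
  have h2 : ∀ y : ℂ, bE d l - aE l w y - 1 = (d : ℂ) / 2 + l / 2 - 1 - (y - I * w) := fun y => by
    unfold aE bE; ring
  have hp : ∀ y : ℂ, PhJ d l w y r = Ph d l (y - I * w) r := by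
    intro y
    rw [PhJ, Ph, h1, ← h2, h1]
  have hl : 0 < x.re + l / 2 := by positivity
  rw [mJ, hp]
  congr 2
  by_cases h : x = x0
  · subst h
    rw [H745.dslope_PhJ_self hl hr, DD, if_pos rfl, dPh, h2, h1]
  · have h' : x - I * w ≠ x0 - I * w := fun h2 => h (by linear_combination h2)
    rw [dslope_of_ne _ h, slope_def_field, DD, if_neg h', hp, hp]
    congr 1
    ring

end Vale.Agent.P139.H901
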