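import Vale.Agent.P139.H901.Mom
import Vale.Agent.P139.H744.Rep

/-! P139, block [X], X8: exterior description of one component, scalar form. -/

open Set Filter Topology Complex MeasureTheory
open scoped ContDiff
open Vale.Agent.P139.BU
open Vale.Agent.P139.H201 (WienerRep)
open Vale.Agent.P139.H744 (L00 resEx resBd)
open Vale.Agent.P139.H889 (momC)
open Vale.Agent.P225 (Harm pev sig)

namespace Vale.Agent.P139.H901

/-- `∫_S |h|` -/
noncomputable def lam1 {d : ℕ} (h : MvPolynomial (Fin d) ℝ) : ℝ :=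
  ∫ θ : Metric.sphere (0 : E d) 1, |pev h (θ : E d)| ∂(sig d)

theorem lam1_nonneg {d : ℕ} (h : MvPolynomial (Fin d) ℝ) : 0 ≤ lam1 h :=
  integral_nonneg fun _ => abs_nonneg _

variable {d s l : ℕ}

/-- moments of small functions are small, with one derivative -/
theorem momC_small (hs : 1 ≤ s) {h : MvPolynomial (Fin d) ℝ} {r : E d → ℂ} {B : ℝ}
    (hr : WienerRep s r B) (ρ : ℝ) :
    ‖momC r h ρ‖ ≤ lam1 h * B ∧ ‖deriv (momC r h) ρ‖ ≤ lam1 h * (2 * Real.pi * B) := by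
  have hc : ContDiff ℝ s r := H744.WienerRep.contDiff hr
  constructor
  · have h0 := H889.norm_iteratedDeriv_momC_le_fin (k := 0)
      (hc.of_le (by exact_mod_cast Nat.zero_le s)) h ρ (B := B) (fun x _ => by
        simpa using H744.WienerRep.iteratedFDeriv_le hr (Nat.zero_le s) x)
    rw [iteratedDeriv_zero] at h0
    exact h0
  · have h1 := H889.norm_iteratedDeriv_momC_le_fin (k := 1)
      (hc.of_le (by exact_mod_cast hs)) h ρ (B := 2 * Real.pi * B) (fun x _ => by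
        simpa using H744.WienerRep.iteratedFDeriv_le hr hs x)
    rw [iteratedDeriv_one] at h1
    exact h1

theorem contDiff_momC_of_wiener {h : MvPolynomial (Fin d) ℝ} {r : E d → ℂ} {B : ℝ}
    (hr : WienerRep s r B) : ContDiff ℝ s (momC r h) :=
  H889.contDiff_momC_fin (H744.WienerRep.contDiff hr) h

theorem momC_add_of_wiener {h : MvPolynomial (Fin d) ℝ} {u v : E d → ℂ} {A B : ℝ}
    (hu : WienerRep s u A) (hv : WienerRep s v B) :
    momC (fun y => u y + v y) h = fun ρ => momC u h ρ + momC v h ρ := by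
  funext ρ
  exact H889.momC_add (H889.contSph_of_continuous (H744.WienerRep.contDiff hu).continuous ρ)
    (H889.contSph_of_continuous (H744.WienerRep.contDiff hv).continuous ρ) h

/-- free part: outside the support of the source the moment is a multiple of the slow solution -/
theorem momC_free [NeZero d] (hd : 2 ≤ d) (hs : d + 2 ≤ s) {h : MvPolynomial (Fin d) ℝ}
    (hh : Harm l h) {κ : ℂ} (hκ : 0 < κ.re) {ρ1 : ℝ} (h1 : 0 < ρ1) {p H : E d → ℂ} {A : ℝ}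
    (hp : WienerRep s p A) (ep : ∀ y, κ * p y - L00 p y = H y)
    (hH : ∀ y, ρ1 < ‖y‖ → H y = 0) :
    ∃ α : ℂ, ∀ ρ, ρ1 < ρ → momC p h ρ = α * Ph d l κ ρ := by
  refine momC_hom h1 hd hs hκ hh (H744.WienerRep.contDiff hp) (fun _ hk =>
    ⟨_, fun y => H744.WienerRep.iteratedFDeriv_le hp hk y⟩) fun y hy => ?_
  have := ep y
  rw [hH y hy] at this
  exact this

theorem momC_free_src [NeZero d] (hd : 2 ≤ d) (hs : d + 2 ≤ s) {h : MvPolynomial (Fin d) ℝ}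
    (hh : Harm l h) {κ κ0 : ℂ} (hκ : 0 < κ.re) (hκ0 : 0 < κ0.re) {ρ1 : ℝ} (h1 : 0 < ρ1)
    {q g : E d → ℂ} {A B : ℝ} (hq : WienerRep s q A) (hg : WienerRep s g B)
    (eq : ∀ y, κ * q y - L00 q y = g y) {α0 : ℂ}
    (hgs : ∀ ρ, ρ1 < ρ → momC g h ρ = α0 * Ph d l κ0 ρ) :
    ∃ α : ℂ, ∀ ρ, ρ1 < ρ → momC q h ρ = α * Ph d l κ ρ - α0 * DD d l κ κ0 ρ :=
  momC_src h1 hd hs hκ hκ0 hh (H744.WienerRep.contDiff hq) (fun _ hk =>
    ⟨_, fun y => H744.WienerRep.iteratedFDeriv_le hq hk y⟩)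
    (H744.WienerRep.contDiff hg).continuous (fun y _ => eq y) hgs

/-- `C¹` closeness on a half line -/
def Close1 (ρ1 δ : ℝ) (M S : ℝ → ℂ) : Prop :=
  ∀ ρ, ρ1 < ρ → ‖M ρ - S ρ‖ ≤ δ ∧ ‖deriv M ρ - deriv S ρ‖ ≤ 2 * Real.pi * δ

theorem close1_of_add (hs : 1 ≤ s) {h : MvPolynomial (Fin d) ℝ} {u p r : E d → ℂ} {A B : ℝ}
    (hu : ∀ y, u y = p y + r y) (hp : WienerRep s p A) (hr : WienerRep s r B) {ρ1 : ℝ}
    {S : ℝ → ℂ} (hS : ∀ ρ, ρ1 < ρ → momC p h ρ = S ρ) :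
    Close1 ρ1 (lam1 h * B) (momC u h) S := by
  intro ρ hρ
  have e : momC u h = fun ρ => momC p h ρ + momC r h ρ := by
    rw [← momC_add_of_wiener hp hr]
    congr 1
    exact funext hu
  have hd : deriv (momC p h) ρ = deriv S ρ :=
    Filter.EventuallyEq.deriv_eq (eventuallyEq_of_mem (isOpen_Ioi.mem_nhds hρ) hS)
  have h1 : ((1 : ℕ) : ℕ∞ω) ≤ ((s : ℕ) : ℕ∞ω) := by exact_mod_cast hs
  have dp : DifferentiableAt ℝ (momC p h) ρ :=
    ((contDiff_momC_of_wiener (h := h) hp).of_le h1).differentiable (by simp) ρ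
  have dr : DifferentiableAt ℝ (momC r h) ρ :=
    ((contDiff_momC_of_wiener (h := h) hr).of_le h1).differentiable (by simp) ρ
  obtain ⟨b1, b2⟩ := momC_small hs (h := h) hr ρ
  rw [e, deriv_fun_add dp dr, hd]
  beta_reduce
  rw [hS ρ hρ]
  constructor
  · simpa using b1
  · have : deriv S ρ + deriv (momC r h) ρ - deriv S ρ = deriv (momC r h) ρ := by ring
    rw [this]
    linarith

/-- **scalar E2** -/
theorem scalar_E2 [NeZero d] (hd : 2 ≤ d) (hs : d + 2 ≤ s) {h : MvPolynomial (Fin d) ℝ}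
    (hh : Harm l h) {κ : ℂ} (hκ : 0 < κ.re) {ρ1 : ℝ} (h1 : 0 < ρ1) {u p r H : E d → ℂ}
    {A B : ℝ} (hu : ∀ y, u y = p y + r y) (ep : ∀ y, κ * p y - L00 p y = H y)
    (hH : ∀ y, ρ1 < ‖y‖ → H y = 0) (hp : WienerRep s p A) (hr : WienerRep s r B) :
    ∃ α : ℂ, (∀ ρ, ρ1 < ρ → momC p h ρ = α * Ph d l κ ρ) ∧
      Close1 ρ1 (lam1 h * B) (momC u h) (fun ρ => α * Ph d l κ ρ) := by
  obtain ⟨α, hα⟩ := momC_free hd hs hh hκ h1 hp ep hH
  exact ⟨α, hα, close1_of_add (by omega) hu hp hr hα⟩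

/-- **scalar E3** -/
theorem scalar_E3 [NeZero d] (hd : 2 ≤ d) (hs : d + 2 ≤ s) {h : MvPolynomial (Fin d) ℝ}
    (hh : Harm l h) {κ κ0 c : ℂ} (hκ : 0 < κ.re) (hκ0 : 0 < κ0.re) {ρ1 : ℝ} (h1 : 0 < ρ1)
    {u p q r H φ p0 r0 H0 : E d → ℂ} {A A' A0 B B0 : ℝ}
    (hφ : ∀ y, φ y = p0 y + r0 y) (ep0 : ∀ y, κ0 * p0 y - L00 p0 y = H0 y)
    (hH0 : ∀ y, ρ1 < ‖y‖ → H0 y = 0) (hp0 : WienerRep s p0 A0) (hr0 : WienerRep s r0 B0)
    (hu : ∀ y, u y = p y + q y + r y) (ep : ∀ y, κ * p y - L00 p y = H y)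
    (hH : ∀ y, ρ1 < ‖y‖ → H y = 0) (hp : WienerRep s p A)
    (eq : ∀ y, κ * q y - L00 q y = -(c * φ y)) (hq : WienerRep s q A') (hr : WienerRep s r B) :
    ∃ α0 α : ℂ, Close1 ρ1 (lam1 h * B0) (momC φ h) (fun ρ => α0 * Ph d l κ0 ρ) ∧
      Close1 ρ1 (lam1 h * (B + ‖c‖ * B0 / κ.re)) (momC u h)
        (fun ρ => α * Ph d l κ ρ + c * α0 * DD d l κ κ0 ρ) := by
  have hs2 : 2 ≤ s := by omega
  obtain ⟨α0, hα0, hcl0⟩ := scalar_E2 hd hs hh hκ0 h1 hφ ep0 hH0 hp0 hr0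
  obtain ⟨α, hα⟩ := momC_free hd hs hh hκ h1 hp ep hH
  -- split of `q`
  have hcp0 : WienerRep s (fun y => (-c) * p0 y) (‖-c‖ * A0) := H744.WienerRep.const_mul hp0 (-c)
  obtain ⟨q1, hq1, eq1⟩ := resEx (d := d) hs2 κ hκ _ _ hcp0
  have h2s : (2 : WithTop ℕ∞) ≤ (s : WithTop ℕ∞) := by exact_mod_cast hs2
  have cq : ContDiff ℝ 2 q := (H744.WienerRep.contDiff hq).of_le h2s
  have cq1 : ContDiff ℝ 2 q1 := (H744.WienerRep.contDiff hq1).of_le h2s
  have hcr0 : WienerRep s (fun y => (-c) * r0 y) (‖-c‖ * B0) := H744.WienerRep.const_mul hr0 (-c)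
  have hq2 : WienerRep s (fun y => q y - q1 y) ((‖-c‖ * B0) / κ.re) := by
    refine resBd (d := d) hs2 κ hκ (fun y => q y - q1 y) _ _ _ (H744.WienerRep.sub' hq hq1) hcr0
      fun y => ?_
    rw [H744.L00_sub cq cq1]
    have e1 := eq y
    have e2 := eq1 y
    rw [hφ y] at e1
    linear_combination e1 - e2
  have hgs : ∀ ρ, ρ1 < ρ → momC (fun y => (-c) * p0 y) h ρ = (-(c * α0)) * Ph d l κ0 ρ := by
    intro ρ hρ
    rw [H889.momC_const_mul, hα0 ρ hρ]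
    ring
  obtain ⟨α', hα'⟩ := momC_free_src hd hs hh hκ hκ0 h1 hq1 hcp0 eq1 hgs
  refine ⟨α0, α + α', hcl0, ?_⟩
  have hpq : WienerRep s (fun y => p y + q1 y) (A + ‖-c‖ * A0 / κ.re) :=
    H744.WienerRep.add' hp hq1
  have hrr : WienerRep s (fun y => r y + (q y - q1 y)) (B + ‖-c‖ * B0 / κ.re) :=
    H744.WienerRep.add' hr hq2
  have := close1_of_add (h := h) (by omega) (u := u) (fun y => by rw [hu y]; ring) hpq hrr
    (ρ1 := ρ1) (S := fun ρ => (α + α') * Ph d l κ ρ + c * α0 * DD d l κ κ0 ρ) (fun ρ hρ => by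
      rw [momC_add_of_wiener hp hq1]
      simp only
      rw [hα ρ hρ, hα' ρ hρ]
      ring)
  rwa [norm_neg] at this

end Vale.Agent.P139.H901
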